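import Vale.Agent.P352.N86.K.Defs

/-!
# P352: Lipschitz bounds for the deviation of the null generators (block C3)
-/

set_option linter.all false

noncomputable section

open MeasureTheory Filter Topology SchwartzMap Complex
open scoped SchwartzMap ComplexConjugate ContDiff LineDeriv

namespace Vale.Agent.P352.N86

open GF (Ix V Fn Fld Theory Sch IsLor bas eta o sim pd tr ev bar)
open H246 H496 H755 H15 H846 H246R H746
open UniformSpace (Completion)

variable {D : Type*} [NormedAddCommGroup D] [InnerProductSpace ℂ D]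
variable {Q : GF.Theory D} {T : Ix → Ix → GF.Fld D} {J : Ix → GF.Fld D}
variable {H : D → D} {alg : Set V → Set (D → D)} {S : V → ℝ → D → D} {G : V → D → D}
variable {A : (V → V) → D → D} {l : Fn → Completion D}

namespace C3

/-- time translation -/
def ut (Q : GF.Theory D) (t : ℝ) (v : D) : D := U1 Q (t • eb 0) v

lemma ut_norm (t : ℝ) (v : D) : ‖ut Q t v‖ = ‖v‖ := U1_norm _ _

lemma ut_ut (s t : ℝ) (v : D) : ut Q s (ut Q t v) = ut Q (s + t) v := by
  unfold ut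
  rw [U1_U1_all, add_smul]

lemma ut_zero (v : D) : ut Q 0 v = v := by
  unfold ut
  rw [zero_smul, U1_zero_all]

lemma ut_move (t : ℝ) (v w : D) : inner ℂ v (ut Q (-t) w) = inner ℂ (ut Q t v) w := by
  unfold ut
  rw [neg_smul, U1_move, neg_neg]

lemma ut_sub (t : ℝ) (v w : D) : ut Q t (v - w) = ut Q t v - ut Q t w := U1_sub _ _ _

lemma hd_ut (N : Net Q H alg S) (v : D) (t : ℝ) :
    HasDerivAt (fun s => ut Q s v) (ut Q t (I • H v)) t := by
  have h1 := hasDeriv_H N v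
  have h2 : HasDerivAt (fun s : ℝ => U1 Q ((s - t) • eb 0) v) (I • H v) t :=
    HasDerivAt.comp_sub_const (f := fun s : ℝ => U1 Q (s • eb 0) v) t t (by simpa using h1)
  have h3 := hasDerivAt_U1 (Q := Q) (t • eb 0) h2
  have e : (fun s : ℝ => U1 Q (t • eb 0) (U1 Q ((s - t) • eb 0) v)) = fun s => ut Q s v := by
    funext s
    unfold ut
    rw [U1_U1_all, ← add_smul, add_sub_cancel]
  rw [e] at h3
  exact h3

lemma H_sym (N : Net Q H alg S) (v w : D) : inner ℂ (H v) w = inner ℂ v (H w) := by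
  have h1 := HasDerivAt.inner ℂ (hd_ut N v 0) (hd_ut N w 0)
  have e : (fun t => inner ℂ (ut Q t v) (ut Q t w)) = fun _ => inner ℂ v w := by
    funext t
    exact U1_inner _ _ _
  rw [e] at h1
  have h2 := h1.unique (hasDerivAt_const (0 : ℝ) (inner ℂ v w))
  rw [ut_zero, ut_zero, ut_zero, ut_zero, inner_smul_left, inner_smul_right, conj_I] at h2
  have h3 : I * (inner ℂ v (H w) - inner ℂ (H v) w) = 0 := by
    rw [← h2]; ring
  have h4 := (mul_eq_zero.1 h3).resolve_left I_ne_zero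
  exact (sub_eq_zero.1 h4).symm

/-- the derivation `i [X, H]` -/
def dX (H X : D → D) (u : D) : D := X (I • H u) + (-I) • H (X u)

lemma dX_mem (N : Net Q H alg S) {X : D → D} (hX : X ∈ alg Set.univ) :
    dX H X ∈ alg Set.univ := by
  have h1 := N.mul _ X hX _ (N.smul _ I _ N.energy_mem)
  have h2 := N.smul _ (-I) _ (N.mul _ _ N.energy_mem _ hX)
  exact N.add _ _ h1 _ h2

lemma X_cont (N : Net Q H alg S) {X : D → D} (hX : X ∈ alg Set.univ) (v : D) (t : ℝ) :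
    Tendsto (fun s => X (ut Q s v)) (𝓝 t) (𝓝 (X (ut Q t v))) := by
  have h1 := cont_norm N hX hX (ut Q t v)
  have h2 : Tendsto (fun s : ℝ => ((s - t) • eb 0 : Mink).ofLp) (𝓝 t) (𝓝 0) := by
    have : Continuous (fun s : ℝ => ((s - t) • eb 0 : Mink).ofLp) := by fun_prop
    have h := this.tendsto t
    simpa using h
  refine (h1.comp h2).congr fun s => ?_
  show X (U1 Q ((s - t) • eb 0) (U1 Q (t • eb 0) v)) = X (U1 Q (s • eb 0) v)
  rw [U1_U1_all, ← add_smul, sub_add_cancel]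

lemma X_bdd (N : Net Q H alg S) {X : D → D} (hX : X ∈ alg Set.univ) (v : D) (M : ℝ) :
    ∃ C, 0 ≤ C ∧ ∀ s, |s| ≤ M → ‖X (ut Q s v)‖ ≤ C := by
  obtain ⟨C, m, hC⟩ := N.transl_bdd X hX v
  have hC0 : 0 ≤ C := by
    have := (norm_nonneg _).trans (hC 0)
    simpa using this
  refine ⟨C * (1 + |M|) ^ m, by positivity, fun s hs => ?_⟩
  refine (hC (s • eb 0 : Mink).ofLp).trans ?_
  apply mul_le_mul_of_nonneg_left _ hC0
  apply pow_le_pow_left₀ (by positivity)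
  have : ‖(s • eb 0 : Mink).ofLp‖ ≤ |M| := by
    rw [show (s • eb 0 : Mink).ofLp = bas o s from (bas_eq o s).symm]
    rw [pi_norm_le_iff_of_nonneg (abs_nonneg _)]
    intro n
    unfold bas
    split_ifs
    · rw [Real.norm_eq_abs]; exact hs.trans (le_abs_self M)
    · simp
  linarith

lemma hd_F (N : Net Q H alg S) {X Y : D → D} (hX : X ∈ alg Set.univ) (hadj : Adj X Y)
    (v w : D) (t : ℝ) : HasDerivAt (fun s => inner ℂ (ut Q s w) (X (ut Q s v)))
      (inner ℂ (ut Q t w) (dX H X (ut Q t v))) t := by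
  have hF : (fun s => inner ℂ (ut Q s w) (X (ut Q s v))) = fun s =>
      inner ℂ (ut Q s w - ut Q t w) (X (ut Q s v)) + inner ℂ (Y (ut Q t w)) (ut Q s v) := by
    funext s
    rw [inner_sub_left, hadj.symm (ut Q t w) (ut Q s v), sub_add_cancel]
  rw [hF]
  have h1 : HasDerivAt (fun s => inner ℂ (ut Q s w - ut Q t w) (X (ut Q s v)))
      (inner ℂ (ut Q t (I • H w)) (X (ut Q t v))) t := by
    rw [hasDerivAt_iff_tendsto_slope]
    have h2 := hasDerivAt_iff_tendsto_slope.1 (hd_ut N w t)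
    have h3 : Tendsto (fun s => X (ut Q s v)) (𝓝[≠] t) (𝓝 (X (ut Q t v))) :=
      (X_cont N hX v t).mono_left nhdsWithin_le_nhds
    refine (h2.inner h3).congr fun s => ?_
    rw [slope_def_module, slope_def_module, sub_self, inner_zero_left, sub_zero]
    show inner ℂ ((s - t)⁻¹ • (ut Q s w - ut Q t w)) (X (ut Q s v)) =
      (s - t)⁻¹ • inner ℂ (ut Q s w - ut Q t w) (X (ut Q s v))
    rw [show ((s - t)⁻¹ • (ut Q s w - ut Q t w) : D) =
      (((s - t)⁻¹ : ℝ) : ℂ) • (ut Q s w - ut Q t w) from rfl, inner_smul_left, conj_ofReal]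
    rfl
  have h4 : HasDerivAt (fun s => inner ℂ (Y (ut Q t w)) (ut Q s v))
      (inner ℂ (Y (ut Q t w)) (ut Q t (I • H v))) t := by
    have h5 := HasDerivAt.inner ℂ (hasDerivAt_const t (Y (ut Q t w))) (hd_ut N v t)
    rwa [inner_zero_left, add_zero] at h5
  have h6 := h1.add h4
  have hval : inner ℂ (ut Q t (I • H w)) (X (ut Q t v)) + inner ℂ (Y (ut Q t w)) (ut Q t (I • H v)) =
      inner ℂ (ut Q t w) (dX H X (ut Q t v)) := by
    have e1 : ut Q t (I • H w) = I • H (ut Q t w) := by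
      unfold ut
      rw [U1_smul, H_comm N]
    have e2 : ut Q t (I • H v) = I • H (ut Q t v) := by
      unfold ut
      rw [U1_smul, H_comm N]
    rw [e1, e2, hadj.symm (ut Q t w) _, dX, inner_add_right, inner_smul_left, conj_I, H_sym N,
      inner_smul_right]
    ring
  rw [← hval]
  exact h6

lemma lipF (N : Net Q H alg S) {X : D → D} (hX : X ∈ alg Set.univ) (v : D) (M : ℝ) :
    ∃ C, 0 ≤ C ∧ ∀ w s t, |s| ≤ M → |t| ≤ M → ‖inner ℂ (ut Q s w) (X (ut Q s v)) -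
      inner ℂ (ut Q t w) (X (ut Q t v))‖ ≤ C * ‖w‖ * |s - t| := by
  obtain ⟨Y, hY, hadj⟩ := N.adj _ X hX
  obtain ⟨C, hC0, hC⟩ := X_bdd N (dX_mem N hX) v M
  refine ⟨C, hC0, fun w s t hs ht => ?_⟩
  have h := Convex.norm_image_sub_le_of_norm_hasDerivWithin_le
    (f := fun s => inner ℂ (ut Q s w) (X (ut Q s v)))
    (f' := fun t => inner ℂ (ut Q t w) (dX H X (ut Q t v))) (s := Set.Icc (-M) M)
    (C := C * ‖w‖) (x := t) (y := s) (fun x hx => (hd_F N hX hadj v w x).hasDerivWithinAt)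
    (fun x hx => by
      refine (norm_inner_le_norm _ _).trans ?_
      rw [ut_norm, mul_comm]
      exact mul_le_mul_of_nonneg_right (hC x (abs_le.2 hx)) (norm_nonneg _))
    (convex_Icc _ _) (abs_le.1 ht) (abs_le.1 hs)
  exact h

lemma lipF2 (N : Net Q H alg S) {X : D → D} (hX : X ∈ alg Set.univ) (v : D) (M : ℝ) :
    ∃ C, 0 ≤ C ∧ ∀ w s t, |s| ≤ M → |t| ≤ M → ‖(inner ℂ (ut Q (s + t) w) (X (ut Q (s + t) v)) -
      inner ℂ (ut Q s w) (X (ut Q s v))) - (inner ℂ (ut Q t w) (X (ut Q t v)) -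
      inner ℂ w (X v))‖ ≤ C * ‖w‖ * |s| * |t| := by
  obtain ⟨Y, hY, hadj⟩ := N.adj _ X hX
  obtain ⟨C, hC0, hC⟩ := lipF N (dX_mem N hX) v (M + M)
  refine ⟨C, hC0, fun w s t hs ht => ?_⟩
  have hM : 0 ≤ M := (abs_nonneg s).trans hs
  have h := Convex.norm_image_sub_le_of_norm_hasDerivWithin_le
    (f := fun s => inner ℂ (ut Q (s + t) w) (X (ut Q (s + t) v)) -
      inner ℂ (ut Q s w) (X (ut Q s v)))
    (f' := fun s => inner ℂ (ut Q (s + t) w) (dX H X (ut Q (s + t) v)) -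
      inner ℂ (ut Q s w) (dX H X (ut Q s v))) (s := Set.Icc (-M) M)
    (C := C * ‖w‖ * |t|) (x := 0) (y := s)
    (fun x hx => ((HasDerivAt.comp_add_const (f := fun s => inner ℂ (ut Q s w) (X (ut Q s v)))
      x t (hd_F N hX hadj v w (x + t))).sub (hd_F N hX hadj v w x)).hasDerivWithinAt)
    (fun x hx => by
      have hx' := abs_le.2 hx
      have h1 := hC w (x + t) x ((abs_add_le _ _).trans (add_le_add hx' ht)) (hx'.trans (by linarith))
      rwa [add_sub_cancel_left] at h1)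
    (convex_Icc _ _) (by constructor <;> linarith) (abs_le.1 hs)
  simp only [zero_add, ut_zero, sub_zero] at h
  rw [Real.norm_eq_abs] at h
  calc _ ≤ C * ‖w‖ * |t| * |s| := h
    _ = _ := by ring

lemma norm_le_of_inner {u : D} {C : ℝ} (hC : 0 ≤ C) (h : ∀ w, ‖inner ℂ w u‖ ≤ C * ‖w‖) :
    ‖u‖ ≤ C := by
  by_cases hu : ‖u‖ = 0
  · rw [hu]; exact hC
  · have h1 := h u
    have h2 : ‖inner ℂ u u‖ = ‖u‖ * ‖u‖ := by
      rw [inner_self_eq_norm_sq_to_K, norm_pow]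
      simp [pow_two]
    rw [h2] at h1
    have hp : 0 < ‖u‖ := lt_of_le_of_ne (norm_nonneg _) (Ne.symm hu)
    exact le_of_mul_le_mul_right h1 hp

lemma lipv (N : Net Q H alg S) {X : D → D} (hX : X ∈ alg Set.univ) (v : D) (M : ℝ) :
    ∃ C, 0 ≤ C ∧ ∀ s, |s| ≤ M → ‖ut Q (-s) (X (ut Q s v)) - X v‖ ≤ C * |s| := by
  obtain ⟨C, hC0, hC⟩ := lipF N hX v M
  refine ⟨C, hC0, fun s hs => norm_le_of_inner (by positivity) fun w => ?_⟩
  have hM : 0 ≤ M := (abs_nonneg s).trans hs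
  have h := hC w s 0 hs (by rwa [abs_zero])
  rw [ut_zero, ut_zero, sub_zero] at h
  rw [inner_sub_right, ut_move]
  refine h.trans (le_of_eq ?_)
  ring

lemma lipv2 (N : Net Q H alg S) {X : D → D} (hX : X ∈ alg Set.univ) (v : D) (M : ℝ) :
    ∃ C, 0 ≤ C ∧ ∀ s t, |s| ≤ M → |t| ≤ M → ‖(ut Q (-(s + t)) (X (ut Q (s + t) v)) - X v) -
      (ut Q (-s) (X (ut Q s v)) - X v) - (ut Q (-t) (X (ut Q t v)) - X v)‖ ≤
      C * |s| * |t| := by
  obtain ⟨C, hC0, hC⟩ := lipF2 N hX v M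
  refine ⟨C, hC0, fun s t hs ht => norm_le_of_inner (by positivity) fun w => ?_⟩
  have h := hC w s t hs ht
  simp only [inner_sub_right, ut_move]
  calc _ = ‖(inner ℂ (ut Q (s + t) w) (X (ut Q (s + t) v)) -
      inner ℂ (ut Q s w) (X (ut Q s v))) - (inner ℂ (ut Q t w) (X (ut Q t v)) -
      inner ℂ w (X v))‖ := by congr 1; ring
    _ ≤ _ := h
    _ = _ := by ring

/-! ### The similitude part -/

/-- the linear part of `Yx a (bas o s)` -/
def Y1 (a z : V) : V := (2 * GF.mdot a z) • bas o 1 + (2 * a o) • z - (2 * z o) • a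

/-- the quadratic part of `Yx a (bas o s)` -/
def Y2 (a : V) (z : V) : V := (2 * a o) • bas o 1 - a

lemma Yx_eq (a : V) (s : ℝ) (z : V) : Yx a (bas o s) z = s • Y1 a z + (s ^ 2) • Y2 a z := by
  have h1 : GF.mdot a (z + bas o s) = GF.mdot a z + s * a o := by
    simp only [GF.mdot, Fin.sum_univ_four, Pi.add_apply, bas, GF.eta, o]
    simp
    ring
  have h2 : GF.mdot (z + bas o s) (z + bas o s) = GF.mdot z z + 2 * s * z o + s ^ 2 := by
    simp only [GF.mdot, Fin.sum_univ_four, Pi.add_apply, bas, GF.eta, o]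
    simp
    ring
  funext n
  simp only [Yx, cK, Y1, Y2, h1, h2, Pi.sub_apply, Pi.add_apply, Pi.smul_apply, smul_eq_mul, bas]
  split_ifs <;> ring

lemma isSim_zero : IsSim 0 (fun _ : V => (0 : V)) := by
  refine ⟨0, fun _ _ => 0, fun m n => by simp, fun z n => by simp⟩

lemma isSim_Y1 (a : V) : IsSim (2 * a o) (Y1 a) := by
  refine ⟨0, fun m n => 2 * GF.eta m * a m * bas o 1 n - 2 * bas o 1 m * a n, fun m n => ?_,
    fun z n => ?_⟩
  · fin_cases m <;> fin_cases n <;> simp [GF.eta, bas, o] <;> ring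
  · simp only [Y1, GF.mdot, Fin.sum_univ_four, Pi.sub_apply, Pi.add_apply, Pi.smul_apply,
      smul_eq_mul, Pi.zero_apply]
    fin_cases n <;> simp [GF.eta, bas, o] <;> ring

lemma isSim_Y2 (a : V) : IsSim 0 (Y2 a) := by
  refine ⟨(2 * a o) • bas o 1 - a, fun _ _ => 0, fun m n => by simp, fun z n => by simp [Y2]⟩

lemma A_zero (R : H15.Rep Q A) (v : D) : A (fun _ => 0) v = 0 := by
  have h := R.add 0 0 1 (fun _ : V => (0 : V)) (fun _ : V => (0 : V)) v isSim_zero isSim_zero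
  have e : (fun z : V => (0 : V) + (1 : ℝ) • (0 : V)) = fun _ => 0 := by
    funext z
    simp
  rw [e, ofReal_one, one_smul] at h
  exact left_eq_add.1 h

lemma isSim_smul {r : ℝ} {X : V → V} (hX : IsSim r X) (c : ℝ) :
    IsSim (c * r) (fun z => c • X z) := by
  obtain ⟨d, w, hw, h⟩ := hX
  refine ⟨c • d, fun m n => c * w m n, fun m n => ?_, fun z n => ?_⟩
  · have := hw m n
    calc GF.eta n * (c * w m n) = c * (GF.eta n * w m n) := by ring
      _ = _ := by rw [this]; ring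
  · show c * X z n = _
    rw [h, Pi.smul_apply]
    simp only [smul_eq_mul, mul_add, Finset.mul_sum]
    congr 1
    · ring
    · exact Finset.sum_congr rfl fun m _ => by ring

lemma A_smul (R : H15.Rep Q A) {r : ℝ} {X : V → V} (hX : IsSim r X) (c : ℝ) (v : D) :
    A (fun z => c • X z) v = (c : ℂ) • A X v := by
  have h := R.add 0 r c (fun _ : V => (0 : V)) X v isSim_zero hX
  simp only [zero_add] at h
  rw [h, A_zero R, zero_add]

lemma A_Yx (R : H15.Rep Q A) (a : V) (s : ℝ) (v : D) :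
    A (Yx a (bas o s)) v = (s : ℂ) • A (Y1 a) v + ((s ^ 2 : ℝ) : ℂ) • A (Y2 a) v := by
  have e : Yx a (bas o s) = fun z => (fun z => s • Y1 a z) z + (s ^ 2) • Y2 a z := by
    funext z
    exact Yx_eq a s z
  rw [e, R.add _ _ (s ^ 2) _ _ v (isSim_smul (isSim_Y1 a) s) (isSim_Y2 a),
    A_smul R (isSim_Y1 a)]

/-- an operator with an adjoint as a linear map -/
def lm {X Y : D → D} (h : Adj X Y) : D →ₗ[ℂ] D where
  toFun := X
  map_add' := h.add
  map_smul' := h.smul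

lemma pw1_W (N : CNet Q H alg S) (R : H15.Rep Q A) {Y : D → D} {n : ℕ} (h : Adj (pw1 H n) Y)
    (a : V) (s : ℝ) (v : D) : pw1 H n (Wop Q G A a (bas o s) v) =
      (ut Q (-s) (pw1 H n (G a (ut Q s v))) - pw1 H n (G a v)) -
      ((s : ℂ) • pw1 H n (A (Y1 a) v) + ((s ^ 2 : ℝ) : ℂ) • pw1 H n (A (Y2 a) v)) := by
  have hs : ∀ u, Q.U 1 GF.one (bas o s) u = ut Q s u := fun u => by rw [bas_eq]; rfl
  have hs' : ∀ u, Q.U 1 GF.one (-bas o s) u = ut Q (-s) u := fun u => by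
    rw [bas_eq]
    unfold ut
    rw [neg_smul]
    rfl
  have hsub : ∀ u w, pw1 H n (u - w) = pw1 H n u - pw1 H n w := fun u w => (lm h).map_sub u w
  rw [Wop, hsub, hsub, A_Yx R, h.add, h.smul, h.smul, hs, hs']
  congr 2
  unfold ut
  rw [pw1_comm N.toNet]

end C3

open C3

theorem lip_W (N : CNet Q H alg S) (Gg : Gnr Q alg S G) (R : H15.Rep Q A) {a : V}
    (ha : IsNull a) (n : ℕ) (t : ℝ) (v : D) : ∃ C, ∀ τ : ℝ, 0 < τ → τ ≤ 1 →
      ‖pw1 H n (Wop Q G A a (bas o (τ * t)) v)‖ ≤ C * τ := by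
  obtain ⟨Y, hY, hadj⟩ := N.adj _ _ (pw1_mem N.toNet n)
  obtain ⟨C, hC0, hC⟩ := lipv N.toNet (N.mul _ _ (pw1_mem N.toNet n) _ (Gg.mem a ha)) v |t|
  refine ⟨C * |t| + |t| * ‖pw1 H n (A (Y1 a) v)‖ + |t| ^ 2 * ‖pw1 H n (A (Y2 a) v)‖,
    fun τ h0 h1 => ?_⟩
  rw [pw1_W N R hadj]
  have habs : |τ * t| = τ * |t| := by rw [abs_mul, abs_of_pos h0]
  have hle : |τ * t| ≤ |t| := by
    rw [habs]
    exact mul_le_of_le_one_left (abs_nonneg _) h1
  have hτ : τ ^ 2 ≤ τ := by nlinarith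
  refine (norm_sub_le _ _).trans ?_
  have b1 := hC (τ * t) hle
  have b2 : ‖((τ * t : ℝ) : ℂ) • pw1 H n (A (Y1 a) v) +
      (((τ * t) ^ 2 : ℝ) : ℂ) • pw1 H n (A (Y2 a) v)‖ ≤
      τ * |t| * ‖pw1 H n (A (Y1 a) v)‖ + τ * |t| ^ 2 * ‖pw1 H n (A (Y2 a) v)‖ := by
    refine (norm_add_le _ _).trans ?_
    rw [norm_smul, norm_smul, norm_real, norm_real, Real.norm_eq_abs, Real.norm_eq_abs, habs,
      abs_pow, habs]
    gcongr
    rw [mul_pow]
    exact mul_le_mul_of_nonneg_right hτ (by positivity)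
  calc _ ≤ C * |τ * t| + (τ * |t| * ‖pw1 H n (A (Y1 a) v)‖ +
        τ * |t| ^ 2 * ‖pw1 H n (A (Y2 a) v)‖) := add_le_add b1 b2
    _ = _ := by rw [habs]; ring

theorem lip2_W (N : CNet Q H alg S) (Gg : Gnr Q alg S G) (R : H15.Rep Q A) {a : V}
    (ha : IsNull a) (n : ℕ) (t s : ℝ) (v : D) : ∃ C, ∀ τ : ℝ, 0 < τ → τ ≤ 1 →
      ‖pw1 H n (Wop Q G A a (bas o (τ * (t + s))) v - Wop Q G A a (bas o (τ * t)) v -
        Wop Q G A a (bas o (τ * s)) v)‖ ≤ C * τ ^ 2 := by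
  obtain ⟨Y, hY, hadj⟩ := N.adj _ _ (pw1_mem N.toNet n)
  obtain ⟨C, hC0, hC⟩ := lipv2 N.toNet (N.mul _ _ (pw1_mem N.toNet n) _ (Gg.mem a ha)) v
    (max |t| |s|)
  refine ⟨C * |t| * |s| + 2 * |t| * |s| * ‖pw1 H n (A (Y2 a) v)‖, fun τ h0 h1 => ?_⟩
  have hsub : ∀ u w, pw1 H n (u - w) = pw1 H n u - pw1 H n w := fun u w => (lm hadj).map_sub u w
  rw [hsub, hsub, pw1_W N R hadj, pw1_W N R hadj, pw1_W N R hadj]
  have habs : ∀ t : ℝ, |τ * t| = τ * |t| := fun t => by rw [abs_mul, abs_of_pos h0]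
  have hle : ∀ t : ℝ, |τ * t| ≤ |t| := fun t => by
    rw [habs]
    exact mul_le_of_le_one_left (abs_nonneg _) h1
  have b1 := hC (τ * t) (τ * s) ((hle t).trans (le_max_left _ _)) ((hle s).trans (le_max_right _ _))
  rw [← mul_add] at b1
  have e : ∀ a1 a2 a3 p q : D, (a1 - (((τ * (t + s) : ℝ) : ℂ) • p +
      (((τ * (t + s)) ^ 2 : ℝ) : ℂ) • q)) - (a2 - (((τ * t : ℝ) : ℂ) • p +
      (((τ * t) ^ 2 : ℝ) : ℂ) • q)) - (a3 - (((τ * s : ℝ) : ℂ) • p +
      (((τ * s) ^ 2 : ℝ) : ℂ) • q)) = (a1 - a2 - a3) - ((2 * τ ^ 2 * t * s : ℝ) : ℂ) • q := by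
    intro a1 a2 a3 p q
    push_cast
    module
  rw [e]
  refine (norm_sub_le _ _).trans ?_
  have b2 : ‖((2 * τ ^ 2 * t * s : ℝ) : ℂ) • pw1 H n (A (Y2 a) v)‖ =
      2 * τ ^ 2 * |t| * |s| * ‖pw1 H n (A (Y2 a) v)‖ := by
    rw [norm_smul, norm_real, Real.norm_eq_abs, abs_mul, abs_mul, abs_mul, abs_pow,
      abs_of_pos h0]
    norm_num
  rw [b2]
  calc _ ≤ C * |τ * t| * |τ * s| + 2 * τ ^ 2 * |t| * |s| * ‖pw1 H n (A (Y2 a) v)‖ :=
        add_le_add_left b1 _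
    _ = _ := by rw [habs, habs]; ring

end Vale.Agent.P352.N86

end
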