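import Vale.Agent.P352.N86.K.Defs

/-!
# Conjugation of the generators of the similitudes by similitudes
-/

set_option linter.all false

noncomputable section

open MeasureTheory Filter Topology SchwartzMap Complex
open scoped SchwartzMap ComplexConjugate ContDiff LineDeriv

namespace Vale.Agent.P352.N86

open GF (Ix V Fn Fld Theory Sch IsLor bas eta o sim pd tr ev bar)
open H246 H496 H755 H15 H846 H246R H746
open UniformSpace (Completion)

variable {D : Type*} [NormedAddCommGroup D] [InnerProductSpace ℂ D]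
variable {Q : GF.Theory D} {T : Ix → Ix → GF.Fld D} {J : Ix → GF.Fld D}
variable {A : (V → V) → D → D}

/-- affine form of a similitude -/
lemma c1_sim (s : ℝ) (L : Ix → V) (a x : V) : sim s L a x = a + s • sim 1 L 0 x := by
  funext n
  simp [sim]

lemma c1_bas (L : Ix → V) (m : Ix) : sim 1 L 0 (bas m 1) = L m := by
  funext n
  simp [sim, bas]

lemma c1_comp (L M : Ix → V) (x : V) :
    sim 1 (fun m => sim 1 L 0 (M m)) 0 x = sim 1 L 0 (sim 1 M 0 x) := by
  funext n
  simp only [sim, Pi.zero_apply, zero_add, one_mul, Fin.sum_univ_four]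
  ring

lemma c1_inj {L : Ix → V} (hL : IsLor L) {x y : V} (h : sim 1 L 0 x = sim 1 L 0 y) : x = y := by
  funext k
  have h3 := md_L hL k x
  rw [h, md_L hL k y] at h3
  have h4 : GF.eta k ≠ 0 := by unfold GF.eta; split_ifs <;> norm_num
  exact (mul_left_cancel₀ h4 h3).symm

lemma c1_linv {L : Ix → V} (hL : IsLor L) (x : V) :
    sim 1 (linv L) 0 (sim 1 L 0 x) = x :=
  c1_inj hL (sim_linv hL _)

lemma c1_lor {L M : Ix → V} (hL : IsLor L) (hM : IsLor M) : IsLor (fun m => sim 1 L 0 (M m)) := by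
  have h := isLor_lmul hM hL
  have e : lmul M L = fun m => sim 1 L 0 (M m) := by
    funext m n
    simp [lmul, sim]
  rwa [e] at h

theorem A_conj (R : H15.Rep Q A) {r : ℝ} {X : V → V} (hX : IsSim r X) {s : ℝ} (hs : 0 < s)
    {L : Ix → V} (hL : IsLor L) (y : V) (v : D) : Q.U s L y (A X v) =
      A (fun z => s • sim 1 L 0 (X (sim s⁻¹ (linv L) 0 (z - y)))) (Q.U s L y v) := by
  obtain ⟨c, w, hw, hXe⟩ := hX
  obtain ⟨s', L', a', K⟩ := exists_crv hw r c
  set M : ℝ → Ix → V := fun e m => sim 1 L 0 (sim 1 (L' e) 0 (linv L m)) with hM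
  have hMx : ∀ e x, sim 1 (M e) 0 x = sim 1 L 0 (sim 1 (L' e) 0 (sim 1 (linv L) 0 x)) := by
    intro e x
    rw [hM]
    simp only
    rw [c1_comp L (fun m => sim 1 (L' e) 0 (linv L m)) x, c1_comp (L' e) (linv L) x]
  have hMl : ∀ e, IsLor (M e) := fun e => c1_lor hL (c1_lor (K.lor e) (isLor_linv hL))
  set b : ℝ → V := fun e => y + s • sim 1 L 0 (a' e) - s' e • sim 1 (M e) 0 y with hb
  have hone : ∀ x : V, sim 1 GF.one 0 x = x := by
    intro x
    funext n
    simp [sim, GF.one, bas]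
  have hM0 : M 0 = GF.one := by
    funext m
    have h1 : M 0 m = sim 1 (M 0) 0 (bas m 1) := (c1_bas _ _).symm
    rw [h1, hMx, K.L0, hone, sim_linv hL]
    rfl
  have hcurve : ∀ e x, sim (s' e) (M e) (b e) x =
      y + s • sim 1 L 0 (sim (s' e) (L' e) (a' e) (sim s⁻¹ (linv L) 0 (x - y))) := by
    intro e x
    rw [c1_sim (s' e) (M e), c1_sim (s' e) (L' e), sim_s s⁻¹, simL_add L, simL_smul L,
      simL_smul (L' e), simL_smul L, simL_sub (linv L), simL_sub (L' e), simL_sub L, ← hMx, ← hMx]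
    simp only [hb, smul_add, smul_smul, smul_sub]
    have h1 : s * (s' e * s⁻¹) = s' e := by field_simp
    rw [h1]
    abel
  have hder := R.der s' M b (fun z => s • sim 1 L 0 (X (sim s⁻¹ (linv L) 0 (z - y))))
    (Q.U s L y v) K.s0 hM0 (by
      simp only [hb, K.s0, K.a0, hM0, hone, sim_zero', smul_zero, add_zero, one_smul, sub_self])
    (fun e => ⟨K.sp e, hMl e⟩) (fun n x => by
      have e1 : (fun e => sim (s' e) (M e) (b e) x n) = fun e => y n + s * ∑ m,
          (sim (s' e) (L' e) (a' e) (sim s⁻¹ (linv L) 0 (x - y)) m) * L m n := by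
        funext e
        rw [hcurve]
        simp [sim]
      rw [e1]
      have h2 : HasDerivAt (fun e => ∑ m,
          (sim (s' e) (L' e) (a' e) (sim s⁻¹ (linv L) 0 (x - y)) m) * L m n)
          (∑ m, X (sim s⁻¹ (linv L) 0 (x - y)) m * L m n) 0 :=
        HasDerivAt.fun_sum fun m _ => (K.dX hXe m _).mul_const (L m n)
      have h3 := (h2.const_mul s).const_add (y n)
      have e2 : (s • sim 1 L 0 (X (sim s⁻¹ (linv L) 0 (x - y)))) n =
          s * ∑ m, X (sim s⁻¹ (linv L) 0 (x - y)) m * L m n := by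
        simp [sim]
      rw [e2]
      exact h3)
  have h1 := hasDerivAt_iso (U_add hs hL y) (U_smul hs hL y)
    (fun v => U_nrm0 (Q := Q) hs hL y v) (der_U0 R K hXe v)
  have e : (fun e => Q.U s L y (Q.U (s' e) (L' e) (a' e) v)) =
      fun e => Q.U (s' e) (M e) (b e) (Q.U s L y v) := by
    funext e
    rw [R.mul s L y _ _ _ v hs (K.sp e) hL (K.lor e), R.mul _ _ _ s L y v (K.sp e) hs (hMl e) hL,
      mul_comm s]
    congr 1
    · funext m
      rw [hMx, ← c1_bas L m, c1_linv hL, c1_bas]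
    · rw [hcurve, sub_self]
      have e0 : sim s⁻¹ (linv L) 0 (0 : V) = 0 := sim_zero' _ _
      rw [e0]
      have e3 : sim (s' e) (L' e) (a' e) 0 = a' e := by
        funext n
        simp [sim]
      rw [e3, c1_sim s L y]
  rw [e] at h1
  have h2 := h1.unique hder
  rw [U_smul hs hL] at h2
  exact smul_right_injective D I_ne_zero h2

theorem A_tra (R : H15.Rep Q A) {r : ℝ} {X : V → V} (hX : IsSim r X) (x : V) (v : D) :
    Q.U 1 GF.one (-x) (A X (Q.U 1 GF.one x v)) = A (fun z => X (z + x)) v := by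
  obtain ⟨c, w, hw, hXe⟩ := hX
  obtain ⟨s', L', a', K⟩ := exists_crv hw r c
  have h := conj_A R (-x) v K.s0 K.L0 K.a0 (fun e => ⟨K.sp e, K.lor e⟩)
    (fun n z => K.dX hXe n z)
  simpa only [neg_neg, sub_neg_eq_add] using h

end Vale.Agent.P352.N86

end
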