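import Vale.Agent.P352.N86.K.Defs
import Vale.Agent.P352.H148.Zl
import Vale.Agent.P352.H731.Cross

/-!
# P352, block C8, part 1: a covariant distribution with values in an invariant subspace
-/

set_option linter.all false

noncomputable section

open MeasureTheory Filter Topology SchwartzMap Complex
open scoped SchwartzMap ComplexConjugate ContDiff LineDeriv ENNReal

namespace Vale.Agent.P352.N86.C8

open GF (Ix V Fn Fld Theory Sch IsLor bas eta o sim pd tr ev bar)
open H246 H496 H755 H15 H846 H246R H746 H731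
open UniformSpace (Completion)

/-! ### Projections -/

/-- projections onto invariant subspaces intertwine -/
theorem proj_map {E : Type*} [NormedAddCommGroup E] [InnerProductSpace ℂ E] [CompleteSpace E]
    (S : Submodule ℂ E) (W : E →L[ℂ] E) (hW : ∀ x y, inner ℂ (W x) (W y) = inner ℂ x y)
    (hS : ∀ x ∈ S, W x ∈ S) (hS' : ∀ x ∈ S, ∃ y ∈ S, W y = x) {f g : E}
    (h : ∀ x ∈ S, inner ℂ (W x) f = inner ℂ x g) :
    S.topologicalClosure.starProjection f = W (S.topologicalClosure.starProjection g) := by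
  set K := S.topologicalClosure with hK
  have hSK : ∀ x ∈ S, x ∈ K := fun x hx => S.le_topologicalClosure hx
  have hWK : ∀ x ∈ K, W x ∈ K := by
    intro x hx
    have h1 : Set.MapsTo W (S : Set E) (S : Set E) := fun y hy => hS y hy
    exact h1.closure W.continuous hx
  refine Submodule.eq_starProjection_of_mem_of_inner_eq_zero
    (hWK _ (Submodule.starProjection_apply_mem K g)) ?_
  have h2 : ∀ x ∈ S, inner ℂ (f - W (K.starProjection g)) x = 0 := by
    intro x hx
    obtain ⟨y, hy, rfl⟩ := hS' x hx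
    rw [inner_sub_left, hW, sub_eq_zero]
    have h3 : inner ℂ (g - K.starProjection g) y = (0 : ℂ) :=
      Submodule.starProjection_inner_eq_zero g y (hSK y hy)
    rw [inner_sub_left, sub_eq_zero] at h3
    rw [← h3, ← inner_conj_symm, h y hy, inner_conj_symm]
  intro x hx
  have h4 : IsClosed {x : E | inner ℂ (f - W (K.starProjection g)) x = 0} :=
    isClosed_eq (by fun_prop) continuous_const
  exact closure_minimal (s := (S : Set E)) h2 h4 hx

variable {D : Type*} [NormedAddCommGroup D] [InnerProductSpace ℂ D]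
variable {Q : GF.Theory D} {T : Ix → Ix → GF.Fld D} {J : Ix → GF.Fld D}
variable {H : D → D} {alg : Set V → Set (D → D)} {S : V → ℝ → D → D} {G : V → D → D}
variable {A : (V → V) → D → D}

/-! ### The extension of the similitudes -/

/-- the extension of the similitudes to the Hilbert space -/
def Ue (Q : GF.Theory D) {s : ℝ} {L : Ix → V} (hs : 0 < s) (hL : GF.IsLor L) (a : V) :
    Completion D →L[ℂ] Completion D :=
  ((Completion.toComplL (𝕜 := ℂ) (E := D)).comp (UL (Q := Q) hs hL a)).extend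
    (Completion.toComplL (𝕜 := ℂ) (E := D))

lemma Ue_coe {s : ℝ} {L : Ix → V} (hs : 0 < s) (hL : GF.IsLor L) (a : V) (v : D) :
    Ue Q hs hL a (v : Completion D) = ((Q.U s L a v : D) : Completion D) :=
  ContinuousLinearMap.extend_eq _ Completion.denseRange_coe (Completion.isUniformInducing_coe D) v

lemma Ue_inner {s : ℝ} {L : Ix → V} (hs : 0 < s) (hL : GF.IsLor L) (a : V)
    (x y : Completion D) : inner ℂ (Ue Q hs hL a x) (Ue Q hs hL a y) = inner ℂ x y := by
  refine Completion.induction_on₂ x y (isClosed_eq ?_ ?_) fun v w => ?_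
  · fun_prop
  · fun_prop
  · rw [Ue_coe, Ue_coe, Completion.inner_coe, Completion.inner_coe, Q.U_inner _ _ _ _ _ hs hL]

lemma Ue_norm {s : ℝ} {L : Ix → V} (hs : 0 < s) (hL : GF.IsLor L) (a : V)
    (x : Completion D) : ‖Ue Q hs hL a x‖ = ‖x‖ := by
  have h := Ue_inner (Q := Q) hs hL a x x
  rw [inner_self_eq_norm_sq_to_K, inner_self_eq_norm_sq_to_K] at h
  have h1 : ‖Ue Q hs hL a x‖ ^ 2 = ‖x‖ ^ 2 := by exact_mod_cast h
  exact (sq_eq_sq₀ (norm_nonneg _) (norm_nonneg _)).1 h1

/-! ### The vectors `∑ J^m(g_m) Ω` -/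

lemma PC_add {f g : 𝓢(Mink, ℂ)} (hf : H246R.PC (mftS f)) (hg : H246R.PC (mftS g)) :
    H246R.PC (mftS (f + g)) := by
  have e : tsupport (mftS (f + g)) ⊆ tsupport (mftS f) ∪ tsupport (mftS g) := by
    rw [map_add]
    exact tsupport_add _ _
  exact ⟨IsCompact.of_isClosed_subset (hf.1.isCompact.union hg.1.isCompact) (isClosed_tsupport _) e,
    e.trans (Set.union_subset hf.2 hg.2)⟩

lemma PC_of_sub {f g : 𝓢(Mink, ℂ)} (hg : H246R.PC (mftS g))
    (h : ∀ p, mftS g p = 0 → mftS f p = 0) : H246R.PC (mftS f) := by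
  have e : tsupport (mftS f) ⊆ tsupport (mftS g) := by
    apply closure_mono
    intro p hp h0
    exact hp (h p h0)
  exact ⟨IsCompact.of_isClosed_subset hg.1 (isClosed_tsupport _) e, e.trans hg.2⟩

lemma PC_smul (c : ℂ) {g : 𝓢(Mink, ℂ)} (hg : H246R.PC (mftS g)) : H246R.PC (mftS (c • g)) := by
  refine PC_of_sub hg fun p hp => ?_
  rw [map_smul, SchwartzMap.smul_apply, hp, smul_zero]

lemma PC_zero : H246R.PC (mftS 0) := by
  have e : tsupport (mftS (0 : 𝓢(Mink, ℂ))) = ∅ := by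
    rw [map_zero, tsupport_eq_empty_iff]
    rfl
  refine ⟨?_, ?_⟩
  · show IsCompact (tsupport (mftS (0 : 𝓢(Mink, ℂ))))
    rw [e]
    exact isCompact_empty
  · rw [e]
    exact Set.empty_subset _

lemma jv_add (hJ : ∀ m, Q.fld (J m)) (g g' : Ix → 𝓢(Mink, ℂ)) :
    jv Q J (g + g') = jv Q J g + jv Q J g' := by
  unfold jv
  rw [← Finset.sum_add_distrib]
  exact Finset.sum_congr rfl fun m _ => fld_addf (hJ m) _ _ _

lemma jv_smul (hJ : ∀ m, Q.fld (J m)) (c : ℂ) (g : Ix → 𝓢(Mink, ℂ)) :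
    jv Q J (c • g) = c • jv Q J g := by
  unfold jv
  rw [Finset.smul_sum]
  exact Finset.sum_congr rfl fun m _ => fld_smulf (hJ m) _ _ _

lemma jv_zero (hJ : ∀ m, Q.fld (J m)) : jv Q J 0 = 0 := by
  unfold jv
  exact Finset.sum_eq_zero fun m _ => H246.fld_zero (hJ m) _

/-- the subspace of the vectors `∑ J^m(g_m) Ω` -/
def KJ (hJ : ∀ m, Q.fld (J m)) : Submodule ℂ (Completion D) where
  carrier := {x | ∃ v, InJ Q J v ∧ (v : Completion D) = x}
  add_mem' := by
    rintro _ _ ⟨v, ⟨g, hg, rfl⟩, rfl⟩ ⟨w, ⟨g', hg', rfl⟩, rfl⟩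
    exact ⟨_, ⟨g + g', fun m => PC_add (hg m) (hg' m), (jv_add hJ g g').symm⟩,
      Completion.coe_add _ _⟩
  zero_mem' := ⟨0, ⟨0, fun m => PC_zero, (jv_zero hJ).symm⟩, Completion.coe_zero⟩
  smul_mem' := by
    rintro c _ ⟨v, ⟨g, hg, rfl⟩, rfl⟩
    exact ⟨_, ⟨c • g, fun m => PC_smul c (hg m), (jv_smul hJ c g).symm⟩,
      Completion.coe_smul _ _⟩

lemma mem_KJ (hJ : ∀ m, Q.fld (J m)) {v : D} (hv : InJ Q J v) :
    (v : Completion D) ∈ KJ hJ := ⟨v, hv, rfl⟩

lemma inJ_single (hJ : ∀ m, Q.fld (J m)) (k : Ix) {g : 𝓢(Mink, ℂ)} (hg : H246R.PC (mftS g)) :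
    InJ Q J (J k (fl g) Q.vac) := by
  classical
  refine ⟨fun m => if m = k then g else 0, fun m => ?_, ?_⟩
  · by_cases h : m = k
    · simp only [h, if_true]; exact hg
    · simp only [h, if_false]; exact PC_zero
  · unfold jv
    rw [Finset.sum_eq_single k]
    · simp
    · intro m _ hm
      simp only [hm, if_false]
      exact H246.fld_zero (hJ m) _
    · intro h; exact absurd (Finset.mem_univ _) h

/-- the projection onto the closure of the subspace -/
def prK (hJ : ∀ m, Q.fld (J m)) : Completion D →L[ℂ] Completion D :=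
  (KJ hJ).topologicalClosure.starProjection

lemma prK_inner (hJ : ∀ m, Q.fld (J m)) {v : D} (hv : InJ Q J v) (f : Completion D) :
    inner ℂ (v : Completion D) (prK hJ f) = inner ℂ (v : Completion D) f := by
  have h := Submodule.starProjection_inner_eq_zero (K := (KJ hJ).topologicalClosure) f
    (v : Completion D) ((KJ hJ).le_topologicalClosure (mem_KJ hJ hv))
  rw [inner_sub_left, sub_eq_zero] at h
  rw [← inner_conj_symm, ← inner_conj_symm _ f]
  exact congrArg _ h.symm

theorem prK_U (hJ : ∀ m, Q.fld (J m)) {s : ℝ} {L : Ix → V} (hs : 0 < s) (hL : GF.IsLor L) (y : V)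
    (h1 : ∀ X, InJ Q J X → InJ Q J (Q.U s L y X))
    (h2 : ∀ X, InJ Q J X → ∃ X', InJ Q J X' ∧ Q.U s L y X' = X) {f g : Completion D}
    (h : ∀ X, InJ Q J X →
      inner ℂ ((Q.U s L y X : D) : Completion D) f = inner ℂ (X : Completion D) g) :
    prK hJ f = Ue Q hs hL y (prK hJ g) := by
  refine proj_map (KJ hJ) (Ue Q hs hL y) (Ue_inner hs hL y) ?_ ?_ ?_
  · rintro _ ⟨v, hv, rfl⟩
    rw [Ue_coe]
    exact mem_KJ hJ (h1 v hv)
  · rintro _ ⟨v, hv, rfl⟩
    obtain ⟨w, hw, rfl⟩ := h2 v hv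
    exact ⟨_, mem_KJ hJ hw, Ue_coe hs hL y w⟩
  · rintro _ ⟨v, hv, rfl⟩
    rw [Ue_coe]
    exact h v hv

end Vale.Agent.P352.N86.C8

end
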