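import Vale.Agent.P352.N86.K.Defs

set_option linter.all false

noncomputable section

open MeasureTheory Filter Topology SchwartzMap Complex
open scoped SchwartzMap ComplexConjugate ContDiff LineDeriv

namespace Vale.Agent.P352.N86

open UniformSpace (Completion)

/-- A functional that is a weak limit of `⟨W_t^* ξ, ·⟩` vanishes if it vanishes at `ξ`. -/
theorem abs_lim {E : Type*} [NormedAddCommGroup E] [InnerProductSpace ℂ E] {W : ℝ → E → E}
    (hadd : ∀ t v w, W t (v + w) = W t v + W t w) (hsm : ∀ t (c : ℂ) v, W t (c • v) = c • W t v)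
    (hin : ∀ t v w, inner ℂ (W t v) (W t w) = inner ℂ v w)
    (hW : ∀ s t v, W s (W t v) = W (s + t) v) {ξ : E} {Λ : E → ℂ}
    (hΛ : ∀ v, Tendsto (fun t => inner ℂ ξ (W t v)) atTop (𝓝 (Λ v))) (h0 : Λ ξ = 0) (v : E) :
    Λ v = 0 := by
  have hn : ∀ t v, ‖W t v‖ = ‖v‖ := by
    intro t v
    have h1 := hin t v v
    rw [inner_self_eq_norm_sq_to_K, inner_self_eq_norm_sq_to_K] at h1
    have h2 : ‖W t v‖ ^ 2 = ‖v‖ ^ 2 := by exact_mod_cast h1
    exact (sq_eq_sq₀ (norm_nonneg _) (norm_nonneg _)).1 h2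
  have hb : ∀ v, ‖Λ v‖ ≤ ‖ξ‖ * ‖v‖ := by
    intro v
    refine le_of_tendsto (hΛ v).norm (Eventually.of_forall fun t => ?_)
    refine (norm_inner_le_norm _ _).trans ?_
    rw [hn]
  set L0 : E →ₗ[ℂ] ℂ :=
    { toFun := Λ
      map_add' := fun v w => by
        refine tendsto_nhds_unique (hΛ (v + w)) ?_
        simp only [hadd, inner_add_right]
        exact (hΛ v).add (hΛ w)
      map_smul' := fun c v => by
        refine tendsto_nhds_unique (hΛ (c • v)) ?_
        simp only [hsm, inner_smul_right]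
        exact (hΛ v).const_mul c } with hL0
  set L1 : E →L[ℂ] ℂ := L0.mkContinuous ‖ξ‖ (fun v => hb v) with hL1
  set ψ : Completion E →L[ℂ] ℂ := L1.extend (Completion.toComplL (𝕜 := ℂ) (E := E)) with hψ
  have hψz : ∀ z : E, ψ (z : Completion E) = Λ z := fun z =>
    L1.extend_eq (Completion.denseRange_coe) (Completion.isUniformInducing_coe E) z
  set η : Completion E := (InnerProductSpace.toDual ℂ _).symm ψ with hη
  have hηz : ∀ z : E, inner ℂ η (z : Completion E) = Λ z := fun z => by
    rw [hη, InnerProductSpace.toDual_symm_apply, hψz]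
  have hinv : ∀ s v, Λ (W s v) = Λ v := by
    intro s v
    refine tendsto_nhds_unique (hΛ (W s v)) ?_
    simp only [hW]
    exact (hΛ v).comp (tendsto_atTop_add_const_right _ s tendsto_id)
  have hdist : ∀ t (w : E), ‖((W t w : E) : Completion E) - η‖ = ‖(w : Completion E) - η‖ := by
    intro t w
    have key : ∀ u : E, ‖(u : Completion E) - η‖ ^ 2 = ‖u‖ ^ 2 - 2 * (Λ u).re + ‖η‖ ^ 2 := by
      intro u
      have h5 : (inner ℂ (u : Completion E) η).re = (inner ℂ η (u : Completion E)).re := by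
        rw [← inner_conj_symm η (u : Completion E), conj_re]
      rw [@norm_sub_sq ℂ, Completion.norm_coe, ← hηz u, ← h5]
      rfl
    have h1 := key (W t w)
    rw [hn, hinv, ← key w] at h1
    exact (sq_eq_sq₀ (norm_nonneg _) (norm_nonneg _)).1 h1
  have hξη : inner ℂ (ξ : Completion E) η = 0 := by
    rw [← inner_conj_symm, hηz, h0, map_zero]
  have hle : ∀ w : E, ‖Λ w‖ ≤ ‖ξ‖ * ‖(w : Completion E) - η‖ := by
    intro w
    refine le_of_tendsto (hΛ w).norm (Eventually.of_forall fun t => ?_)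
    have h1 : inner ℂ ξ (W t w) = inner ℂ (ξ : Completion E) (((W t w : E) : Completion E) - η) := by
      rw [inner_sub_right, hξη, sub_zero, Completion.inner_coe]
    rw [h1]
    refine (norm_inner_le_norm _ _).trans ?_
    rw [hdist, Completion.norm_coe]
  have hall : ∀ x : Completion E, ‖inner ℂ η x‖ ≤ ‖ξ‖ * ‖x - η‖ := by
    intro x
    refine Completion.induction_on x ?_ ?_
    · exact isClosed_le (by fun_prop) (by fun_prop)
    · intro w
      rw [hηz]
      exact hle w
  have h1 := hall η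
  rw [sub_self, norm_zero, mul_zero] at h1
  have h2 : inner ℂ η η = (0 : ℂ) := norm_le_zero_iff.1 h1
  have h3 : η = 0 := inner_self_eq_zero.1 h2
  rw [← hηz v, h3, inner_zero_left]

end Vale.Agent.P352.N86

end
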