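import Vale.Agent.P352.H246.Rc8

/-!
# P352: covariant vector valued functionals of weight zero: uniqueness
-/

set_option linter.all false

noncomputable section

open MeasureTheory SchwartzMap Complex Filter Topology
open scoped SchwartzMap ComplexConjugate ENNReal LineDeriv ContDiff FourierTransform

namespace Vale.Agent.P352.N86.CT

open GF (Ix V Fn Sch ev pd bar sim bas o)
open H246
open H496
open H246R
open UniformSpace (Completion)

/-- uniqueness of covariant functionals on the open forward cone, general weight -/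
theorem uniqueb {T : 𝓢(Mink, ℂ) →L[ℂ] ℂ} {β : ℝ} (C : Cvr T Pos (β : ℂ) ((β : ℂ) - 4)) :
    ∃ c : ℂ, ∀ G, TF Pos G →
      T (psi G) = c * ∫ y : Mink, ((Real.exp ((2 - β) * y 0) : ℝ) : ℂ) * G y := by
  set a : ℝ := 2 - β with ha
  have hL := H283.exists_const
    (fun G => T (psi fun y => ((Real.exp ((-a) * y 0) : ℝ) : ℂ) * G y)) ?_ ?_ ?_
  · obtain ⟨c, hc⟩ := hL
    refine ⟨c, fun G hG => ?_⟩
    have h1 := hG.mul (contDiff_e a)
    rw [← hc _ (tf_iff.2 h1)]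
    congr 2
    funext y
    have : ((Real.exp ((-a) * y 0) : ℝ) : ℂ) * ((Real.exp (a * y 0) : ℝ) : ℂ) = 1 := by
      rw [← ofReal_mul, ← Real.exp_add]
      have : (-a) * y 0 + a * y 0 = 0 := by ring
      rw [this, Real.exp_zero, ofReal_one]
    rw [← mul_assoc, this, one_mul]
  · intro G G' h h'
    have t1 := (tf_iff.1 h).mul (contDiff_e (-a))
    have t2 := (tf_iff.1 h').mul (contDiff_e (-a))
    show T (psi _) = T (psi _) + T (psi _)
    rw [← T_add t1 t2]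
    congr 2
    funext y
    simp only [Pi.add_apply]
    ring
  · intro c G h
    have t1 := (tf_iff.1 h).mul (contDiff_e (-a))
    show T (psi _) = c * T (psi _)
    rw [← T_smul c t1]
    congr 2
    funext y
    simp only [Pi.smul_apply, smul_eq_mul]
    ring
  · intro j G h
    have hG := tf_iff.1 h
    have t1 := hG.mul (contDiff_e (-a))
    set K : Mink → ℂ := fun y => ((Real.exp ((-a) * y 0) : ℝ) : ℂ) * G y with hK
    have e : ∀ y, ((Real.exp ((-a) * y 0) : ℝ) : ℂ) * fderiv ℝ G y (EuclideanSpace.single j 1) =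
        dd j K y - (if j = 0 then ((-a : ℝ) : ℂ) else 0) * K y := by
      intro y
      have := dd_e hG.1 (-a) j y
      rw [hK, this]
      unfold dd eb
      ring
    show T (psi fun y => ((Real.exp ((-a) * y 0) : ℝ) : ℂ) *
      fderiv ℝ G y (EuclideanSpace.single j 1)) = 0
    simp only [e]
    fin_cases j
    · have e2 : (fun y => dd 0 K y - (if (0 : Fin 4) = 0 then ((-a : ℝ) : ℂ) else 0) * K y) =
          dd 0 K + (a : ℂ) • K := by
        funext y
        simp only [if_true, Pi.add_apply, Pi.smul_apply, smul_eq_mul]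
        push_cast
        ring
      show T (psi (fun y => dd 0 K y - (if (0 : Fin 4) = 0 then ((-a : ℝ) : ℂ) else 0) * K y)) = 0
      rw [e2, T_add (t1.dd 0) (t1.smul _), T_smul _ t1, C.d0 t1, ha]
      push_cast
      ring
    · have e2 : (fun y => dd 1 K y - (if (1 : Fin 4) = 0 then ((-a : ℝ) : ℂ) else 0) * K y) =
          dd 1 K := by
        funext y
        simp
      show T (psi (fun y => dd 1 K y - (if (1 : Fin 4) = 0 then ((-a : ℝ) : ℂ) else 0) * K y)) = 0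
      rw [e2, C.d1 t1]
    · have e2 : (fun y => dd 2 K y - (if (2 : Fin 4) = 0 then ((-a : ℝ) : ℂ) else 0) * K y) =
          dd 2 K := by
        funext y
        simp
      show T (psi (fun y => dd 2 K y - (if (2 : Fin 4) = 0 then ((-a : ℝ) : ℂ) else 0) * K y)) = 0
      rw [e2, C.d2 t1]
    · have e2 : (fun y => dd 3 K y - (if (3 : Fin 4) = 0 then ((-a : ℝ) : ℂ) else 0) * K y) =
          dd 3 K := by
        funext y
        simp
      show T (psi (fun y => dd 3 K y - (if (3 : Fin 4) = 0 then ((-a : ℝ) : ℂ) else 0) * K y)) = 0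
      rw [e2]
      have t2 : TF Pos (fun y => K y / (y 3 : ℂ)) := tf_iff.1 (H846.tf_div (tf_iff.2 t1))
      have h3 := C.d3 t2
      have e3 : (fun y => (y 3 : ℂ) * dd 3 (fun y => K y / (y 3 : ℂ)) y) =
          dd 3 K + (-1 : ℂ) • (fun y => K y / (y 3 : ℂ)) := by
        funext y
        have h4 := dd_mul_coord t2.1 3 y
        have e4 : (fun y : Mink => (y 3 : ℂ) * (K y / (y 3 : ℂ))) = K := by
          funext y
          by_cases h0 : (y 3 : ℂ) = 0
          · have : y ∉ tsupport K := by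
              intro h5
              have h6 : 0 < y 3 := t1.2 h5
              exact h6.ne' (by exact_mod_cast h0)
            rw [image_eq_zero_of_notMem_tsupport this]
            simp
          · field_simp
        rw [e4] at h4
        simp only [Pi.add_apply, Pi.smul_apply, smul_eq_mul]
        rw [h4]
        ring
      rw [e3, T_add (t1.dd 3) (t2.smul _), T_smul _ t2] at h3
      linear_combination h3

lemma TF_PC {G : Mink → ℂ} (hG : TF Pos G) : PC (psi G) := by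
  have hK : IsCompact (icd '' tsupport G) := IsCompact.image hG.1.2 contDiff_icd.continuous
  have hz : ∀ p, p ∉ icd '' tsupport G → psi G p = 0 := by
    intro p hp
    by_cases h1 : p ∈ Hs
    · rw [psi_apply_of_mem hG.1 h1]
      by_contra h2
      exact hp ⟨crd p, subset_tsupport _ h2, icd_crd h1⟩
    · exact psi_apply_of_notMem hG.1 h1
  have hs : tsupport (psi G) ⊆ icd '' tsupport G := by
    refine closure_minimal (fun p hp => ?_) hK.isClosed
    by_contra h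
    exact hp (hz p h)
  refine ⟨IsCompact.of_isClosed_subset hK (isClosed_tsupport _) hs, fun p hp => ?_⟩
  obtain ⟨y, hy, rfl⟩ := hs hp
  refine ⟨mem_Hs_icd y, ?_⟩
  rw [mass2_icd]
  exact hG.2 hy

lemma psi_e {G : Mink → ℂ} (hG : TF Pos G) (p : Mink) :
    psi (fun y => ((Real.exp (1 * y 0) : ℝ) : ℂ) * G y) p = ((p 0 + p 1 : ℝ) : ℂ) * psi G p := by
  by_cases h1 : p ∈ Hs
  · rw [psi_apply_of_mem hG.1 h1, psi_apply_of_mem (hG.mul (contDiff_e 1)).1 h1, one_mul, crd_0,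
      Real.exp_log h1]
    rfl
  · rw [psi_apply_of_notMem hG.1 h1, psi_apply_of_notMem (hG.mul (contDiff_e 1)).1 h1, mul_zero]

/-- covariance of vector functionals -/
structure Ten1 (T : Ix → 𝓢(Mink, ℂ) →L[ℂ] ℂ) : Prop where
  cov : ∀ s (hs : 0 < s) L (hL : GF.IsLor L) m F, PC F →
    T m F = ∑ k, ((L k m / s : ℝ) : ℂ) * T k (act s hs hL F)

section

variable {T : Ix → 𝓢(Mink, ℂ) →L[ℂ] ℂ} (hT : Ten1 T)
include hT

lemma Ten1.null (b : ℝ) {F : 𝓢(Mink, ℂ)} (hF : PC F) :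
    T 0 F + T 1 F = T 0 (act 1 one_pos (isLor_null b) F) +
      T 1 (act 1 one_pos (isLor_null b) F) := by
  have h := fun m => hT.cov 1 one_pos _ (isLor_null b) m F hF
  rw [h 0, h 1, Fin.sum_univ_four, Fin.sum_univ_four]
  simp [mNull]
  ring

lemma Ten1.null' (b : ℝ) {F : 𝓢(Mink, ℂ)} (hF : PC F) :
    T 0 F + T 1 F = T 0 (act 1 one_pos (isLor_null' b) F) +
      T 1 (act 1 one_pos (isLor_null' b) F) := by
  have h := fun m => hT.cov 1 one_pos _ (isLor_null' b) m F hF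
  rw [h 0, h 1, Fin.sum_univ_four, Fin.sum_univ_four]
  simp [mNull']
  ring

lemma Ten1.boost (t : ℝ) {F : 𝓢(Mink, ℂ)} (hF : PC F) :
    T 0 F + T 1 F = exp t * (T 0 (act 1 one_pos (isLor_boost t) F) +
      T 1 (act 1 one_pos (isLor_boost t) F)) := by
  have h := fun m => hT.cov 1 one_pos _ (isLor_boost t) m F hF
  have e1 : (Real.cosh t : ℂ) + Real.sinh t = exp t := by
    rw [← ofReal_add, Real.cosh_add_sinh, ofReal_exp]
  rw [h 0, h 1, Fin.sum_univ_four, Fin.sum_univ_four]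
  generalize T 0 (act 1 one_pos (isLor_boost t) F) = x0
  generalize T 1 (act 1 one_pos (isLor_boost t) F) = x1
  generalize T 2 (act 1 one_pos (isLor_boost t) F) = x2
  generalize T 3 (act 1 one_pos (isLor_boost t) F) = x3
  simp only [div_one]
  simp [mBoost]
  push_cast at e1
  linear_combination (x0 + x1) * e1

lemma Ten1.dil (s : ℝ) (hs : 0 < s) (m : Ix) {F : 𝓢(Mink, ℂ)} (hF : PC F) :
    T m (act s hs isLor_one F) = s * T m F := by
  have hs' : (s : ℂ) ≠ 0 := by exact_mod_cast hs.ne'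
  rw [hT.cov s hs _ isLor_one m F hF, Fin.sum_univ_four]
  fin_cases m <;> simp [GF.one, bas] <;> field_simp

theorem Ten1.cvr : Cvr (T 0 + T 1) Pos ((-1 : ℝ) : ℂ) (((-1 : ℝ) : ℂ) - 4) := by
  refine ⟨?_, ?_, ?_, ?_⟩
  · intro b G hG
    rw [psi_null hG.1 b (TF_shi adm_Pos hG (Or.inl rfl) b).1]
    simp only [ContinuousLinearMap.add_apply]
    rw [hT.null b (TF_PC hG)]
  · intro b G hG
    rw [psi_null' hG.1 b (TF_shi adm_Pos hG (Or.inr rfl) b).1]
    simp only [ContinuousLinearMap.add_apply]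
    rw [hT.null' b (TF_PC hG)]
  · intro t G hG
    rw [psi_boost hG.1 t (TF_bst adm_Pos hG t).1]
    simp only [ContinuousLinearMap.add_apply]
    rw [hT.boost t (TF_PC hG), ← mul_assoc, ← Complex.exp_add]
    have : ((-1 : ℝ) : ℂ) * t + t = 0 := by push_cast; ring
    rw [this, Complex.exp_zero, one_mul]
  · intro t G hG
    have h0 := hT.dil (Real.exp (-t)) (Real.exp_pos _) 0 (TF_PC hG)
    have h1 := hT.dil (Real.exp (-t)) (Real.exp_pos _) 1 (TF_PC hG)
    rw [psi_dil hG.1 t (TF_dlt adm_Pos hG t).1, map_smul, smul_eq_mul] at h0 h1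
    simp only [ContinuousLinearMap.add_apply]
    have e1 : exp (4 * (t : ℂ)) * exp (-4 * t) = 1 := by
      rw [← Complex.exp_add]
      have : 4 * (t : ℂ) + -4 * t = 0 := by ring
      rw [this, Complex.exp_zero]
    have e2 : exp ((((-1 : ℝ) : ℂ) - 4) * t) = exp (-4 * t) * ((Real.exp (-t) : ℝ) : ℂ) := by
      rw [ofReal_exp, ← Complex.exp_add]
      congr 1
      push_cast
      ring
    rw [e2]
    linear_combination exp (-4 * (t : ℂ)) * (h0 + h1) -
      (T 0 (psi fun y => G (dlt (t, y))) + T 1 (psi fun y => G (dlt (t, y)))) * e1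

theorem Ten1.plus : ∃ c : ℂ, ∀ F, PC F →
    T 0 F + T 1 F = c * ∫ p : Mink, ((p 0 + p 1 : ℝ) : ℂ) * F p := by
  obtain ⟨c1, h1⟩ := uniqueb hT.cvr
  obtain ⟨c2, h2⟩ := Cvr_MI.unique
  obtain ⟨F0, hF0, hne, -⟩ := exists_bumpPC
  have hc2 : c2 ≠ 0 := by
    intro h0
    obtain ⟨G, hG, rfl⟩ := hF0.exists
    apply hne
    rw [h2 G hG, h0, zero_mul]
  refine ⟨c1 / c2, fun F hF => ?_⟩
  obtain ⟨G, hG, rfl⟩ := hF.exists
  have h3 := h1 G hG
  have h4 := h2 _ (hG.mul (contDiff_e 1))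
  rw [MI_apply] at h4
  simp only [psi_e hG] at h4
  rw [h4]
  rw [ContinuousLinearMap.add_apply] at h3
  rw [h3]
  have e : (fun y : Mink => ((Real.exp ((2 - -1) * y 0) : ℝ) : ℂ) * G y) =
      fun y : Mink => ((Real.exp (2 * y 0) : ℝ) : ℂ) *
        (((Real.exp (1 * y 0) : ℝ) : ℂ) * G y) := by
    funext y
    rw [← mul_assoc, ← ofReal_mul, ← Real.exp_add]
    congr 3
    ring
  rw [e]
  field_simp

/-- first component form -/
theorem Ten1.plusD : ∃ c : ℂ, ∀ g : 𝓢(Mink, ℂ), PC (mftS g) →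
    T 0 (mftS g) + T 1 (mftS g) =
      c * ((∂_{eb 0} g : 𝓢(Mink, ℂ)) 0 - (∂_{eb 1} g : 𝓢(Mink, ℂ)) 0) := by
  obtain ⟨c1, h1⟩ := hT.plus
  obtain ⟨c0, h0, h2⟩ := exists_inv
  refine ⟨c1 * (I * c0), fun g hg => ?_⟩
  rw [h1 _ hg]
  have h3 := h2 (∂_{eb 0} g : 𝓢(Mink, ℂ))
  have h4 := h2 (∂_{eb 1} g : 𝓢(Mink, ℂ))
  have h5 : MI (mftS (∂_{eb 0} g : 𝓢(Mink, ℂ)) - mftS (∂_{eb 1} g : 𝓢(Mink, ℂ))) =
      -I * ∫ p : Mink, ((p 0 + p 1 : ℝ) : ℂ) * mftS g p := by
    rw [MI_apply, ← integral_const_mul]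
    congr 1
    funext p
    rw [SchwartzMap.sub_apply, mftS_apply, mftS_apply, mftS_apply, mft_lineDeriv, mft_lineDeriv]
    have e0 : mdot p (eb 0) = p 0 := by simp [mdot, eb]
    have e1 : mdot p (eb 1) = -p 1 := by simp [mdot, eb]
    rw [e0, e1]
    push_cast
    ring
  rw [map_sub, h3, h4] at h5
  linear_combination (-(c1 * I)) * h5 +
    (c1 * ∫ p : Mink, ((p 0 + p 1 : ℝ) : ℂ) * mftS g p) * I_mul_I

omit hT in
lemma act_mftS (s : ℝ) (hs : 0 < s) {L : Ix → V} (hL : GF.IsLor L) (g : 𝓢(Mink, ℂ)) :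
    act s hs hL (mftS g) = mftS (simS s hs hL 0 g) := by
  unfold act
  rw [imf_mftS]

omit hT in
lemma Vp_lam {L : Ix → V} (hL : GF.IsLor L) {p : Mink} (hp : p ∈ Vp) : lam L p ∈ Vp := by
  rw [Vp_iff] at hp ⊢
  obtain ⟨h0, h1⟩ := hp
  refine ⟨?_, by rw [mass2_lam hL]; exact h1⟩
  have ht := lor_transpose hL o o
  have hL0 : 0 < L 0 0 := hL.2.1
  rw [Fin.sum_univ_four] at ht
  simp [GF.eta, o, bas] at ht
  rw [lam_apply, Fin.sum_univ_four]
  have h2 : p 1 ^ 2 + p 2 ^ 2 + p 3 ^ 2 < p 0 ^ 2 := by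
    unfold mass2 mdot at h1
    nlinarith
  have h3 : L 1 0 ^ 2 + L 2 0 ^ 2 + L 3 0 ^ 2 < L 0 0 ^ 2 := by nlinarith
  have h4 : (p 1 * L 1 0 + p 2 * L 2 0 + p 3 * L 3 0) ^ 2 ≤
      (p 1 ^ 2 + p 2 ^ 2 + p 3 ^ 2) * (L 1 0 ^ 2 + L 2 0 ^ 2 + L 3 0 ^ 2) := by
    nlinarith [sq_nonneg (p 1 * L 2 0 - p 2 * L 1 0), sq_nonneg (p 1 * L 3 0 - p 3 * L 1 0),
      sq_nonneg (p 2 * L 3 0 - p 3 * L 2 0)]
  have h5 : (p 1 ^ 2 + p 2 ^ 2 + p 3 ^ 2) * (L 1 0 ^ 2 + L 2 0 ^ 2 + L 3 0 ^ 2) <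
      (p 0 * L 0 0) ^ 2 := by
    rw [mul_pow]
    have a1 : 0 ≤ L 1 0 ^ 2 + L 2 0 ^ 2 + L 3 0 ^ 2 := by positivity
    have a2 : 0 < p 0 ^ 2 := by positivity
    calc (p 1 ^ 2 + p 2 ^ 2 + p 3 ^ 2) * (L 1 0 ^ 2 + L 2 0 ^ 2 + L 3 0 ^ 2)
        ≤ p 0 ^ 2 * (L 1 0 ^ 2 + L 2 0 ^ 2 + L 3 0 ^ 2) := mul_le_mul_of_nonneg_right h2.le a1
      _ < p 0 ^ 2 * L 0 0 ^ 2 := mul_lt_mul_of_pos_left h3 a2
  have h6 : 0 < p 0 * L 0 0 := mul_pos h0 hL0
  have h7 := abs_lt_of_sq_lt_sq (lt_of_le_of_lt h4 h5) h6.le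
  have h8 := (abs_lt.1 h7).1
  linarith

omit hT in
lemma PC_simg {g : 𝓢(Mink, ℂ)} (hg : PC (mftS g)) {s : ℝ} (hs : 0 < s) {L : Ix → V}
    (hL : GF.IsLor L) : PC (mftS (simS s hs hL 0 g)) := by
  set P : Mink → Mink := fun q => s • lam (linv L) q with hP
  have hPc : Continuous P := (continuous_lam _).const_smul s
  have hK : IsCompact (P '' tsupport (mftS g)) := IsCompact.image hg.1 hPc
  have hz : ∀ p, p ∉ P '' tsupport (mftS g) → mftS (simS s hs hL 0 g) p = 0 := by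
    intro p hp
    rw [mftS_apply, mft_simS, ← mftS_apply]
    have h1 : mftS g (s⁻¹ • lam L p) = 0 := by
      by_contra h
      refine hp ⟨s⁻¹ • lam L p, subset_tsupport _ h, ?_⟩
      have e : lam (linv L) (s⁻¹ • lam L p) = s⁻¹ • lam (linv L) (lam L p) :=
        (lamL (linv L)).map_smul _ _
      simp only [hP]
      rw [e, linv_lam hL, smul_smul, mul_inv_cancel₀ hs.ne', one_smul]
    rw [h1, mul_zero, mul_zero]
  have hsub : tsupport (mftS (simS s hs hL 0 g)) ⊆ P '' tsupport (mftS g) := by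
    refine closure_minimal (fun p hp => ?_) hK.isClosed
    by_contra h
    exact hp (hz p h)
  refine ⟨IsCompact.of_isClosed_subset hK (isClosed_tsupport _) hsub, fun p hp => ?_⟩
  obtain ⟨q, hq, rfl⟩ := hsub hp
  have h1 := Vp_lam (isLor_linv hL) (hg.2 hq)
  rw [Vp_iff] at h1 ⊢
  refine ⟨?_, ?_⟩
  · show 0 < s * lam (linv L) q 0
    exact mul_pos hs h1.1
  · show 0 < mass2 (s • lam (linv L) q)
    rw [mass2_smul]
    have := h1.2
    positivity

omit hT in
lemma simS_zero {s : ℝ} (hs : 0 < s) {L : Ix → V} (hL : GF.IsLor L) (g : 𝓢(Mink, ℂ)) :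
    simS s hs hL 0 g 0 = g 0 := by
  rw [simS_apply]
  congr 1
  ext n
  simp [sim]

/-- classification -/
theorem Ten1.cls : ∃ c : ℂ, ∀ (m : Ix) (g : 𝓢(Mink, ℂ)), PC (mftS g) →
    T m (mftS g) = c * ((GF.eta m : ℂ) * (∂_{eb m} g : 𝓢(Mink, ℂ)) 0) := by
  obtain ⟨c, hc⟩ := hT.plusD
  have h01 : ∀ g : 𝓢(Mink, ℂ), PC (mftS g) → T 0 (mftS g) = c * (∂_{eb 0} g : 𝓢(Mink, ℂ)) 0 ∧
      T 1 (mftS g) = -(c * (∂_{eb 1} g : 𝓢(Mink, ℂ)) 0) := by
    intro g hg
    have h1 := hc g hg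
    have h2 := hc _ (PC_simg hg one_pos isLor_rot12)
    have h3 := fun m => hT.cov 1 one_pos _ isLor_rot12 m _ hg
    have h30 := h3 0
    have h31 := h3 1
    rw [Fin.sum_univ_four, act_mftS] at h30 h31
    rw [lineDeriv_simS, lineDeriv_simS, Fin.sum_univ_four, Fin.sum_univ_four] at h2
    simp [mRot12, simS_zero] at h2 h30 h31
    constructor
    · linear_combination (1 / 2) * h1 + (1 / 2) * h2 + (1 / 2) * h30 - (1 / 2) * h31
    · linear_combination (1 / 2) * h1 - (1 / 2) * h2 - (1 / 2) * h30 + (1 / 2) * h31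
  have h2 : ∀ g : 𝓢(Mink, ℂ), PC (mftS g) →
      T 2 (mftS g) = -(c * (∂_{eb 2} g : 𝓢(Mink, ℂ)) 0) := by
    intro g hg
    have h1 := (h01 _ (PC_simg hg one_pos isLor_cyc)).2
    have h3 := hT.cov 1 one_pos _ isLor_cyc 2 _ hg
    rw [Fin.sum_univ_four, act_mftS] at h3
    rw [lineDeriv_simS, Fin.sum_univ_four] at h1
    simp [mCyc, simS_zero] at h1 h3
    rw [h3, h1]
  have h3 : ∀ g : 𝓢(Mink, ℂ), PC (mftS g) →
      T 3 (mftS g) = -(c * (∂_{eb 3} g : 𝓢(Mink, ℂ)) 0) := by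
    intro g hg
    have h1 := h2 _ (PC_simg hg one_pos isLor_cyc)
    have h3 := hT.cov 1 one_pos _ isLor_cyc 3 _ hg
    rw [Fin.sum_univ_four, act_mftS] at h3
    rw [lineDeriv_simS, Fin.sum_univ_four] at h1
    simp [mCyc, simS_zero] at h1 h3
    rw [h3, h1]
  refine ⟨c, fun m g hg => ?_⟩
  fin_cases m
  · simpa [GF.eta, o] using (h01 g hg).1
  · simpa [GF.eta, o] using (h01 g hg).2
  · simpa [GF.eta, o] using h2 g hg
  · simpa [GF.eta, o] using h3 g hg

end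

end Vale.Agent.P352.N86.CT

end
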