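import Vale.Agent.P352.N86.K.Defs
import Vale.Agent.P352.N86.K.C10a

/-!
# P352: classification of invariant functionals on the vectors of the virial current
-/

set_option linter.all false

noncomputable section

open MeasureTheory Filter Topology SchwartzMap Complex
open scoped SchwartzMap ComplexConjugate ContDiff LineDeriv

namespace Vale.Agent.P352.N86

open GF (Ix V Fn Fld Theory Sch IsLor bas eta o sim pd tr ev bar)
open H246 H496 H755 H15 H846 H246R H746
open UniformSpace (Completion)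

variable {D : Type*} [NormedAddCommGroup D] [InnerProductSpace ℂ D]
variable {Q : GF.Theory D} {T : Ix → Ix → GF.Fld D} {J : Ix → GF.Fld D}
variable {H : D → D} {alg : Set V → Set (D → D)} {S : V → ℝ → D → D} {G : V → D → D}
variable {A : (V → V) → D → D} {l : Fn → Completion D}

theorem cls_inv (N : CNet Q H alg S) (hJ : IsVirial Q T J) {ξ : D → ℂ}
    (hadd : ∀ v w, ξ (v + w) = ξ v + ξ w)
    (hcont : ∀ m, ∃ K : 𝓢(Mink, ℂ) →L[ℂ] ℂ, ∀ F, K F = ξ (J m (fl F) Q.vac))
    (hcov : ∀ σ L X, 0 < σ → IsLor L → InJ Q J X → ξ (Q.U σ L 0 X) = ((σ ^ 2)⁻¹ : ℝ) * ξ X) :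
    ∃ c : ℂ, ∀ g, PCv g → ξ (jv Q J g) = c * dv g 0 := by
  have hV := hJ.vfld
  have hf : ∀ m, Q.fld (J m) := fun m => Q.bose_fld _ (hV.bose m)
  choose K hK using hcont
  have h0 : ξ 0 = 0 := by
    have := hadd 0 0
    rw [add_zero] at this
    exact left_eq_add.1 this
  have hsum : ∀ (t : Finset Ix) (w : Ix → D), ξ (∑ k ∈ t, w k) = ∑ k ∈ t, ξ (w k) := by
    intro t w
    classical
    induction t using Finset.induction_on with
    | empty => simp [h0]
    | insert i t hi ih => rw [Finset.sum_insert hi, Finset.sum_insert hi, hadd, ih]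
  have hjv : ∀ g : Ix → 𝓢(Mink, ℂ), ξ (jv Q J g) = ∑ m, K m (g m) := by
    intro g
    unfold jv
    rw [hsum]
    exact Finset.sum_congr rfl fun m _ => (hK m (g m)).symm
  have hT : CT.Ten1 (fun m => (K m).comp imf) := by
    refine ⟨fun s hs L hL m F hF => ?_⟩
    simp only [ContinuousLinearMap.comp_apply, imf_act]
    set f := imf F with hfd
    have hfp : H246R.PC (mftS f) := by rw [hfd, mftS_imf]; exact hF
    have h1 := hV.cov m s hs L hL 0 f Q.vac
    rw [Q.U_vac s L 0 hs hL] at h1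
    have h2 : J m (fl f) Q.vac =
        Q.U s L 0 (jv Q J (fun k => ((s * L k m : ℝ) : ℂ) • simS s hs hL 0 f)) := by
      rw [h1]
      have h3 := map_sum (UL (Q := Q) hs hL 0)
        (fun k => J k (fl (((s * L k m : ℝ) : ℂ) • simS s hs hL 0 f)) Q.vac) Finset.univ
      have h4 : Q.U s L 0 (jv Q J (fun k => ((s * L k m : ℝ) : ℂ) • simS s hs hL 0 f)) =
        ∑ k, Q.U s L 0 (J k (fl (((s * L k m : ℝ) : ℂ) • simS s hs hL 0 f)) Q.vac) := h3
      rw [h4]
      refine Finset.sum_congr rfl fun k _ => ?_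
      have h5 : J k (fl (((s * L k m : ℝ) : ℂ) • simS s hs hL 0 f)) Q.vac =
          ((s * L k m : ℝ) : ℂ) • J k (fl (simS s hs hL 0 f)) Q.vac :=
        (fmap (hf k) Q.vac).map_smul _ _
      rw [h5, U_smul hs hL]
    have hin : InJ Q J (jv Q J (fun k => ((s * L k m : ℝ) : ℂ) • simS s hs hL 0 f)) := by
      refine ⟨_, fun k => ?_, rfl⟩
      have h6 := CT.PC_simg hfp hs hL
      have h7 : tsupport (mftS (((s * L k m : ℝ) : ℂ) • simS s hs hL 0 f)) ⊆
          tsupport (mftS (simS s hs hL 0 f)) := by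
        apply closure_mono
        intro p hp h8
        apply hp
        rw [map_smul, SchwartzMap.smul_apply, h8, smul_zero]
      exact ⟨IsCompact.of_isClosed_subset h6.1 (isClosed_tsupport _) h7, h7.trans h6.2⟩
    have h8 := hcov s L _ hs hL hin
    rw [← h2, ← hK, hjv] at h8
    rw [h8, Finset.mul_sum]
    refine Finset.sum_congr rfl fun k _ => ?_
    rw [map_smul, smul_eq_mul]
    have hs' : (s : ℂ) ≠ 0 := by exact_mod_cast hs.ne'
    push_cast
    field_simp
  obtain ⟨c, hc⟩ := hT.cls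
  refine ⟨c, fun g hg => ?_⟩
  rw [hjv]
  have h9 : ∀ m, K m (g m) = c * ((GF.eta m : ℂ) * (∂_{eb m} (g m) : 𝓢(Mink, ℂ)) 0) := by
    intro m
    have h10 := hc m (g m) (hg m)
    simp only [ContinuousLinearMap.comp_apply, imf_mftS] at h10
    exact h10
  rw [Finset.sum_congr rfl fun m _ => h9 m, ← Finset.mul_sum]
  congr 1

end Vale.Agent.P352.N86

end
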