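import Vale.Agent.P352.N86.K.Defs

set_option linter.all false

noncomputable section

open MeasureTheory Filter Topology SchwartzMap Complex
open scoped SchwartzMap ComplexConjugate ContDiff LineDeriv

namespace Vale.Agent.P352.N86

open GF (Ix V Fn Fld Theory Sch IsLor bas eta o sim pd tr ev bar)
open H246 H496 H755 H15 H846 H246R H746
open UniformSpace (Completion)

variable {D : Type*} [NormedAddCommGroup D] [InnerProductSpace ℂ D]
variable {Q : GF.Theory D} {T : Ix → Ix → GF.Fld D} {J : Ix → GF.Fld D}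
variable {H : D → D} {alg : Set V → Set (D → D)} {S : V → ℝ → D → D}
variable {l : Fn → Completion D}

/-- if the values of `J` along the orbit of `v` vanish, `v` is orthogonal to `J^m(F) Ω` -/
lemma inner_J_zero (N : CNet Q H alg S) (hJ : IsVirial Q T J) {v : D}
    (h : ∀ m (x : V), vj Q J m (Q.U 1 GF.one (-x) v) = 0) (m : Ix) (F : 𝓢(Mink, ℂ)) :
    inner ℂ (J m (fl F) Q.vac) v = 0 := by
  have hf : ∀ m, Q.fld (J m) := fun m => Q.bose_fld _ (hJ.bose m)
  have h2 := vj_rep N.toNet hf m F v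
  rw [Completion.inner_coe] at h2
  rw [h2]
  have h3 : ∀ x : Mink, vj Q J m (U1 Q (-x) v) = 0 := fun x => h m x.ofLp
  simp only [h3, mul_zero, integral_zero]

lemma inner_tr_zero (N : CNet Q H alg S) (hJ : IsVirial Q T J) {v : D}
    (h : ∀ m (x : V), vj Q J m (Q.U 1 GF.one (-x) v) = 0) (F : 𝓢(Mink, ℂ)) :
    inner ℂ ((GF.tr T (fl F) Q.vac : D) : Completion D) (v : Completion D) = 0 := by
  rw [Completion.inner_coe, hJ.div', inner_neg_left, sum_inner]
  simp only [inner_J_zero N hJ h, Finset.sum_const_zero, neg_zero]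

/-- a vector orthogonal to the trace vectors is orthogonal to the potential -/
lemma inner_pot_zero (hT : Q.IsStress T) (hl : IsPot Q T l) {v : D}
    (h : ∀ F : 𝓢(Mink, ℂ),
      inner ℂ ((GF.tr T (fl F) Q.vac : D) : Completion D) (v : Completion D) = 0)
    (F : 𝓢(Mink, ℂ)) : inner ℂ (l (fl F)) (v : Completion D) = 0 := by
  obtain ⟨μ, Sy, two⟩ := (PField.tr hT).exists_sym
  have hjd : jd Sy (PField.tr hT) v = 0 := by
    have h1 : ∀ u : Lp ℂ 2 μ, inner ℂ u (jd Sy (PField.tr hT) v) = (0 : ℂ) := by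
      intro u
      refine (denseRange_toL Sy.good).induction_on
        (p := fun u => inner ℂ u (jd Sy (PField.tr hT) v) = (0 : ℂ)) u ?_ ?_
      · apply isClosed_eq <;> fun_prop
      · intro F
        rw [← inner_jd, J_toL Sy (PField.tr hT) two, (PField.tr hT).kap_apply]
        exact h F
    exact inner_self_eq_zero.1 (h1 _)
  have hp := isPot_lamF Sy (PField.tr hT) two
  rw [hp.unique hl (fl F) (isTest_fl F), lamF_fl, lamV_apply, inner_smul_left, inner_jd, hjd,
    inner_zero_right, mul_zero]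

lemma vl_zero_of_inner (N : CNet Q H alg S) (hl : IsPot Q T l) {v : D}
    (h : ∀ F : 𝓢(Mink, ℂ), inner ℂ (l (fl F)) (v : Completion D) = 0) : vl l v = 0 := by
  obtain ⟨κ, hκ⟩ := hl.exists_clm
  obtain ⟨φ, φ', φ'', n, hrep, d1, d2⟩ := exists_pdata N κ (pot_cov hl hκ) 0
  rw [vl_rep N hl hκ hrep v]
  have hc := cont_pt N.toNet (φ := φ) (pw1_mem N.toNet n) v
  have h1 := fun_unique hc (continuous_const (y := (0 : ℂ))) (fun F _ => by
    rw [← hrep F v, hκ, h F]
    simp)
  have h2 := congrFun h1 0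
  simp only [pt_zero_eq] at h2
  exact h2

theorem vl_zero_of (hT : Q.IsStress T) (N : CNet Q H alg S) (hJ : IsVirial Q T J)
    (hl : IsPot Q T l) {v : D} (h : ∀ m (x : V), vj Q J m (Q.U 1 GF.one (-x) v) = 0) :
    vl l v = 0 :=
  vl_zero_of_inner N hl (inner_pot_zero hT hl (inner_tr_zero N hJ h))

end Vale.Agent.P352.N86

end
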