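import Vale.Agent.P352.N86.K.Defs
import Vale.Agent.P352.H993.TrFt

set_option linter.all false

noncomputable section

open MeasureTheory Filter Topology SchwartzMap Complex
open scoped SchwartzMap ComplexConjugate ContDiff LineDeriv

namespace Vale.Agent.P352.N86

open GF (Ix V Fn Fld Theory Sch IsLor bas eta o sim pd tr ev bar)
open H246 H496 H755 H15 H846 H246R H746
open UniformSpace (Completion)

/-! ### Supports in the forward cone -/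

lemma PC_of_mem {F : 𝓢(Mink, ℂ)} {K : Set Mink} (hK : IsCompact K) (hV : K ⊆ Vp)
    (h : ∀ p, F p ≠ 0 → p ∈ K) : H246R.PC F := by
  have h1 : tsupport F ⊆ K := closure_minimal (fun p hp => h p hp) hK.isClosed
  exact ⟨hK.of_isClosed_subset (isClosed_tsupport _) h1, h1.trans hV⟩

lemma PC_zero : H246R.PC (0 : 𝓢(Mink, ℂ)) :=
  PC_of_mem isCompact_empty (Set.empty_subset _) fun p hp => absurd rfl hp

lemma PC_add {F G : 𝓢(Mink, ℂ)} (hF : H246R.PC F) (hG : H246R.PC G) : H246R.PC (F + G) := by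
  refine PC_of_mem (hF.1.isCompact.union hG.1.isCompact) (Set.union_subset hF.2 hG.2)
    fun p hp => ?_
  by_contra h
  rw [Set.mem_union, not_or] at h
  apply hp
  rw [SchwartzMap.add_apply, image_eq_zero_of_notMem_tsupport h.1,
    image_eq_zero_of_notMem_tsupport h.2, add_zero]

lemma PC_smul (c : ℂ) {F : 𝓢(Mink, ℂ)} (hF : H246R.PC F) : H246R.PC (c • F) := by
  refine PC_of_mem hF.1.isCompact hF.2 fun p hp => ?_
  by_contra h
  apply hp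
  rw [SchwartzMap.smul_apply, image_eq_zero_of_notMem_tsupport h, smul_zero]

lemma PC_sum {ι : Type*} (t : Finset ι) {F : ι → 𝓢(Mink, ℂ)} (hF : ∀ i, H246R.PC (F i)) :
    H246R.PC (∑ i ∈ t, F i) :=
  Finset.sum_induction F H246R.PC (fun _ _ => PC_add) PC_zero fun i _ => hF i

lemma PC_ld {F : 𝓢(Mink, ℂ)} (hF : H246R.PC F) (v : Mink) :
    H246R.PC (∂_{v} F : 𝓢(Mink, ℂ)) := by
  refine PC_of_mem hF.1.isCompact hF.2 fun p hp => ?_
  by_contra h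
  apply hp
  have h1 : fderiv ℝ F p = 0 := by
    have h2 : p ∉ tsupport (fderiv ℝ F) := fun h3 => h (tsupport_fderiv_subset ℝ h3)
    exact image_eq_zero_of_notMem_tsupport h2
  rw [lineDerivOp_apply_eq_fderiv, h1]
  rfl

lemma Vp_lam {L : Ix → V} (hL : IsLor L) {p : Mink} (hp : p ∈ Vp) : lam L p ∈ Vp := by
  rw [Vp_iff] at hp ⊢
  refine ⟨?_, by rw [mass2_lam hL]; exact hp.2⟩
  obtain ⟨h2, h1⟩ := hp
  have ht := lor_transpose hL 0 0
  have h3 : 0 < L 0 0 := hL.2.1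
  have e0 : GF.eta 0 = 1 := rfl
  have e1 : GF.eta 1 = -1 := by simp [GF.eta, o]
  have e2 : GF.eta 2 = -1 := by simp [GF.eta, o]
  have e3 : GF.eta 3 = -1 := by simp [GF.eta, o]
  unfold mass2 mdot at h1
  simp only [Fin.sum_univ_four, e0, e1, e2, e3, bas] at ht
  simp only [if_true] at ht
  have hc : (p 1 * L 1 0 + p 2 * L 2 0 + p 3 * L 3 0) ^ 2 ≤
      (p 1 ^ 2 + p 2 ^ 2 + p 3 ^ 2) * (L 1 0 ^ 2 + L 2 0 ^ 2 + L 3 0 ^ 2) := by
    nlinarith [sq_nonneg (p 1 * L 2 0 - p 2 * L 1 0), sq_nonneg (p 1 * L 3 0 - p 3 * L 1 0),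
      sq_nonneg (p 2 * L 3 0 - p 3 * L 2 0)]
  have ha2 : p 1 ^ 2 + p 2 ^ 2 + p 3 ^ 2 ≤ p 0 ^ 2 := by nlinarith [h1]
  have hl2 : L 1 0 ^ 2 + L 2 0 ^ 2 + L 3 0 ^ 2 = L 0 0 ^ 2 - 1 := by linear_combination -ht
  rw [hl2] at hc
  have hl3 : 0 ≤ L 0 0 ^ 2 - 1 := by rw [← hl2]; positivity
  rw [lam_apply, Fin.sum_univ_four]
  by_contra hneg
  push Not at hneg
  have h5 : 0 < p 0 * L 0 0 := mul_pos h2 h3
  have h6 : p 0 * L 0 0 ≤ -(p 1 * L 1 0 + p 2 * L 2 0 + p 3 * L 3 0) := by linarith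
  have h7 : (p 0 * L 0 0) ^ 2 ≤ (p 1 * L 1 0 + p 2 * L 2 0 + p 3 * L 3 0) ^ 2 := by
    rw [← neg_sq (p 1 * L 1 0 + p 2 * L 2 0 + p 3 * L 3 0)]
    exact pow_le_pow_left₀ h5.le h6 2
  have h8 := mul_le_mul_of_nonneg_right ha2 hl3
  nlinarith [mul_pos h2 h2]

lemma Vp_smul {c : ℝ} (hc : 0 < c) {p : Mink} (hp : p ∈ Vp) : c • p ∈ Vp := by
  rw [Vp_iff] at hp ⊢
  have e : mass2 (c • p) = c ^ 2 * mass2 p := by
    unfold mass2 mdot
    simp only [PiLp.smul_apply, smul_eq_mul]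
    ring
  rw [e]
  exact ⟨mul_pos hc hp.1, mul_pos (pow_pos hc 2) hp.2⟩

lemma lam_smul' (L : Ix → V) (c : ℝ) (x : Mink) : lam L (c • x) = c • lam L x :=
  (lamL L).map_smul c x

lemma simJ_tau {s : ℝ} (hs : 0 < s) {L : Ix → V} (hL : IsLor L) (y : V) (F : 𝓢(Mink, ℂ)) :
    simJ hs hL y F = tauS (WithLp.toLp 2 y) (simJ hs hL 0 F) := by
  have h0 : (WithLp.toLp 2 (0 : V) : Mink) = 0 := rfl
  have h1 : simJ hs hL 0 F =
      SchwartzMap.compCLMOfContinuousLinearEquiv ℂ (simE hs hL).symm F := by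
    unfold simJ
    rw [h0, tauS_zero']
  rw [h1]
  rfl

lemma PC_simJ {s : ℝ} (hs : 0 < s) {L : Ix → V} (hL : IsLor L) (y : V) {F : 𝓢(Mink, ℂ)}
    (hF : H246R.PC (mftS F)) : H246R.PC (mftS (simJ hs hL y F)) := by
  rw [simJ_tau]
  refine PC_tauS ?_ _
  have hcont : Continuous fun q : Mink => s⁻¹ • lam L q := (continuous_lam L).const_smul s⁻¹
  refine PC_of_mem (K := (fun q : Mink => s⁻¹ • lam L q) '' tsupport (mftS F))
    (hF.1.isCompact.image hcont) ?_ fun p hp => ?_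
  · rintro _ ⟨q, hq, rfl⟩
    exact Vp_smul (inv_pos.2 hs) (Vp_lam hL (hF.2 hq))
  · have e : s⁻¹ • lam L (s • lam (linv L) p) = p := by
      rw [lam_smul', lam_linv hL, smul_smul, inv_mul_cancel₀ hs.ne', one_smul]
    refine ⟨s • lam (linv L) p, subset_tsupport _ ?_, e⟩
    intro h0
    apply hp
    rw [mftS_apply, mft_simJ hs hL F e, ← mftS_apply, h0, mul_zero]

/-! ### The vectors of the virial current -/

lemma lor_linv {L : Ix → V} (hL : IsLor L) (k' k : Ix) :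
    ∑ m, L k' m * linv L m k = GF.one k' k := by
  have h := hL.1 k' k
  unfold GF.mdot at h
  unfold linv
  have e : ∀ m, L k' m * (GF.eta m * GF.eta k * L k m) =
      GF.eta k * (GF.eta m * L k' m * L k m) := fun m => by ring
  simp only [e]
  rw [← Finset.mul_sum, h]
  have h1 : GF.eta k' * GF.eta k' = 1 := H746.eta_sq k'
  unfold GF.one bas
  by_cases hk : k = k'
  · subst hk
    simp [h1]
  · simp [hk]

variable {D : Type*} [NormedAddCommGroup D] [InnerProductSpace ℂ D]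
variable {Q : GF.Theory D} {T : Ix → Ix → GF.Fld D} {J : Ix → GF.Fld D}
variable {H : D → D} {alg : Set V → Set (D → D)} {S : V → ℝ → D → D}
variable {A : (V → V) → D → D}

lemma U_J (hJ : IsVirial Q T J) {s : ℝ} (hs : 0 < s) {L : Ix → V} (hL : IsLor L) (y : V)
    (k : Ix) (F : 𝓢(Mink, ℂ)) : Q.U s L y (J k (fl F) Q.vac) =
      ∑ m, ((s⁻¹ * linv L m k : ℝ) : ℂ) • J m (fl (simJ hs hL y F)) Q.vac := by
  have h : ∀ m, J m (fl (simJ hs hL y F)) Q.vac =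
      ∑ k', ((s : ℂ) * (L k' m : ℂ)) • Q.U s L y (J k' (fl F) Q.vac) := by
    intro m
    have h1 := hJ.cov m s L y (fl (simJ hs hL y F)) Q.vac hs hL (isTest_fl _)
    rw [Q.U_vac _ _ _ hs hL] at h1
    rw [h1]
    refine Finset.sum_congr rfl fun k' _ => ?_
    rw [fl_sim s hs hL y, simS_simJ]
  simp only [h, Finset.smul_sum, smul_smul]
  rw [Finset.sum_comm]
  have e : ∀ k', ∑ m, (((s⁻¹ * linv L m k : ℝ) : ℂ) * ((s : ℂ) * (L k' m : ℂ))) •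
      Q.U s L y (J k' (fl F) Q.vac) = (GF.one k' k : ℂ) • Q.U s L y (J k' (fl F) Q.vac) := by
    intro k'
    rw [← Finset.sum_smul]
    congr 1
    rw [← lor_linv hL k' k]
    push_cast
    refine Finset.sum_congr rfl fun m _ => ?_
    have : (s : ℂ) ≠ 0 := by exact_mod_cast hs.ne'
    field_simp
  simp only [e]
  rw [sum_one' (fun k' => Q.U s L y (J k' (fl F) Q.vac))]

lemma J_sum (hJ : IsVirial Q T J) (m : Ix) {ι : Type*} (t : Finset ι) (c : ι → ℂ)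
    (F : ι → 𝓢(Mink, ℂ)) (v : D) :
    J m (fl (∑ i ∈ t, c i • F i)) v = ∑ i ∈ t, c i • J m (fl (F i)) v := by
  have h := map_sum (fcl (ct_fld hJ m) v) (fun i => c i • F i) t
  simp only [map_smul, fcl_apply] at h
  exact h

lemma J_add (hJ : IsVirial Q T J) (m : Ix) (F G : 𝓢(Mink, ℂ)) (v : D) :
    J m (fl (F + G)) v = J m (fl F) v + J m (fl G) v := by
  have h := map_add (fcl (ct_fld hJ m) v) F G
  simpa only [fcl_apply] using h

lemma J_smul (hJ : IsVirial Q T J) (m : Ix) (c : ℂ) (F : 𝓢(Mink, ℂ)) (v : D) :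
    J m (fl (c • F)) v = c • J m (fl F) v := by
  have h := map_smul (fcl (ct_fld hJ m) v) c F
  simpa only [fcl_apply] using h

lemma PCv_U {s : ℝ} (hs : 0 < s) {L : Ix → V} (hL : IsLor L) (y : V) {g : Ix → 𝓢(Mink, ℂ)}
    (hg : PCv g) : PCv fun m => ∑ k, ((s⁻¹ * linv L m k : ℝ) : ℂ) • simJ hs hL y (g k) := by
  intro m
  rw [map_sum]
  simp only [map_smul]
  exact PC_sum _ fun k => PC_smul _ (PC_simJ hs hL y (hg k))

/-- the explicit form of `InJ_U` -/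
lemma U_jv (hJ : IsVirial Q T J) {s : ℝ} (hs : 0 < s) {L : Ix → V} (hL : IsLor L) (y : V)
    (g : Ix → 𝓢(Mink, ℂ)) : Q.U s L y (jv Q J g) =
      jv Q J fun m => ∑ k, ((s⁻¹ * linv L m k : ℝ) : ℂ) • simJ hs hL y (g k) := by
  unfold jv
  have h0 := H15.U_sum (Q := Q) hs hL y Finset.univ (fun _ => (1 : ℂ)) (fun m => J m (fl (g m)) Q.vac)
  simp only [one_smul] at h0
  rw [h0]
  simp only [U_J hJ hs hL]
  rw [Finset.sum_comm]
  refine Finset.sum_congr rfl fun m _ => ?_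
  rw [J_sum hJ]

theorem InJ_U (N : CNet Q H alg S) (hJ : IsVirial Q T J) {X : D} (hX : InJ Q J X) {s : ℝ}
    (hs : 0 < s) {L : Ix → V} (hL : IsLor L) (y : V) : InJ Q J (Q.U s L y X) := by
  obtain ⟨g, hg, rfl⟩ := hX
  exact ⟨_, PCv_U hs hL y hg, U_jv hJ hs hL y g⟩

/-! ### The generators on the vectors of the virial current -/

lemma ldm_add (v : Mink) (f g : 𝓢(Mink, ℂ)) :
    (∂_{v} (f + g) : 𝓢(Mink, ℂ)) = ∂_{v} f + (∂_{v} g : 𝓢(Mink, ℂ)) :=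
  LineDeriv.lineDerivOp_add v f g

lemma ldm_smul (v : Mink) (c : ℂ) (f : 𝓢(Mink, ℂ)) :
    (∂_{v} (c • f) : 𝓢(Mink, ℂ)) = c • (∂_{v} f : 𝓢(Mink, ℂ)) :=
  LineDeriv.lineDerivOp_smul v c f

lemma ldm_sum (v : Mink) {ι : Type*} (t : Finset ι) (g : ι → 𝓢(Mink, ℂ)) :
    (∂_{v} (∑ k ∈ t, g k) : 𝓢(Mink, ℂ)) = ∑ k ∈ t, (∂_{v} (g k) : 𝓢(Mink, ℂ)) :=
  LineDeriv.lineDerivOp_sum v g t

lemma ldm_X (k n : Ix) (f : 𝓢(Mink, ℂ)) : (∂_{eb k} (Xm n f) : 𝓢(Mink, ℂ)) =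
    (GF.one k n : ℂ) • f + Xm n (∂_{eb k} f : 𝓢(Mink, ℂ)) := by
  ext x
  have h0 : HasFDerivAt (fun x : Mink => ((x n : ℝ) : ℂ))
      (Complex.ofRealCLM.comp (EuclideanSpace.proj n : Mink →L[ℝ] ℝ)) x :=
    (Complex.ofRealCLM.comp (EuclideanSpace.proj n : Mink →L[ℝ] ℝ)).hasFDerivAt
  have h1 := h0.mul (f.differentiableAt (x := x)).hasFDerivAt
  have h2 : (Xm n f : Mink → ℂ) = (fun x : Mink => ((x n : ℝ) : ℂ)) * f := by
    funext y
    rw [Xm_apply]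
    rfl
  have e : ((GF.one k n : ℂ) • f + Xm n (∂_{eb k} f : 𝓢(Mink, ℂ))) x =
      (GF.one k n : ℂ) * f x + (x n : ℂ) * fderiv ℝ f x (eb k) := by
    rw [SchwartzMap.add_apply, SchwartzMap.smul_apply, Xm_apply, lineDerivOp_apply_eq_fderiv]
    rfl
  rw [e, lineDerivOp_apply_eq_fderiv, h2, h1.fderiv]
  by_cases h : k = n
  · subst h
    simp [eb, GF.one, bas]
    ring
  · have h' : n ≠ k := fun e => h e.symm
    simp [eb, GF.one, bas, h, h']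

/-- the Schwartz function `vfS` as a sum -/
lemma vfS_eq (w : Ix → V) (r : ℝ) (c : V) (f : 𝓢(Mink, ℂ)) : vfS w r c f =
    ∑ n, ((c n : ℂ) • (∂_{eb n} f : 𝓢(Mink, ℂ)) + (r : ℂ) • Xm n (∂_{eb n} f : 𝓢(Mink, ℂ)) +
      ∑ m, (w m n : ℂ) • Xm m (∂_{eb n} f : 𝓢(Mink, ℂ))) := by
  ext x
  have h1 := fl_vfS (X := fun z n => c n + r * z n + ∑ m, z m * w m n) (w := w) (r := r) (c := c)
    (fun z n => rfl) f
  have h2 := congrFun h1 x.ofLp
  simp only [vf, pd_fl, fl_apply] at h2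
  have h3 : vfS w r c f x = ∑ n, ((c n + r * x n + ∑ m, x m * w m n : ℝ) : ℂ) *
      (∂_{eb n} f : 𝓢(Mink, ℂ)) x := h2
  rw [h3, SchwartzMap.sum_apply]
  refine Finset.sum_congr rfl fun n _ => ?_
  simp only [SchwartzMap.add_apply, SchwartzMap.smul_apply, SchwartzMap.sum_apply, Xm_apply,
    smul_eq_mul]
  push_cast
  rw [add_mul, add_mul, Finset.sum_mul]
  congr 1
  · ring
  · refine Finset.sum_congr rfl fun m _ => by ring

lemma vfS_add (w : Ix → V) (r : ℝ) (c : V) (f g : 𝓢(Mink, ℂ)) :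
    vfS w r c (f + g) = vfS w r c f + vfS w r c g := by
  simp only [vfS_eq, ldm_add, map_add, smul_add, Finset.sum_add_distrib]
  abel

lemma vfS_smul (w : Ix → V) (r : ℝ) (c : V) (a : ℂ) (f : 𝓢(Mink, ℂ)) :
    vfS w r c (a • f) = a • vfS w r c f := by
  simp only [vfS_eq, ldm_smul, map_smul, Finset.smul_sum, smul_add, smul_smul, mul_comm a]

lemma vfS_zero (w : Ix → V) (r : ℝ) (c : V) : vfS w r c 0 = 0 := by
  have h := vfS_smul w r c 0 0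
  rwa [zero_smul, zero_smul] at h

lemma vfS_sum (w : Ix → V) (r : ℝ) (c : V) {ι : Type*} (t : Finset ι) (f : ι → 𝓢(Mink, ℂ)) :
    vfS w r c (∑ i ∈ t, f i) = ∑ i ∈ t, vfS w r c (f i) := by
  classical
  induction t using Finset.induction_on with
  | empty => simp only [Finset.sum_empty, vfS_zero]
  | insert i t hi ih => rw [Finset.sum_insert hi, Finset.sum_insert hi, vfS_add, ih]

/-- derivative of `vfS` -/
lemma ld_vfS (w : Ix → V) (r : ℝ) (c : V) (k : Ix) (f : 𝓢(Mink, ℂ)) :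
    (∂_{eb k} (vfS w r c f) : 𝓢(Mink, ℂ)) = vfS w r c (∂_{eb k} f : 𝓢(Mink, ℂ)) +
      ((r : ℂ) • (∂_{eb k} f : 𝓢(Mink, ℂ)) +
        ∑ n, (w k n : ℂ) • (∂_{eb n} f : 𝓢(Mink, ℂ))) := by
  have h1 : ∀ n, (∂_{eb k} ((c n : ℂ) • (∂_{eb n} f : 𝓢(Mink, ℂ)) +
      (r : ℂ) • Xm n (∂_{eb n} f : 𝓢(Mink, ℂ)) +
      ∑ m, (w m n : ℂ) • Xm m (∂_{eb n} f : 𝓢(Mink, ℂ))) : 𝓢(Mink, ℂ)) =
      ((c n : ℂ) • (∂_{eb n} (∂_{eb k} f : 𝓢(Mink, ℂ)) : 𝓢(Mink, ℂ)) +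
      (r : ℂ) • Xm n (∂_{eb n} (∂_{eb k} f : 𝓢(Mink, ℂ)) : 𝓢(Mink, ℂ)) +
      ∑ m, (w m n : ℂ) • Xm m (∂_{eb n} (∂_{eb k} f : 𝓢(Mink, ℂ)) : 𝓢(Mink, ℂ))) +
      ((GF.one k n : ℂ) • ((r : ℂ) • (∂_{eb n} f : 𝓢(Mink, ℂ))) +
        (w k n : ℂ) • (∂_{eb n} f : 𝓢(Mink, ℂ))) := by
    intro n
    simp only [ldm_add, ldm_smul, ldm_sum, ldm_X, lineDeriv_comm' k n f, smul_add,
      Finset.sum_add_distrib]
    have h2 : ∑ m, (w m n : ℂ) • ((GF.one k m : ℂ) • (∂_{eb n} f : 𝓢(Mink, ℂ))) =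
        (w k n : ℂ) • (∂_{eb n} f : 𝓢(Mink, ℂ)) := by
      rw [Finset.sum_eq_single k]
      · simp [GF.one, bas]
      · intro m _ hm
        simp [GF.one, bas, hm]
      · intro h; exact absurd (Finset.mem_univ _) h
    rw [h2, smul_comm (r : ℂ) (GF.one k n : ℂ)]
    abel
  rw [vfS_eq w r c f, ldm_sum, vfS_eq w r c (∂_{eb k} f : 𝓢(Mink, ℂ))]
  simp only [h1]
  rw [Finset.sum_add_distrib, Finset.sum_add_distrib (f := fun n =>
    (GF.one k n : ℂ) • ((r : ℂ) • (∂_{eb n} f : 𝓢(Mink, ℂ))))]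
  congr 2
  rw [Finset.sum_eq_single k]
  · simp [GF.one, bas]
  · intro m _ hm
    simp [GF.one, bas, hm]
  · intro h; exact absurd (Finset.mem_univ _) h

lemma PC_X {f : 𝓢(Mink, ℂ)} (hf : H246R.PC (mftS f)) (m : Ix) : H246R.PC (mftS (Xm m f)) := by
  rw [H993.mftS_Xm]
  exact PC_smul _ (PC_ld hf _)

lemma PC_vfS (w : Ix → V) (r : ℝ) (c : V) {f : 𝓢(Mink, ℂ)} (hf : H246R.PC (mftS f)) :
    H246R.PC (mftS (vfS w r c f)) := by
  rw [vfS_eq, map_sum]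
  refine PC_sum _ fun n => ?_
  simp only [map_add, map_smul, map_sum]
  have h1 := PC_deriv hf (eb n)
  exact PC_add (PC_add (PC_smul _ h1) (PC_smul _ (PC_X h1 n)))
    (PC_sum _ fun m => PC_smul _ (PC_X h1 m))

theorem A_jv (R : H15.Rep Q A) (hJ : IsVirial Q T J) {Y : V → V} {c : V} {w : Ix → V} {r : ℝ}
    (hw : ∀ m n, GF.eta n * w m n = -(GF.eta m * w n m))
    (hY : ∀ z n, Y z n = c n + r * z n + ∑ m, z m * w m n) {g : Ix → 𝓢(Mink, ℂ)} (hg : PCv g) :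
    ∃ g', PCv g' ∧ A Y (jv Q J g) = jv Q J g' ∧
      dv g' = (I : ℂ) • ((2 * r : ℂ) • dv g + vfS w r c (dv g)) := by
  have hY' : IsSim r Y := ⟨c, w, hw, hY⟩
  refine ⟨fun k => I • ((r : ℂ) • g k + ∑ m, (w k m : ℂ) • g m + vfS w r c (g k)), ?_, ?_, ?_⟩
  · intro k
    simp only [map_smul, map_add, map_sum]
    exact PC_smul _ (PC_add (PC_add (PC_smul _ (hg k)) (PC_sum _ fun m => PC_smul _ (hg m)))
      (PC_vfS w r c (hg k)))
  · unfold jv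
    have h0 := A_sumv R hY' Finset.univ (fun _ => (1 : ℂ)) (fun m => J m (fl (g m)) Q.vac)
    simp only [one_smul] at h0
    rw [h0]
    have h1 : ∀ m, A Y (J m (fl (g m)) Q.vac) = I • ((r : ℂ) • J m (fl (g m)) Q.vac +
        ∑ k, (w k m : ℂ) • J k (fl (g m)) Q.vac + J m (fl (vfS w r c (g m))) Q.vac) := by
      intro m
      rw [A_J R hJ hw hY (isTest_fl _) m, A_vac R hY', ← fl_vfS hY]
      have h0 : J m (fl (g m)) (0 : D) = 0 := by
        have h := H746.fld_smul (ct_fld hJ m) (isTest_fl (g m)) (0 : ℂ) (0 : D)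
        rwa [zero_smul, zero_smul] at h
      rw [h0, zero_add]
    have h2 : ∀ k, J k (fl (I • ((r : ℂ) • g k + ∑ m, (w k m : ℂ) • g m + vfS w r c (g k))))
        Q.vac = I • ((r : ℂ) • J k (fl (g k)) Q.vac +
        ∑ m, (w k m : ℂ) • J k (fl (g m)) Q.vac + J k (fl (vfS w r c (g k))) Q.vac) := by
      intro k
      rw [J_smul hJ, J_add hJ, J_add hJ, J_smul hJ, J_sum hJ]
    simp only [h1, h2]
    simp only [smul_add, Finset.sum_add_distrib]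
    congr 2
    simp only [Finset.smul_sum]
    rw [Finset.sum_comm]
  · unfold dv
    have h1 : ∀ k, (LineDeriv.lineDerivOp (eb k)
        (I • ((r : ℂ) • g k + ∑ m, (w k m : ℂ) • g m + vfS w r c (g k))) : 𝓢(Mink, ℂ)) =
        I • ((2 * r : ℂ) • (∂_{eb k} (g k) : 𝓢(Mink, ℂ)) +
          (∑ m, (w k m : ℂ) • (∂_{eb k} (g m) : 𝓢(Mink, ℂ)) +
            ∑ m, (w k m : ℂ) • (∂_{eb m} (g k) : 𝓢(Mink, ℂ))) +
          vfS w r c (∂_{eb k} (g k) : 𝓢(Mink, ℂ))) := by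
      intro k
      simp only [ldm_add, ldm_smul, ldm_sum, ld_vfS]
      congr 1
      rw [two_mul, add_smul]
      abel
    simp only [h1]
    have hw' : ∀ m n, GF.eta m * w m n = -(GF.eta n * w n m) := by
      intro m n
      have e1 := H746.eta_sq m
      have e2 := H746.eta_sq n
      linear_combination (GF.eta m * GF.eta n) * hw m n - (GF.eta m * w m n) * e2 -
        (GF.eta n * w n m) * e1
    have h2 : ∑ k, ((GF.eta k : ℝ) : ℂ) • (∑ m, (w k m : ℂ) • (∂_{eb k} (g m) : 𝓢(Mink, ℂ)) +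
        ∑ m, (w k m : ℂ) • (∂_{eb m} (g k) : 𝓢(Mink, ℂ))) = 0 := by
      simp only [smul_add, Finset.smul_sum, smul_smul, Finset.sum_add_distrib]
      have h3 : ∑ k, ∑ m, (((GF.eta k : ℝ) : ℂ) * (w k m : ℂ)) •
          (∂_{eb m} (g k) : 𝓢(Mink, ℂ)) = ∑ k, ∑ m, (((GF.eta m : ℝ) : ℂ) * (w m k : ℂ)) •
          (∂_{eb k} (g m) : 𝓢(Mink, ℂ)) := Finset.sum_comm
      rw [h3, ← Finset.sum_add_distrib]
      refine Finset.sum_eq_zero fun k _ => ?_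
      rw [← Finset.sum_add_distrib]
      refine Finset.sum_eq_zero fun m _ => ?_
      rw [← add_smul]
      have h4 : ((GF.eta k : ℝ) : ℂ) * (w k m : ℂ) + ((GF.eta m : ℝ) : ℂ) * (w m k : ℂ) = 0 := by
        have := hw' k m
        rw [← ofReal_mul, ← ofReal_mul, this]
        push_cast
        ring
      rw [h4, zero_smul]
    have h5 : ∀ k, ((GF.eta k : ℝ) : ℂ) • (I • ((2 * r : ℂ) • (∂_{eb k} (g k) : 𝓢(Mink, ℂ)) +
          (∑ m, (w k m : ℂ) • (∂_{eb k} (g m) : 𝓢(Mink, ℂ)) +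
            ∑ m, (w k m : ℂ) • (∂_{eb m} (g k) : 𝓢(Mink, ℂ))) +
          vfS w r c (∂_{eb k} (g k) : 𝓢(Mink, ℂ)))) =
        I • ((2 * r : ℂ) • (((GF.eta k : ℝ) : ℂ) • (∂_{eb k} (g k) : 𝓢(Mink, ℂ))) +
          ((GF.eta k : ℝ) : ℂ) • (∑ m, (w k m : ℂ) • (∂_{eb k} (g m) : 𝓢(Mink, ℂ)) +
            ∑ m, (w k m : ℂ) • (∂_{eb m} (g k) : 𝓢(Mink, ℂ))) +
          vfS w r c (((GF.eta k : ℝ) : ℂ) • (∂_{eb k} (g k) : 𝓢(Mink, ℂ)))) := by
      intro k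
      rw [smul_comm ((GF.eta k : ℝ) : ℂ) I]
      congr 1
      rw [smul_add, smul_add, smul_comm ((GF.eta k : ℝ) : ℂ) (2 * r : ℂ), vfS_smul]
    simp only [h5]
    rw [← Finset.smul_sum, Finset.sum_add_distrib, Finset.sum_add_distrib, h2, add_zero,
      ← Finset.smul_sum, ← vfS_sum]

end Vale.Agent.P352.N86

end
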