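import Vale.Agent.P352.N86.K.C13a

/-!
# P352, block C13c: the smeared conformal part
-/

set_option linter.all false

noncomputable section

open MeasureTheory Filter Topology SchwartzMap Complex
open scoped SchwartzMap ComplexConjugate ContDiff LineDeriv

namespace Vale.Agent.P352.N86

open GF (Ix V Fn Fld Theory Sch IsLor bas eta o sim pd tr ev bar)
open H246 H496 H755 H15 H846 H246R H746
open UniformSpace (Completion)

variable {D : Type*} [NormedAddCommGroup D] [InnerProductSpace ℂ D]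
variable {Q : GF.Theory D} {T : Ix → Ix → GF.Fld D} {J : Ix → GF.Fld D}
variable {H : D → D} {alg : Set V → Set (D → D)} {S : V → ℝ → D → D}
variable {A : (V → V) → D → D} {l : Fn → Completion D}

/-! ### Sums of fields -/

lemma c13_isSim_lin {r r' : ℝ} {X X' : V → V} (hX : IsSim r X) (hX' : IsSim r' X') (c : ℝ) :
    IsSim (r + c * r') (fun z => X z + c • X' z) := by
  obtain ⟨b, w, hw, h⟩ := hX
  obtain ⟨b', w', hw', h'⟩ := hX'
  refine ⟨b + c • b', fun m n => w m n + c * w' m n, fun m n => ?_, fun z n => ?_⟩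
  · linear_combination hw m n + c * hw' m n
  · simp only [Pi.add_apply, Pi.smul_apply, smul_eq_mul, h, h', Fin.sum_univ_four]
    ring

lemma c13_Asum (R : H15.Rep Q A) {ι : Type*} (s : Finset ι) (X : ι → V → V) (r : ι → ℝ)
    (hX : ∀ i, IsSim (r i) (X i)) (c : ι → ℝ) (v : D) :
    (∃ ρ, IsSim ρ (fun z => ∑ i ∈ s, c i • X i z)) ∧
      A (fun z => ∑ i ∈ s, c i • X i z) v = ∑ i ∈ s, (c i : ℂ) • A (X i) v := by
  classical
  induction s using Finset.induction_on with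
  | empty =>
    simp only [Finset.sum_empty]
    exact ⟨⟨0, c13_isSim_const 0⟩, H15.A_zero R v⟩
  | insert i s hi ih =>
    obtain ⟨⟨ρ, h1⟩, h2⟩ := ih
    have e : (fun z => ∑ j ∈ insert i s, c j • X j z) =
        fun z => (fun z => ∑ j ∈ s, c j • X j z) z + c i • X i z := by
      funext z
      rw [Finset.sum_insert hi, add_comm]
    rw [e]
    refine ⟨⟨ρ + c i * r i, c13_isSim_lin h1 (hX i) (c i)⟩, ?_⟩
    rw [R.add ρ (r i) (c i) _ _ v h1 (hX i), h2, Finset.sum_insert hi, add_comm]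

/-- the fields of the expansion -/
def c13_Y (a : V) : Ix ⊕ Ix ⊕ Unit → V → V
  | .inl n => c13_E a n
  | .inr (.inl n) => fun _ => GF.one n
  | .inr (.inr _) => fun z => z

/-- the rates of expansion -/
def c13_r : Ix ⊕ Ix ⊕ Unit → ℝ
  | .inl _ => 0
  | .inr (.inl _) => 0
  | .inr (.inr _) => 1

/-- the coefficients -/
def c13_p (a : V) : Ix ⊕ Ix ⊕ Unit → V → ℝ
  | .inl n => fun x => x n
  | .inr (.inl n) => c13_q a n
  | .inr (.inr _) => fun x => 2 * GF.mdot a x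

/-- multiplication by the coefficients -/
def c13_P (a : V) : Ix ⊕ Ix ⊕ Unit → 𝓢(Mink, ℂ) →L[ℂ] 𝓢(Mink, ℂ)
  | .inl n => Xm n
  | .inr (.inl n) => ((-2 : ℝ) : ℂ) • (axL a).comp (Xm n) + ((a n : ℝ) : ℂ) • xxL
  | .inr (.inr _) => ((2 : ℝ) : ℂ) • axL a

/-- multiplication by the derivatives of the coefficients -/
def c13_dP (a : V) (m : Ix) : Ix ⊕ Ix ⊕ Unit → 𝓢(Mink, ℂ) → 𝓢(Mink, ℂ)
  | .inl n => fun F => if m = n then F else 0
  | .inr (.inl n) => fun F => c13_dq a m n F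
  | .inr (.inr _) => fun F => ((2 * (GF.eta m * a m) : ℝ) : ℂ) • F

lemma c13_isSim_Y (a : V) (i : Ix ⊕ Ix ⊕ Unit) : IsSim (c13_r i) (c13_Y a i) := by
  rcases i with n | n | n
  · exact c13_isSim_E a n
  · exact c13_isSim_const _
  · exact c13_isSim_id

lemma c13_dec (a x z : V) : Yx a x (z - x) = ∑ i, c13_p a i x • c13_Y a i z := by
  rw [c13_field, Fintype.sum_sum_type, Fintype.sum_sum_type]
  simp only [c13_p, c13_Y, Finset.univ_unique, Finset.sum_singleton]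
  abel

lemma c13_xxL_apply (F : 𝓢(Mink, ℂ)) (x : Mink) :
    xxL F x = ((GF.mdot x.ofLp x.ofLp : ℝ) : ℂ) * F x := by
  rw [H121.xxL_sum, SchwartzMap.sum_apply]
  simp only [SchwartzMap.smul_apply, Xm_apply, smul_eq_mul, GF.mdot, Fin.sum_univ_four]
  push_cast
  ring

lemma c13_P_apply (a : V) (i : Ix ⊕ Ix ⊕ Unit) (F : 𝓢(Mink, ℂ)) (x : Mink) :
    c13_P a i F x = (c13_p a i x.ofLp : ℂ) * F x := by
  rcases i with n | n | n
  · simp [c13_P, c13_p]
  · show (((-2 : ℝ) : ℂ) • (axL a).comp (Xm n) + ((a n : ℝ) : ℂ) • xxL) F x = _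
    rw [ContinuousLinearMap.add_apply, ContinuousLinearMap.smul_apply,
      ContinuousLinearMap.smul_apply, ContinuousLinearMap.comp_apply, SchwartzMap.add_apply,
      SchwartzMap.smul_apply, SchwartzMap.smul_apply, H121.axL_apply, c13_xxL_apply, Xm_apply]
    simp only [c13_p, c13_q, smul_eq_mul]
    push_cast
    ring
  · show (((2 : ℝ) : ℂ) • axL a) F x = _
    rw [ContinuousLinearMap.smul_apply, SchwartzMap.smul_apply, H121.axL_apply]
    simp only [c13_p, smul_eq_mul]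
    push_cast
    ring

lemma c13_D_xx (m : Ix) (F : 𝓢(Mink, ℂ)) : (∂_{eb m} (xxL F) : 𝓢(Mink, ℂ)) =
    ((2 * GF.eta m : ℝ) : ℂ) • Xm m F + xxL (∂_{eb m} F : 𝓢(Mink, ℂ)) := by
  have h1 : (∂_{eb m} (xxL F) : 𝓢(Mink, ℂ)) =
      ∑ k, ((GF.eta k : ℝ) : ℂ) • (∂_{eb m} (Xm k (Xm k F)) : 𝓢(Mink, ℂ)) := by
    rw [H121.xxL_sum]
    have h2 := map_sum (LineDeriv.lineDerivOpCLM ℂ 𝓢(Mink, ℂ) (eb m))
      (fun k => ((GF.eta k : ℝ) : ℂ) • Xm k (Xm k F)) Finset.univ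
    simp only [map_smul] at h2
    exact h2
  rw [h1]
  ext x
  rw [SchwartzMap.add_apply, SchwartzMap.smul_apply, c13_xxL_apply, SchwartzMap.sum_apply]
  simp only [H121.wd_ld_Xm, map_add, map_smul, SchwartzMap.add_apply, SchwartzMap.smul_apply,
    Xm_apply, smul_eq_mul, Fin.sum_univ_four, GF.mdot]
  fin_cases m <;>
  · simp
    ring

lemma c13_P_deriv (a : V) (i : Ix ⊕ Ix ⊕ Unit) (m : Ix) (F : 𝓢(Mink, ℂ)) :
    (∂_{eb m} (c13_P a i F) : 𝓢(Mink, ℂ)) = c13_P a i (∂_{eb m} F : 𝓢(Mink, ℂ)) + c13_dP a m i F := by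
  rcases i with n | n | n
  · show (∂_{eb m} (Xm n F) : 𝓢(Mink, ℂ)) = Xm n (∂_{eb m} F : 𝓢(Mink, ℂ)) + (if m = n then F else 0)
    rw [H121.wd_ld_Xm, add_comm]
    congr 1
    split_ifs
    · rw [one_smul]
    · rw [zero_smul]
  · have e : ∀ G : 𝓢(Mink, ℂ), c13_P a (.inr (.inl n)) G =
        ((-2 : ℝ) : ℂ) • axL a (Xm n G) + ((a n : ℝ) : ℂ) • xxL G := fun G => rfl
    rw [e, e]
    have h1 : (∂_{eb m} (((-2 : ℝ) : ℂ) • axL a (Xm n F) + ((a n : ℝ) : ℂ) • xxL F) : 𝓢(Mink, ℂ)) =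
        ((-2 : ℝ) : ℂ) • (∂_{eb m} (axL a (Xm n F)) : 𝓢(Mink, ℂ)) +
        ((a n : ℝ) : ℂ) • (∂_{eb m} (xxL F) : 𝓢(Mink, ℂ)) := by
      have h := map_add (LineDeriv.lineDerivOpCLM ℂ 𝓢(Mink, ℂ) (eb m))
        (((-2 : ℝ) : ℂ) • axL a (Xm n F)) (((a n : ℝ) : ℂ) • xxL F)
      rw [map_smul, map_smul] at h
      exact h
    rw [h1, H121.D_A, H121.wd_ld_Xm, c13_D_xx]
    ext x
    show _ = (_ + c13_dq a m n F) x
    unfold c13_dq
    simp only [ContinuousLinearMap.add_apply, ContinuousLinearMap.sub_apply,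
      ContinuousLinearMap.smul_apply, map_add, map_smul, SchwartzMap.add_apply,
      SchwartzMap.sub_apply, SchwartzMap.smul_apply, Xm_apply, H121.axL_apply, c13_xxL_apply,
      smul_eq_mul]
    split_ifs <;> push_cast <;> ring
  · show (∂_{eb m} (((2 : ℝ) : ℂ) • axL a F) : 𝓢(Mink, ℂ)) =
      ((2 : ℝ) : ℂ) • axL a (∂_{eb m} F : 𝓢(Mink, ℂ)) + ((2 * (GF.eta m * a m) : ℝ) : ℂ) • F
    have h1 : (∂_{eb m} (((2 : ℝ) : ℂ) • axL a F) : 𝓢(Mink, ℂ)) =
        ((2 : ℝ) : ℂ) • (∂_{eb m} (axL a F) : 𝓢(Mink, ℂ)) :=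
      map_smul (LineDeriv.lineDerivOpCLM ℂ 𝓢(Mink, ℂ) (eb m)) _ _
    rw [h1, H121.D_A, smul_add, smul_smul, add_comm]
    congr 2
    push_cast
    ring

/-! ### Translations -/

lemma c13_tra (R : H15.Rep Q A) {r : ℝ} {X : V → V} (hX : IsSim r X) (x : V) (v : D) :
    Q.U 1 GF.one x (A X (Q.U 1 GF.one (-x) v)) = A (fun z => X (z - x)) v := by
  obtain ⟨c, w, hw, hX⟩ := hX
  obtain ⟨s, L, a, K⟩ := exists_crv hw r c
  exact conj_A R x v K.s0 K.L0 K.a0 (fun e => ⟨K.sp e, K.lor e⟩) fun n z => K.dX hX n z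

lemma c13_isSim_Yx (a x : V) : ∃ ρ, IsSim ρ (Yx a x) := by
  have h1 : ∀ s : Finset (Ix ⊕ Ix ⊕ Unit), ∃ ρ, IsSim ρ (fun z => ∑ i ∈ s, c13_p a i x • c13_Y a i z) := by
    classical
    intro s
    induction s using Finset.induction_on with
    | empty =>
      simp only [Finset.sum_empty]
      exact ⟨0, c13_isSim_const 0⟩
    | insert i s hi ih =>
      obtain ⟨ρ, h1⟩ := ih
      have e : (fun z => ∑ j ∈ insert i s, c13_p a j x • c13_Y a j z) =
          fun z => (fun z => ∑ j ∈ s, c13_p a j x • c13_Y a j z) z + c13_p a i x • c13_Y a i z := by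
        funext z
        rw [Finset.sum_insert hi, add_comm]
      rw [e]
      exact ⟨_, c13_isSim_lin h1 (c13_isSim_Y a i) _⟩
  obtain ⟨ρ, h2⟩ := h1 Finset.univ
  refine ⟨ρ, ?_⟩
  have h3 := H755.sim_shift h2 (-x)
  have e : (fun z => ∑ i, c13_p a i x • c13_Y a i (z - -x)) = Yx a x := by
    funext z
    rw [← c13_dec]
    congr 1
    abel
  rwa [e] at h3

/-- the generator of `Yx` on translated vectors -/
lemma c13_Yx (R : H15.Rep Q A) (a x : V) (v : D) : A (Yx a x) (Q.U 1 GF.one (-x) v) =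
    ∑ i, (c13_p a i x : ℂ) • Q.U 1 GF.one (-x) (A (c13_Y a i) v) := by
  obtain ⟨ρ, h1⟩ := c13_isSim_Yx a x
  have h2 := c13_tra R h1 x v
  have e : (fun z => Yx a x (z - x)) = fun z => ∑ i, c13_p a i x • c13_Y a i z :=
    funext fun z => c13_dec a x z
  rw [e, (c13_Asum R Finset.univ (c13_Y a) c13_r (c13_isSim_Y a) (fun i => c13_p a i x) v).2] at h2
  have h3 : ∀ w : D, Q.U 1 GF.one (-x) (Q.U 1 GF.one x w) = w := by
    intro w
    have h4 := U1_U1_all (Q := Q) (WithLp.toLp 2 (-x)) (WithLp.toLp 2 x) w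
    have h5 : (WithLp.toLp 2 (-x) + WithLp.toLp 2 x : Mink) = 0 := by ext i; simp
    rw [h5, U1_zero_all] at h4
    exact h4
  rw [← h3 (A (Yx a x) (Q.U 1 GF.one (-x) v)), h2]
  have h6 : ∀ (s : Finset (Ix ⊕ Ix ⊕ Unit)) (c : Ix ⊕ Ix ⊕ Unit → ℂ) (u : Ix ⊕ Ix ⊕ Unit → D),
      Q.U 1 GF.one (-x) (∑ i ∈ s, c i • u i) = ∑ i ∈ s, c i • Q.U 1 GF.one (-x) (u i) := by
    intro s c u
    have h7 := map_sum (Ulin Q one_pos isLor_one (-x)) (fun i => c i • u i) s
    simp only [map_smul] at h7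
    exact h7
  exact h6 _ _ _

/-! ### Integrals -/

lemma c13_ptf (N : CNet Q H alg S) (hJ : IsVirial Q T J) (m : Ix) :
    ∃ (φ : Completion D) (n : ℕ), ∀ v, vj Q J m v = pt φ (pw1 H n) v := by
  obtain ⟨μ, K, w, n, h⟩ := exists_kc N.toNet (fun m => Q.bose_fld _ (hJ.bose m)) (bas m 1)
  exact ⟨_, n, fun v => vj_eq N.toNet (fun m => Q.bose_fld _ (hJ.bose m)) (pw1_mem N.toNet n) h v⟩

lemma c13_vj_sum (N : CNet Q H alg S) (hJ : IsVirial Q T J) (m : Ix) {ι : Type*} (s : Finset ι)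
    (c : ι → ℂ) (u : ι → D) : vj Q J m (∑ i ∈ s, c i • u i) = ∑ i ∈ s, c i * vj Q J m (u i) := by
  obtain ⟨φ, n, h⟩ := c13_ptf N hJ m
  simp only [h]
  exact H993.pt_sum N (pw1_mem N.toNet n) s c u

lemma c13_int (N : CNet Q H alg S) (hJ : IsVirial Q T J) (m : Ix) (F : 𝓢(Mink, ℂ)) (v : D) :
    Integrable fun x : Mink => conj (F x) * vj Q J m (U1 Q (-x) v) := by
  have hf : ∀ m, Q.fld (J m) := fun m => Q.bose_fld _ (hJ.bose m)
  obtain ⟨C, hC⟩ := bdd_vj N.toNet hf m v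
  have h1 : Integrable fun x : Mink => conj (F x) := by
    have h2 : Integrable (conjS F : Mink → ℂ) := (conjS F).integrable
    refine h2.congr (Eventually.of_forall fun x => ?_)
    simp
  have h3 := h1.bdd_mul (c := C) (cont_vj N.toNet hf m v).aestronglyMeasurable
    (Eventually.of_forall fun x => hC (-x))
  refine h3.congr (Eventually.of_forall fun x => ?_)
  simp only
  ring

lemma c13_term (N : CNet Q H alg S) (hJ : IsVirial Q T J) (m : Ix) (a : V) (i : Ix ⊕ Ix ⊕ Unit)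
    (F : 𝓢(Mink, ℂ)) (v : D) :
    (Integrable fun x : Mink => conj (F x) * ((c13_p a i x.ofLp : ℂ) * vj Q J m (U1 Q (-x) v))) ∧
    ∫ x : Mink, conj (F x) * ((c13_p a i x.ofLp : ℂ) * vj Q J m (U1 Q (-x) v)) =
      inner ℂ (J m (fl (c13_P a i F)) Q.vac) v := by
  have hf : ∀ m, Q.fld (J m) := fun m => Q.bose_fld _ (hJ.bose m)
  have e : (fun x : Mink => conj (F x) * ((c13_p a i x.ofLp : ℂ) * vj Q J m (U1 Q (-x) v))) =
      fun x : Mink => conj (c13_P a i F x) * vj Q J m (U1 Q (-x) v) := by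
    funext x
    rw [c13_P_apply, map_mul, conj_ofReal]
    ring
  rw [e]
  refine ⟨c13_int N hJ m _ v, ?_⟩
  rw [← Completion.inner_coe, vj_rep N.toNet hf]

/-- integrability -/
theorem c13_Aint (R : H15.Rep Q A) (N : CNet Q H alg S) (hJ : IsVirial Q T J) (X : D) (a : V)
    (m : Ix) (F : 𝓢(Mink, ℂ)) :
    Integrable fun x : Mink => conj (F x) * vj Q J m (A (Yx a x.ofLp) (U1 Q (-x) X)) := by
  have e : (fun x : Mink => conj (F x) * vj Q J m (A (Yx a x.ofLp) (U1 Q (-x) X))) =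
      fun x : Mink => ∑ i, conj (F x) * ((c13_p a i x.ofLp : ℂ) *
        vj Q J m (U1 Q (-x) (A (c13_Y a i) X))) := by
    funext x
    have h := c13_Yx R a x.ofLp X
    have h2 : A (Yx a x.ofLp) (U1 Q (-x) X) =
        ∑ i, (c13_p a i x.ofLp : ℂ) • U1 Q (-x) (A (c13_Y a i) X) := h
    rw [h2, c13_vj_sum N hJ, Finset.mul_sum]
  rw [e]
  exact integrable_finset_sum _ fun i _ => (c13_term N hJ m a i F _).1

lemma c13_Aval (R : H15.Rep Q A) (N : CNet Q H alg S) (hJ : IsVirial Q T J) (X : D) (a : V)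
    (m : Ix) (F : 𝓢(Mink, ℂ)) :
    ∫ x : Mink, conj (F x) * vj Q J m (A (Yx a x.ofLp) (U1 Q (-x) X)) =
      ∑ i, inner ℂ (J m (fl (c13_P a i F)) Q.vac) (A (c13_Y a i) X) := by
  have e : (fun x : Mink => conj (F x) * vj Q J m (A (Yx a x.ofLp) (U1 Q (-x) X))) =
      fun x : Mink => ∑ i, conj (F x) * ((c13_p a i x.ofLp : ℂ) *
        vj Q J m (U1 Q (-x) (A (c13_Y a i) X))) := by
    funext x
    have h := c13_Yx R a x.ofLp X
    have h2 : A (Yx a x.ofLp) (U1 Q (-x) X) =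
        ∑ i, (c13_p a i x.ofLp : ℂ) • U1 Q (-x) (A (c13_Y a i) X) := h
    rw [h2, c13_vj_sum N hJ, Finset.mul_sum]
  rw [e, integral_finset_sum _ fun i _ => (c13_term N hJ m a i F _).1]
  exact Finset.sum_congr rfl fun i _ => (c13_term N hJ m a i F _).2

/-- the divergence of the current and the potential -/
theorem c13_div (hJ : IsVirial Q T J) (hl : IsPot Q T l) (F : 𝓢(Mink, ℂ)) (v : D) :
    (3 : ℂ) * inner ℂ (l (fl (boxS F))) (v : Completion D) =
      -∑ m, inner ℂ (J m (fl (∂_{eb m} F : 𝓢(Mink, ℂ))) Q.vac) v := by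
  have h1 := hl.trace (fl F) (isTest_fl _)
  rw [box_fl, hJ.div'] at h1
  have h2 := congrArg (fun u => inner ℂ u (v : Completion D)) h1
  simp only [inner_smul_left, Completion.inner_coe, inner_neg_left, sum_inner] at h2
  rw [← h2]
  congr 1
  exact (Complex.conj_ofNat 3).symm

/-- the smeared conformal part vanishes -/
theorem c13_A (R : H15.Rep Q A) (N : CNet Q H alg S) (hJ : IsVirial Q T J) (hl : IsPot Q T l)
    (X : D) (a : V) (F : 𝓢(Mink, ℂ))
    (h0 : ∀ (Y : V → V) (r : ℝ), IsSim r Y → ∀ G : 𝓢(Mink, ℂ),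
      inner ℂ (l (fl (boxS G))) ((A Y X : D) : Completion D) = 0) :
    ∑ m, ∫ x : Mink, conj ((∂_{eb m} F : 𝓢(Mink, ℂ)) x) *
      vj Q J m (A (Yx a x.ofLp) (U1 Q (-x) X)) = 0 := by
  have hf : ∀ m, Q.fld (J m) := fun m => Q.bose_fld _ (hJ.bose m)
  simp only [c13_Aval R N hJ X a]
  have h1 : ∀ m i, inner ℂ (J m (fl (c13_P a i (∂_{eb m} F : 𝓢(Mink, ℂ)))) Q.vac) (A (c13_Y a i) X) =
      inner ℂ (J m (fl (∂_{eb m} (c13_P a i F) : 𝓢(Mink, ℂ))) Q.vac) (A (c13_Y a i) X) -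
      inner ℂ (A (c13_Y a i) (J m (fl (c13_dP a m i F)) Q.vac)) X := by
    intro m i
    have h2 : c13_P a i (∂_{eb m} F : 𝓢(Mink, ℂ)) =
        (∂_{eb m} (c13_P a i F) : 𝓢(Mink, ℂ)) - c13_dP a m i F := by
      rw [c13_P_deriv, add_sub_cancel_right]
    have h3 : J m (fl (c13_P a i (∂_{eb m} F : 𝓢(Mink, ℂ)))) Q.vac =
        J m (fl (∂_{eb m} (c13_P a i F) : 𝓢(Mink, ℂ))) Q.vac - J m (fl (c13_dP a m i F)) Q.vac := by
      rw [h2]
      exact map_sub (fcl (hf m) Q.vac) _ _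
    rw [h3, inner_sub_left, A_symm R (c13_isSim_Y a i)]
  simp only [h1, Finset.sum_sub_distrib]
  have h4 : ∑ m, ∑ i, inner ℂ (J m (fl (∂_{eb m} (c13_P a i F) : 𝓢(Mink, ℂ))) Q.vac)
      (A (c13_Y a i) X) = 0 := by
    rw [Finset.sum_comm]
    refine Finset.sum_eq_zero fun i _ => ?_
    have h5 := c13_div hJ hl (c13_P a i F) (A (c13_Y a i) X)
    rw [h0 _ _ (c13_isSim_Y a i), mul_zero] at h5
    exact neg_eq_zero.1 h5.symm
  have h6 : ∑ m, ∑ i, inner ℂ (A (c13_Y a i) (J m (fl (c13_dP a m i F)) Q.vac)) X =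
      inner ℂ (∑ m, (A (fun z => z) (J m (fl (((2 * (GF.eta m * a m) : ℝ) : ℂ) • F)) Q.vac) +
      A (c13_E a m) (J m (fl F) Q.vac) +
      ∑ n, A (fun _ => GF.one n) (J m (fl (c13_dq a m n F)) Q.vac))) X := by
    have hA0 : ∀ i, A (c13_Y a i) (0 : D) = 0 := by
      intro i
      refine ext_inner_right ℂ fun w => ?_
      rw [A_symm R (c13_isSim_Y a i), inner_zero_left, inner_zero_left]
    have hJ0 : ∀ m, J m (fl (0 : 𝓢(Mink, ℂ))) Q.vac = 0 := fun m => map_zero (fcl (hf m) Q.vac)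
    rw [sum_inner]
    refine Finset.sum_congr rfl fun m _ => ?_
    rw [Fintype.sum_sum_type, Fintype.sum_sum_type, inner_add_left, inner_add_left, sum_inner]
    have h7 : ∑ n, inner ℂ (A (c13_Y a (.inl n)) (J m (fl (c13_dP a m (.inl n) F)) Q.vac)) X =
        inner ℂ (A (c13_E a m) (J m (fl F) Q.vac)) X := by
      rw [Finset.sum_eq_single m]
      · show inner ℂ (A (c13_E a m) (J m (fl (if m = m then F else 0)) Q.vac)) X = _
        rw [if_pos rfl]
      · intro n _ hn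
        show inner ℂ (A (c13_Y a (.inl n)) (J m (fl (if m = n then F else 0)) Q.vac)) X = 0
        rw [if_neg (Ne.symm hn), hJ0, hA0, inner_zero_left]
      · intro h
        exact absurd (Finset.mem_univ m) h
    rw [h7]
    simp only [Finset.univ_unique, Finset.sum_singleton]
    show _ + (∑ n, inner ℂ (A (fun _ => GF.one n) (J m (fl (c13_dq a m n F)) Q.vac)) X +
      inner ℂ (A (fun z => z) (J m (fl (((2 * (GF.eta m * a m) : ℝ) : ℂ) • F)) Q.vac)) X) = _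
    ring
  rw [h4, h6, c13_ident R hJ, inner_zero_left, sub_zero]

end Vale.Agent.P352.N86

end
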