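import Vale.Agent.P352.N86.K.C13b
import Vale.Agent.P352.N86.K.C13c

/-!
# P352, block C13: the divergence equation on the deformed vectors
-/

set_option linter.all false

noncomputable section

open MeasureTheory Filter Topology SchwartzMap Complex
open scoped SchwartzMap ComplexConjugate ContDiff LineDeriv

namespace Vale.Agent.P352.N86

open GF (Ix V Fn Fld Theory Sch IsLor bas eta o sim pd tr ev bar)
open H246 H496 H755 H15 H846 H246R H746
open UniformSpace (Completion)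

variable {D : Type*} [NormedAddCommGroup D] [InnerProductSpace ℂ D]
variable {Q : GF.Theory D} {T : Ix → Ix → GF.Fld D} {J : Ix → GF.Fld D}
variable {H : D → D} {alg : Set V → Set (D → D)} {S : V → ℝ → D → D} {G : V → D → D}
variable {A : (V → V) → D → D} {l : Fn → Completion D}

/-! ### Null vectors span -/

lemma c13m_span {c : Ix → ℂ} (h : ∀ a : V, IsNull a → ∑ m, (a m : ℂ) * c m = 0) (m : Ix) :
    c m = 0 := by
  have hn : ∀ (k : Ix) (s : ℝ), k ≠ o → s ^ 2 = 1 →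
      IsNull (fun n => if n = o then 1 else if n = k then s else 0 : V) := by
    intro k s hk hs
    constructor
    · simp only [GF.mdot, Fin.sum_univ_four, GF.eta]
      fin_cases k
      · exact absurd rfl hk
      all_goals
        simp [o]
        nlinarith
    · simp
  have h1 : ∀ (k : Ix) (s : ℝ), k ≠ o → s ^ 2 = 1 → c o + (s : ℂ) * c k = 0 := by
    intro k s hk hs
    have h2 := h _ (hn k s hk hs)
    fin_cases k
    · exact absurd rfl hk
    all_goals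
      simp [Fin.sum_univ_four, o] at h2 ⊢
      exact h2
  have h0 : c o = 0 := by
    have e1 := h1 1 1 (by decide) (by norm_num)
    have e2 := h1 1 (-1) (by decide) (by norm_num)
    push_cast at e1 e2
    linear_combination (e1 + e2) / 2
  by_cases hm : m = o
  · rw [hm]; exact h0
  · have e1 := h1 m 1 hm (by norm_num)
    rw [h0] at e1
    simpa using e1

/-! ### Vectors without divergence -/

lemma c13m_vfS_zero (w : Ix → V) (r : ℝ) (c : V) : vfS w r c 0 = 0 := by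
  ext x
  have h : vfS w r c 0 x = fderiv ℝ (0 : 𝓢(Mink, ℂ)) x
      ((WithLp.toLp 2 c : Mink) + ml (fun m n => r * GF.one m n + w m n) x) := by
    unfold vfS
    rw [xf_apply]
  rw [h]
  have e : ((0 : 𝓢(Mink, ℂ)) : Mink → ℂ) = fun _ => 0 := by
    funext y; simp
  rw [e]
  simp

theorem c13m_jv_A (R : H15.Rep Q A) (hJ : IsVirial Q T J) {Y : V → V} {r : ℝ} (hY : IsSim r Y)
    {g : Ix → 𝓢(Mink, ℂ)} (hg : PCv g) (hd : dv g = 0) :
    ∃ g', PCv g' ∧ A Y (jv Q J g) = jv Q J g' ∧ dv g' = 0 := by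
  obtain ⟨c, w, hw, hY⟩ := hY
  obtain ⟨g', h1, h2, h3⟩ := A_jv R hJ hw hY hg
  refine ⟨g', h1, h2, ?_⟩
  rw [h3, hd, c13m_vfS_zero, smul_zero, add_zero, smul_zero]

section

variable (hT : Q.IsStress T) (N : CNet Q H alg S) (Gg : Gnr Q alg S G) (R : H15.Rep Q A)
variable (hJ : IsVirial Q T J) (hl : IsPot Q T l)
variable {g : Ix → 𝓢(Mink, ℂ)} (hg : PCv g) (hd : dv g = 0)
include hT N Gg R hJ hl hg hd

omit Gg in
theorem c13m_vlA {Y : V → V} {r : ℝ} (hY : IsSim r Y) (x : Mink) :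
    vl l (U1 Q (-x) (A Y (jv Q J g))) = 0 := by
  obtain ⟨g', h1, h2, h3⟩ := c13m_jv_A R hJ hY hg hd
  rw [h2]
  exact c13_val0 hJ (ξ := vl l) (c13_cvl hT N hJ hl) h1 h3 x

theorem c13m_zl0 (x : Mink) : zl Q l G A (U1 Q (-x) (jv Q J g)) = 0 :=
  c13_val0 hJ (ξ := zl Q l G A) (c13_czl hT N Gg R hJ hl) hg hd x

omit hT hl in
theorem c13m_xi0 (x : Mink) : vj Q J o (G (nu (-1)) (U1 Q (-x) (jv Q J g))) = 0 :=
  c13_val0 hJ (ξ := fun v => vj Q J o (G (nu (-1)) v)) (c13_cxi N Gg R hJ) hg hd x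

end

/-! ### The decomposition -/

theorem c13m_dec (a : V) (x : Mink) (X : D) : U1 Q (-x) (G a X) =
    G a (U1 Q (-x) X) + A (Yx a x.ofLp) (U1 Q (-x) X) + Wop Q G A a x.ofLp (U1 Q (-x) X) := by
  have h : Q.U 1 GF.one x.ofLp (U1 Q (-x) X) = X := c13_UU x.ofLp X
  unfold Wop
  rw [h]
  have e : Q.U 1 GF.one (-x.ofLp) (G a X) = U1 Q (-x) (G a X) := rfl
  rw [e]
  abel

theorem c13m_InJ (N : CNet Q H alg S) (hJ : IsVirial Q T J) {X : D} (hX : InJ Q J X) (x : Mink) :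
    InJ Q J (U1 Q (-x) X) := InJ_U N hJ hX one_pos isLor_one (-x).ofLp

/-- the values of the deformed potential -/
theorem c13m_E1 (hT : Q.IsStress T) (N : CNet Q H alg S) (Gg : Gnr Q alg S G) (R : H15.Rep Q A)
    (hJ : IsVirial Q T J) (hl : IsPot Q T l) {κ : ℂ} (hκ : ∀ a, IsNull a → ∀ g : 𝓢(Mink, ℂ),
      H246R.PC (mftS g) → ∀ (m : Ix) (y : V),
      vl l (G a (Q.U 1 GF.one (-y) (J m (fl g) Q.vac))) = κ * (a m : ℂ) * toSchL g y)
    {g : Ix → 𝓢(Mink, ℂ)} (hg : PCv g) (hd : dv g = 0) {a : V} (ha : IsNull a) (x : Mink) :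
    vl l (U1 Q (-x) (G a (jv Q J g))) = κ * ∑ m, (a m : ℂ) * g m x := by
  have hX : InJ Q J (jv Q J g) := ⟨g, hg, rfl⟩
  rw [c13m_dec, c13_vl_add N hl, c13_vl_add N hl, c13_S1l0 hT N Gg R hJ hl (c13m_InJ N hJ hX x) ha,
    c13m_zl0 hT N Gg R hJ hl hg hd x]
  have h2 : vl l (A (Yx a x.ofLp) (U1 Q (-x) (jv Q J g))) = 0 := by
    rw [c13_jv_U hJ]
    have h3 := c13m_vlA hT N R hJ hl (c13_PCv_tau hg (-x)) (by
      rw [c13_dv_tau, hd]
      ext y
      simp [tauS_apply]) (isSim_Yx a x.ofLp) 0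
    rw [neg_zero, U1_zero_all] at h3
    exact h3
  rw [h2, mul_zero, add_zero, add_zero]
  set ℓ : D →+ ℂ :=
    { toFun := fun v => vl l (G a (U1 Q (-x) v))
      map_zero' := by
        have h3 : vl l (G a (U1 Q (-x) ((0 : ℂ) • (0 : D)))) = 0 := by
          rw [U1_smul, (c13_adj_G N Gg ha).smul, c13_vl_smul N hl, zero_mul]
        rwa [zero_smul] at h3
      map_add' := fun v w => by
        rw [U1_add, (c13_adj_G N Gg ha).add, c13_vl_add N hl] } with hℓ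
  have h4 : vl l (G a (U1 Q (-x) (jv Q J g))) = ∑ m, ℓ (J m (fl (g m)) Q.vac) :=
    map_sum ℓ _ _
  rw [h4, Finset.mul_sum]
  refine Finset.sum_congr rfl fun m _ => ?_
  have h5 := hκ a ha (g m) (hg m) m x.ofLp
  have h6 : toSchL (g m) x.ofLp = g m x := rfl
  rw [h6] at h5
  rw [← mul_assoc]
  exact h5

/-- the values of the deformed virial current -/
theorem c13m_E2 (N : CNet Q H alg S) (Gg : Gnr Q alg S G) (R : H15.Rep Q A)
    (hJ : IsVirial Q T J) {g : Ix → 𝓢(Mink, ℂ)} (hg : PCv g) (hd : dv g = 0) {a : V}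
    (ha : IsNull a) (m : Ix) (x : Mink) :
    vj Q J m (U1 Q (-x) (G a (jv Q J g))) =
      vj Q J m (A (Yx a x.ofLp) (U1 Q (-x) (jv Q J g))) +
        (GF.mdot a x.ofLp : ℂ) * zj Q J G A m (U1 Q (-x) (jv Q J g)) := by
  have hX : InJ Q J (jv Q J g) := ⟨g, hg, rfl⟩
  have hX' := c13m_InJ N hJ hX x
  have h1 := S1 N Gg R hJ hX' ha x.ofLp 0 m
  rw [neg_zero, H755.U0, H755.U0] at h1
  rw [c13m_dec, vj_add N hJ, vj_add N hJ, h1, Bj N Gg R hJ hX' ha m, c13m_xi0 N Gg R hJ hg hd x,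
    mul_zero, zero_add]

/-! ### The trace -/

/-- the trace relation for vectors -/
theorem c13m_tr (N : CNet Q H alg S) (hJ : IsVirial Q T J) (hl : IsPot Q T l)
    (F : 𝓢(Mink, ℂ)) (w : D) :
    ∑ m, ∫ x : Mink, conj ((∂_{eb m} F : 𝓢(Mink, ℂ)) x) * vj Q J m (U1 Q (-x) w) =
      -(3 * ∫ x : Mink, conj (boxS F x) * vl l (U1 Q (-x) w)) := by
  have hf : ∀ m, Q.fld (J m) := fun m => Q.bose_fld _ (hJ.bose m)
  have h1 := hl.trace _ (isTest_fl F)
  rw [box_fl, hJ.div'] at h1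
  have h2 := congrArg (fun u => inner ℂ u (w : Completion D)) h1
  rw [inner_smul_left, c13_vl_rep N hl, Completion.inner_coe, inner_neg_left, sum_inner] at h2
  have h3 : ∀ m, inner ℂ (J m (fl (∂_{eb m} F : 𝓢(Mink, ℂ))) Q.vac) w =
      ∫ x : Mink, conj ((∂_{eb m} F : 𝓢(Mink, ℂ)) x) * vj Q J m (U1 Q (-x) w) := fun m => by
    rw [← Completion.inner_coe, vj_rep N.toNet hf]
  simp only [h3] at h2
  have e3 : conj (3 : ℂ) = 3 := by
    rw [show (3 : ℂ) = ((3 : ℝ) : ℂ) by norm_num, conj_ofReal]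
  rw [e3] at h2
  rw [h2, neg_neg]

theorem c13m_int (N : CNet Q H alg S) (hJ : IsVirial Q T J) (F : 𝓢(Mink, ℂ)) (m : Ix) (w : D) :
    Integrable fun x : Mink => conj (F x) * vj Q J m (U1 Q (-x) w) := by
  have hf : ∀ m, Q.fld (J m) := fun m => Q.bose_fld _ (hJ.bose m)
  obtain ⟨C, hC⟩ := bdd_vj N.toNet hf m w
  have h1 : Integrable fun x : Mink => conj (F x) :=
    Complex.conjCLE.toContinuousLinearMap.integrable_comp F.integrable
  exact h1.mul_bdd (c := C) (cont_vj N.toNet hf m w).aestronglyMeasurable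
    (Eventually.of_forall fun x => hC (-x))

/-- the derivative of `(a·x) F` -/
lemma c13m_ld_ax (a : V) (m : Ix) (F : 𝓢(Mink, ℂ)) : (∂_{eb m} (axL a F) : 𝓢(Mink, ℂ)) =
    ((GF.eta m * a m : ℝ) : ℂ) • F + axL a (∂_{eb m} F : 𝓢(Mink, ℂ)) := by
  have h1 : ∀ f : 𝓢(Mink, ℂ), axL a f = ∑ n, ((GF.eta n * a n : ℝ) : ℂ) • Xm n f := by
    intro f
    unfold axL
    rw [ContinuousLinearMap.sum_apply]
    rfl
  have h2 : (∂_{eb m} (axL a F) : 𝓢(Mink, ℂ)) =
      ∑ n, ((GF.eta n * a n : ℝ) : ℂ) • (∂_{eb m} (Xm n F) : 𝓢(Mink, ℂ)) := by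
    rw [h1]
    have : (∂_{eb m} (∑ n, ((GF.eta n * a n : ℝ) : ℂ) • Xm n F) : 𝓢(Mink, ℂ)) =
        LineDeriv.lineDerivOpCLM ℂ 𝓢(Mink, ℂ) (eb m)
          (∑ n, ((GF.eta n * a n : ℝ) : ℂ) • Xm n F) := rfl
    rw [this, map_sum]
    refine Finset.sum_congr rfl fun n _ => ?_
    rw [map_smul]
    rfl
  rw [h2, h1]
  simp only [H121.wd_ld_Xm, smul_add, smul_smul, Finset.sum_add_distrib]
  congr 1
  rw [Finset.sum_eq_single m]
  · simp
  · intro n _ hn
    simp [Ne.symm hn]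
  · intro h; exact absurd (Finset.mem_univ _) h

/-- the part with the cocycle -/
theorem c13m_E3 (N : CNet Q H alg S) (hJ : IsVirial Q T J) (hl : IsPot Q T l)
    (F : 𝓢(Mink, ℂ)) (w : D) (h0 : ∀ x : Mink, vl l (U1 Q (-x) w) = 0) (a : V) :
    ∑ m, ∫ x : Mink, conj ((∂_{eb m} F : 𝓢(Mink, ℂ)) x) *
      ((GF.mdot a x.ofLp : ℂ) * vj Q J m (U1 Q (-x) w)) =
      -∑ m, ((GF.eta m * a m : ℝ) : ℂ) * ∫ x : Mink, conj (F x) * vj Q J m (U1 Q (-x) w) := by
  have h1 := c13m_tr N hJ hl (axL a F) w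
  simp only [h0, mul_zero, integral_zero, neg_zero] at h1
  have h2 : ∀ m, ∫ x : Mink, conj ((∂_{eb m} (axL a F) : 𝓢(Mink, ℂ)) x) *
      vj Q J m (U1 Q (-x) w) =
      ((GF.eta m * a m : ℝ) : ℂ) * (∫ x : Mink, conj (F x) * vj Q J m (U1 Q (-x) w)) +
      ∫ x : Mink, conj ((∂_{eb m} F : 𝓢(Mink, ℂ)) x) *
        ((GF.mdot a x.ofLp : ℂ) * vj Q J m (U1 Q (-x) w)) := by
    intro m
    have e : ∀ x : Mink, conj ((∂_{eb m} (axL a F) : 𝓢(Mink, ℂ)) x) * vj Q J m (U1 Q (-x) w) =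
        ((GF.eta m * a m : ℝ) : ℂ) * (conj (F x) * vj Q J m (U1 Q (-x) w)) +
        conj ((axL a (∂_{eb m} F : 𝓢(Mink, ℂ)) : 𝓢(Mink, ℂ)) x) * vj Q J m (U1 Q (-x) w) := by
      intro x
      rw [c13m_ld_ax, SchwartzMap.add_apply, SchwartzMap.smul_apply, smul_eq_mul, map_add,
        map_mul, conj_ofReal]
      ring
    simp only [e]
    rw [integral_add ((c13m_int N hJ F m w).const_mul _)
      (c13m_int N hJ (axL a (∂_{eb m} F : 𝓢(Mink, ℂ))) m w), integral_const_mul]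
    congr 1
    refine integral_congr_ae (Eventually.of_forall fun x => ?_)
    simp only
    rw [H121.axL_apply, map_mul, conj_ofReal]
    ring
  simp only [h2, Finset.sum_add_distrib] at h1
  exact (neg_eq_of_add_eq_zero_right h1).symm

/-- the equation for one null vector -/
theorem c13m_null (hT : Q.IsStress T) (N : CNet Q H alg S) (Gg : Gnr Q alg S G) (R : H15.Rep Q A)
    (hJ : IsVirial Q T J) (hl : IsPot Q T l) {κ : ℂ} (hκ : ∀ a, IsNull a → ∀ g : 𝓢(Mink, ℂ),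
      H246R.PC (mftS g) → ∀ (m : Ix) (y : V),
      vl l (G a (Q.U 1 GF.one (-y) (J m (fl g) Q.vac))) = κ * (a m : ℂ) * toSchL g y)
    {g : Ix → 𝓢(Mink, ℂ)} (hg : PCv g) (hd : dv g = 0) (F : 𝓢(Mink, ℂ)) {a : V}
    (ha : IsNull a) :
    3 * ∫ x : Mink, conj (boxS F x) * (κ * ∑ m, (a m : ℂ) * g m x) =
      ∑ m, ((GF.eta m * a m : ℝ) : ℂ) *
        ∫ x : Mink, conj (F x) * zj Q J G A m (U1 Q (-x) (jv Q J g)) := by
  have hX : InJ Q J (jv Q J g) := ⟨g, hg, rfl⟩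
  set X := jv Q J g with hXd
  set Z := Wop Q G A (nu (-1)) (bas o 1) X with hZ
  have hz : ∀ (m : Ix) (x : Mink), zj Q J G A m (U1 Q (-x) X) = vj Q J m (U1 Q (-x) Z) := by
    intro m x
    have h1 := S1 N Gg R hJ hX null_m (bas o 1) x.ofLp m
    rw [c13_mdot_e0, ofReal_one, one_mul] at h1
    exact h1.symm
  have hz0 : ∀ x : Mink, vl l (U1 Q (-x) Z) = 0 := by
    intro x
    have h1 := c13_S1l hT N Gg R hJ hl hX null_m (bas o 1) x.ofLp
    have h2 : zl Q l G A (Q.U 1 GF.one (-x.ofLp) X) = 0 := c13m_zl0 hT N Gg R hJ hl hg hd x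
    rw [h2, mul_zero] at h1
    exact h1
  have h1 := c13m_tr N hJ hl F (G a X)
  have h2 := c13m_E3 N hJ hl F Z hz0 a
  have h3 := c13_A R N hJ hl X a F (fun Y r hY F' => by
    rw [c13_vl_rep N hl]
    have : ∀ x : Mink, conj (boxS F' x) * vl l (U1 Q (-x) (A Y X)) = 0 := fun x => by
      rw [c13m_vlA hT N R hJ hl hg hd hY x, mul_zero]
    simp only [this, integral_zero])
  have h4 : ∀ m, ∫ x : Mink, conj ((∂_{eb m} F : 𝓢(Mink, ℂ)) x) * vj Q J m (U1 Q (-x) (G a X)) =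
      (∫ x : Mink, conj ((∂_{eb m} F : 𝓢(Mink, ℂ)) x) *
        vj Q J m (A (Yx a x.ofLp) (U1 Q (-x) X))) +
      ∫ x : Mink, conj ((∂_{eb m} F : 𝓢(Mink, ℂ)) x) *
        ((GF.mdot a x.ofLp : ℂ) * vj Q J m (U1 Q (-x) Z)) := by
    intro m
    have i1 := c13m_int N hJ (∂_{eb m} F : 𝓢(Mink, ℂ)) m (G a X)
    have i2 : Integrable fun x : Mink => conj ((∂_{eb m} F : 𝓢(Mink, ℂ)) x) *
        ((GF.mdot a x.ofLp : ℂ) * vj Q J m (U1 Q (-x) Z)) := by
      refine (c13m_int N hJ (axL a (∂_{eb m} F : 𝓢(Mink, ℂ))) m Z).congr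
        (Eventually.of_forall fun x => ?_)
      simp only
      rw [H121.axL_apply, map_mul, conj_ofReal]
      ring
    have e : ∀ x : Mink, conj ((∂_{eb m} F : 𝓢(Mink, ℂ)) x) * vj Q J m (U1 Q (-x) (G a X)) -
        conj ((∂_{eb m} F : 𝓢(Mink, ℂ)) x) *
          ((GF.mdot a x.ofLp : ℂ) * vj Q J m (U1 Q (-x) Z)) =
        conj ((∂_{eb m} F : 𝓢(Mink, ℂ)) x) * vj Q J m (A (Yx a x.ofLp) (U1 Q (-x) X)) := by
      intro x
      rw [c13m_E2 N Gg R hJ hg hd ha m x, ← hz]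
      ring
    have h5 := integral_sub i1 i2
    simp only [e] at h5
    rw [h5]
    ring
  simp only [h4, Finset.sum_add_distrib, h3, zero_add, h2] at h1
  have h5 : ∀ x : Mink, vl l (U1 Q (-x) (G a X)) = κ * ∑ m, (a m : ℂ) * g m x := fun x =>
    c13m_E1 hT N Gg R hJ hl hκ hg hd ha x
  simp only [h5] at h1
  simp only [hz]
  exact (neg_injective h1).symm

theorem Dp (hT : Q.IsStress T) (N : CNet Q H alg S) (Gg : Gnr Q alg S G) (R : H15.Rep Q A)
    (hJ : IsVirial Q T J) (hl : IsPot Q T l) {κ : ℂ} (hκ : ∀ a, IsNull a → ∀ g : 𝓢(Mink, ℂ),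
      H246R.PC (mftS g) → ∀ (m : Ix) (y : V),
      vl l (G a (Q.U 1 GF.one (-y) (J m (fl g) Q.vac))) = κ * (a m : ℂ) * toSchL g y)
    {g : Ix → 𝓢(Mink, ℂ)} (hg : PCv g) (hdg : dv g = 0) {F : 𝓢(Mink, ℂ)}
    (hF : H246R.PC (mftS F)) (m : Ix) :
    3 * κ * ∫ x : Mink, conj (boxS F x) * g m x =
      (GF.eta m : ℂ) * ∫ x : Mink, conj (F x) * zj Q J G A m (U1 Q (-x) (jv Q J g)) := by
  have h := c13m_span (c := fun m => 3 * κ * (∫ x : Mink, conj (boxS F x) * g m x) -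
      (GF.eta m : ℂ) * ∫ x : Mink, conj (F x) * zj Q J G A m (U1 Q (-x) (jv Q J g)))
    (fun a ha => by
      have h1 := c13m_null hT N Gg R hJ hl hκ hg hdg F ha
      have hi : ∀ m, Integrable fun x : Mink => conj (boxS F x) * g m x := by
        intro m
        have h2 : Integrable fun x : Mink => conjS (boxS F) x * g m x := by
          obtain ⟨C, hC⟩ := (g m).decay 0 0
          exact (conjS (boxS F)).integrable.mul_bdd (c := C)
            (g m).continuous.aestronglyMeasurable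
            (Eventually.of_forall fun x => by simpa using hC.2 x)
        simpa using h2
      have h3 : ∫ x : Mink, conj (boxS F x) * (κ * ∑ m, (a m : ℂ) * g m x) =
          ∑ m, (κ * (a m : ℂ)) * ∫ x : Mink, conj (boxS F x) * g m x := by
        have e : ∀ x : Mink, conj (boxS F x) * (κ * ∑ m, (a m : ℂ) * g m x) =
            ∑ m, (κ * (a m : ℂ)) * (conj (boxS F x) * g m x) := by
          intro x
          simp only [Finset.mul_sum]
          exact Finset.sum_congr rfl fun m _ => by ring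
        simp only [e]
        rw [integral_finset_sum _ fun m _ => (hi m).const_mul _]
        exact Finset.sum_congr rfl fun m _ => integral_const_mul _ _
      rw [h3] at h1
      have e1 : ∑ m, (a m : ℂ) * (3 * κ * (∫ x : Mink, conj (boxS F x) * g m x) -
          (GF.eta m : ℂ) * ∫ x : Mink, conj (F x) * zj Q J G A m (U1 Q (-x) (jv Q J g))) =
          3 * ∑ m, (κ * (a m : ℂ)) * (∫ x : Mink, conj (boxS F x) * g m x) -
          ∑ m, ((GF.eta m * a m : ℝ) : ℂ) *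
            ∫ x : Mink, conj (F x) * zj Q J G A m (U1 Q (-x) (jv Q J g)) := by
        rw [Finset.mul_sum, ← Finset.sum_sub_distrib]
        refine Finset.sum_congr rfl fun m _ => ?_
        push_cast
        ring
      rw [e1, h1, sub_self]) m
  exact sub_eq_zero.1 h

end Vale.Agent.P352.N86

end
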