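import Vale.Agent.P352.N86.K.Defs

/-!
# P352, block C13a: the algebraic identity for the conformal fields
-/

set_option linter.all false

noncomputable section

open MeasureTheory Filter Topology SchwartzMap Complex
open scoped SchwartzMap ComplexConjugate ContDiff LineDeriv

namespace Vale.Agent.P352.N86

open GF (Ix V Fn Fld Theory Sch IsLor bas eta o sim pd tr ev bar)
open H246 H496 H755 H15 H846 H246R H746
open UniformSpace (Completion)

variable {D : Type*} [NormedAddCommGroup D] [InnerProductSpace ℂ D]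
variable {Q : GF.Theory D} {T : Ix → Ix → GF.Fld D} {J : Ix → GF.Fld D}
variable {A : (V → V) → D → D}

/-- the linear fields in the expansion of `cK a` -/
def c13_E (a : V) (n : Ix) (z : V) : V := (2 * GF.mdot a z) • GF.one n - (2 * GF.eta n * z n) • a

/-- the quadratic coefficients in the expansion of `cK a` -/
def c13_q (a : V) (n : Ix) (x : V) : ℝ := -(2 * GF.mdot a x) * x n + GF.mdot x x * a n

/-- multiplication by the derivative `∂_m q_n` -/
def c13_dq (a : V) (m n : Ix) : 𝓢(Mink, ℂ) →L[ℂ] 𝓢(Mink, ℂ) :=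
  ((-2 * (GF.eta m * a m) : ℝ) : ℂ) • Xm n + ((2 * GF.eta m * a n : ℝ) : ℂ) • Xm m -
    (if m = n then (2 : ℂ) else 0) • axL a

theorem c13_field (a x z : V) : Yx a x (z - x) =
    (2 * GF.mdot a x) • z + ∑ n, x n • c13_E a n z + ∑ n, c13_q a n x • GF.one n := by
  funext k
  simp only [Yx, cK, c13_E, c13_q, GF.one, bas, Fin.sum_univ_four, GF.mdot, Pi.add_apply,
    Pi.sub_apply, Pi.smul_apply, smul_eq_mul]
  fin_cases k <;> simp <;> ring

/-- the infinitesimal Lorentz transformation of `c13_E a n` -/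
def c13_w (a : V) (n : Ix) : Ix → V := fun k j =>
  2 * (GF.eta k * a k) * GF.one n j - 2 * (GF.eta n * GF.one n k) * a j

lemma c13_w_anti (a : V) (n : Ix) : ∀ m k, GF.eta k * c13_w a n m k = -(GF.eta m * c13_w a n k m) := by
  intro m k
  unfold c13_w GF.one bas
  by_cases h1 : k = n
  · by_cases h2 : m = n
    · subst h1; subst h2; simp; ring
    · subst h1; simp [h2]; ring
  · by_cases h2 : m = n
    · subst h2; simp [h1]; ring
    · simp [h1, h2]

lemma c13_w_eq (a : V) (n : Ix) : ∀ z k, c13_E a n z k = (0 : V) k + (0 : ℝ) * z k +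
    ∑ m, z m * c13_w a n m k := by
  intro z k
  unfold c13_E c13_w GF.one bas GF.mdot
  simp only [Fin.sum_univ_four, Pi.sub_apply, Pi.smul_apply, smul_eq_mul, Pi.zero_apply]
  fin_cases n <;> fin_cases k <;> simp <;> ring

theorem c13_isSim_E (a : V) (n : Ix) : IsSim 0 (c13_E a n) :=
  ⟨0, c13_w a n, c13_w_anti a n, c13_w_eq a n⟩

lemma c13_id_eq : ∀ (z : V) (n : Ix), (fun z : V => z) z n = (0 : V) n + (1 : ℝ) * z n +
    ∑ m, z m * (fun _ _ => 0 : Ix → V) m n := by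
  intro z n
  simp

lemma c13_isSim_id : IsSim 1 (fun z : V => z) :=
  ⟨0, fun _ _ => 0, fun m n => by simp, c13_id_eq⟩

lemma c13_const_eq (b : V) : ∀ (z : V) (n : Ix), (fun _ : V => b) z n = b n + (0 : ℝ) * z n +
    ∑ m, z m * (fun _ _ => 0 : Ix → V) m n := by
  intro z n
  simp

lemma c13_isSim_const (b : V) : IsSim 0 (fun _ : V => b) :=
  ⟨b, fun _ _ => 0, fun m n => by simp, c13_const_eq b⟩

/-- the generators on the vectors of the current -/
lemma c13_AJ (R : H15.Rep Q A) (hJ : IsVirial Q T J) {Y : V → V} {c : V} {w : Ix → V} {r : ℝ}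
    (hw : ∀ m n, GF.eta n * w m n = -(GF.eta m * w n m))
    (hY : ∀ z n, Y z n = c n + r * z n + ∑ m, z m * w m n) (F : 𝓢(Mink, ℂ)) (m : Ix) :
    A Y (J m (fl F) Q.vac) = I • ((r : ℂ) • J m (fl F) Q.vac +
      ∑ k, (w k m : ℂ) • J k (fl F) Q.vac + J m (fl (vfS w r c F)) Q.vac) := by
  have h0 : J m (fl F) (0 : D) = 0 := by
    have := H746.fld_smul (Q.bose_fld _ (hJ.bose m)) (isTest_fl F) 0 (0 : D)
    simpa using this
  rw [A_J R hJ hw hY (isTest_fl F) m Q.vac, A_vac R ⟨c, w, hw, hY⟩, fl_vfS hY, h0, zero_add]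

/-- the coefficient functions of the identity vanish -/
lemma c13_S (a : V) (m : Ix) (F : 𝓢(Mink, ℂ)) :
    ((2 * (GF.eta m * a m) : ℝ) : ℂ) • F +
      vfS (fun _ _ => 0) 1 0 (((2 * (GF.eta m * a m) : ℝ) : ℂ) • F) +
      (((6 * (GF.eta m * a m) : ℝ) : ℂ) • F + vfS (c13_w a m) 0 0 F) +
      ∑ n, vfS (fun _ _ => 0) 0 (GF.one n) (c13_dq a m n F) = 0 := by
  have hd : ∀ n, (∂_{eb n} (c13_dq a m n F) : 𝓢(Mink, ℂ)) =
      ((-2 * (GF.eta m * a m) : ℝ) : ℂ) • (∂_{eb n} (Xm n F) : 𝓢(Mink, ℂ)) +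
      ((2 * GF.eta m * a n : ℝ) : ℂ) • (∂_{eb n} (Xm m F) : 𝓢(Mink, ℂ)) -
      (if m = n then (2 : ℂ) else 0) • (∂_{eb n} (axL a F) : 𝓢(Mink, ℂ)) := by
    intro n
    have h := map_sub (LineDeriv.lineDerivOpCLM ℂ 𝓢(Mink, ℂ) (eb n))
      (((-2 * (GF.eta m * a m) : ℝ) : ℂ) • Xm n F + ((2 * GF.eta m * a n : ℝ) : ℂ) • Xm m F)
      ((if m = n then (2 : ℂ) else 0) • axL a F)
    rw [map_add, map_smul, map_smul, map_smul] at h
    exact h
  have hs : ∀ (c : ℂ) (n : Ix), (∂_{eb n} (c • F) : 𝓢(Mink, ℂ)) = c • (∂_{eb n} F : 𝓢(Mink, ℂ)) := by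
    intro c n
    exact map_smul (LineDeriv.lineDerivOpCLM ℂ 𝓢(Mink, ℂ) (eb n)) c F
  have hv : ∀ (n : Ix) (G : 𝓢(Mink, ℂ)) (x : Mink), vfS (fun _ _ => 0) 0 (GF.one n) G x =
      (∂_{eb n} G : 𝓢(Mink, ℂ)) x := by
    intro n G x
    rw [H121.wd_vfS]
    rw [Finset.sum_eq_single n]
    · simp [GF.one, bas]
    · intro k _ hk
      simp [GF.one, bas, hk]
    · intro h
      exact absurd (Finset.mem_univ n) h
  ext x
  rw [SchwartzMap.add_apply, SchwartzMap.add_apply, SchwartzMap.add_apply, SchwartzMap.add_apply,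
    SchwartzMap.sum_apply]
  simp only [hv, hd, H121.wd_vfS, H121.wd_ld_Xm, H121.D_A, hs, SchwartzMap.add_apply,
    SchwartzMap.sub_apply, SchwartzMap.smul_apply, Xm_apply, H121.axL_apply, smul_eq_mul,
    SchwartzMap.zero_apply]
  simp only [c13_w, GF.one, bas, Fin.sum_univ_four, GF.mdot, Pi.zero_apply]
  fin_cases m <;> simp <;> ring

theorem c13_ident (R : H15.Rep Q A) (hJ : IsVirial Q T J) (a : V) (F : 𝓢(Mink, ℂ)) :
    ∑ m, (A (fun z => z) (J m (fl (((2 * (GF.eta m * a m) : ℝ) : ℂ) • F)) Q.vac) +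
      A (c13_E a m) (J m (fl F) Q.vac) +
      ∑ n, A (fun _ => GF.one n) (J m (fl (c13_dq a m n F)) Q.vac)) = 0 := by
  have hf : ∀ m, Q.fld (J m) := fun m => Q.bose_fld _ (hJ.bose m)
  set j : Ix → 𝓢(Mink, ℂ) →L[ℂ] D := fun m => fcl (hf m) Q.vac with hj
  have hj' : ∀ m G, J m (fl G) Q.vac = j m G := fun m G => rfl
  have h1 : ∀ m, A (fun z => z) (J m (fl (((2 * (GF.eta m * a m) : ℝ) : ℂ) • F)) Q.vac) =
      I • j m (((2 * (GF.eta m * a m) : ℝ) : ℂ) • F +
        vfS (fun _ _ => 0) 1 0 (((2 * (GF.eta m * a m) : ℝ) : ℂ) • F)) := by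
    intro m
    rw [c13_AJ R hJ (fun m n => by simp) c13_id_eq, map_add]
    simp only [hj', ofReal_one, one_smul, ofReal_zero, zero_smul, Finset.sum_const_zero, add_zero]
  have h2 : ∑ m, A (c13_E a m) (J m (fl F) Q.vac) =
      ∑ m, I • j m (((6 * (GF.eta m * a m) : ℝ) : ℂ) • F + vfS (c13_w a m) 0 0 F) := by
    have h3 : ∀ m, A (c13_E a m) (J m (fl F) Q.vac) =
        I • ∑ k, (c13_w a m k m : ℂ) • j k F + I • j m (vfS (c13_w a m) 0 0 F) := by
      intro m
      rw [c13_AJ R hJ (c13_w_anti a m) (c13_w_eq a m)]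
      simp only [hj', ofReal_zero, zero_smul, zero_add, smul_add]
    simp only [h3, map_add, smul_add, Finset.sum_add_distrib]
    congr 1
    rw [← Finset.smul_sum, ← Finset.smul_sum, Finset.sum_comm]
    congr 1
    refine Finset.sum_congr rfl fun k _ => ?_
    rw [← Finset.sum_smul, map_smul]
    congr 1
    simp only [c13_w, GF.one, bas, Fin.sum_univ_four]
    fin_cases k <;> simp <;> ring
  have h3 : ∀ m n, A (fun _ => GF.one n) (J m (fl (c13_dq a m n F)) Q.vac) =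
      I • j m (vfS (fun _ _ => 0) 0 (GF.one n) (c13_dq a m n F)) := by
    intro m n
    rw [c13_AJ R hJ (fun m n => by simp) (c13_const_eq (GF.one n))]
    simp only [hj', ofReal_zero, zero_smul, Finset.sum_const_zero, zero_add]
  rw [Finset.sum_add_distrib, Finset.sum_add_distrib, h2]
  simp only [h1, h3]
  rw [← Finset.sum_add_distrib, ← Finset.sum_add_distrib]
  refine Finset.sum_eq_zero fun m _ => ?_
  rw [← Finset.smul_sum, ← smul_add, ← smul_add, ← map_sum, ← map_add, ← map_add, c13_S, map_zero,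
    smul_zero]

end Vale.Agent.P352.N86

end
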