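import Vale.Agent.P352.N86.K.C1

/-!
# The deviation of the generators of the null deformations from the special conformal generators
-/

set_option linter.all false

noncomputable section

open MeasureTheory Filter Topology SchwartzMap Complex
open scoped SchwartzMap ComplexConjugate ContDiff LineDeriv

namespace Vale.Agent.P352.N86

open GF (Ix V Fn Fld Theory Sch IsLor bas eta o sim pd tr ev bar)
open H246 H496 H755 H15 H846 H246R H746
open UniformSpace (Completion)

variable {D : Type*} [NormedAddCommGroup D] [InnerProductSpace ℂ D]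
variable {Q : GF.Theory D} {T : Ix → Ix → GF.Fld D} {J : Ix → GF.Fld D}
variable {H : D → D} {alg : Set V → Set (D → D)} {S : V → ℝ → D → D} {G : V → D → D}
variable {A : (V → V) → D → D} {l : Fn → Completion D}

lemma Yx_eq (a x z : V) : Yx a x z = (2 * GF.mdot a x) • z + (2 * GF.mdot a z) • x -
    (2 * GF.mdot z x) • a + cK a x := by
  funext n
  unfold Yx cK
  simp only [Pi.add_apply, Pi.sub_apply, Pi.smul_apply, smul_eq_mul, GF.mdot, Fin.sum_univ_four]
  ring

theorem isSim_Yx (a x : V) : IsSim (2 * GF.mdot a x) (Yx a x) := by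
  refine ⟨cK a x, fun m n => 2 * GF.eta m * (a m * x n - x m * a n), fun m n => by ring,
    fun z n => ?_⟩
  rw [Yx_eq]
  simp only [Pi.add_apply, Pi.sub_apply, Pi.smul_apply, smul_eq_mul, GF.mdot, Fin.sum_univ_four]
  ring

lemma c2_move (x : V) (v w : D) :
    inner ℂ (Q.U 1 GF.one (-x) v) w = inner ℂ v (Q.U 1 GF.one x w) := by
  rw [← Q.U_inner 1 GF.one x _ w one_pos isLor_one, Uadd1, add_neg_cancel, Uone]

theorem W_add (N : CNet Q H alg S) (Gg : Gnr Q alg S G) (R : H15.Rep Q A) {a : V} (ha : IsNull a)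
    (x : V) (v w : D) : Wop Q G A a x (v + w) = Wop Q G A a x v + Wop Q G A a x w := by
  unfold Wop
  rw [U_add one_pos isLor_one, H496.G_add N Gg ha, H496.G_add N Gg ha, U_add one_pos isLor_one,
    A_addv R (isSim_Yx a x)]
  abel

theorem W_smul (N : CNet Q H alg S) (Gg : Gnr Q alg S G) (R : H15.Rep Q A) {a : V} (ha : IsNull a)
    (x : V) (c : ℂ) (v : D) : Wop Q G A a x (c • v) = c • Wop Q G A a x v := by
  unfold Wop
  rw [U_smul one_pos isLor_one, H496.G_smul N Gg ha, H496.G_smul N Gg ha,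
    U_smul one_pos isLor_one, A_smulv R (isSim_Yx a x), smul_sub, smul_sub]

theorem W_symm (N : CNet Q H alg S) (Gg : Gnr Q alg S G) (R : H15.Rep Q A) {a : V} (ha : IsNull a)
    (x : V) (v w : D) : inner ℂ (Wop Q G A a x v) w = inner ℂ v (Wop Q G A a x w) := by
  have h1 : ∀ u : D, inner ℂ (Q.U 1 GF.one (-x) u) w = inner ℂ u (Q.U 1 GF.one x w) :=
    fun u => c2_move x u w
  have h2 : inner ℂ v (Q.U 1 GF.one (-x) (G a (Q.U 1 GF.one x w))) =
      inner ℂ (Q.U 1 GF.one x v) (G a (Q.U 1 GF.one x w)) := by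
    have h := c2_move (Q := Q) (-x) v (G a (Q.U 1 GF.one x w))
    rw [neg_neg] at h
    exact h.symm
  unfold Wop
  rw [inner_sub_left, inner_sub_left, inner_sub_right, inner_sub_right, h1, h2,
    H496.G_adj N Gg ha, H496.G_adj N Gg ha, A_symm R (isSim_Yx a x)]

theorem W_cocycle (N : CNet Q H alg S) (Gg : Gnr Q alg S G) (R : H15.Rep Q A) {a : V}
    (ha : IsNull a) (x y : V) (v : D) : Wop Q G A a (x + y) v =
      Q.U 1 GF.one (-y) (Wop Q G A a x (Q.U 1 GF.one y v)) + Wop Q G A a y v := by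
  have h1 := A_tra R (isSim_Yx a x) y v
  have h2 : A (Yx a (x + y)) v = A (fun z => Yx a x (z + y)) v + A (Yx a y) v := by
    have hs : IsSim (2 * GF.mdot a x) (fun z => Yx a x (z + y)) := by
      have := H755.sim_shift (isSim_Yx a x) (-y)
      simpa only [sub_neg_eq_add] using this
    rw [← A_addX R v hs (isSim_Yx a y)]
    congr 1
    funext z
    unfold Yx
    rw [add_assoc z y x, add_comm y x]
    abel
  have h3 : ∀ u : D, Q.U 1 GF.one (-(x + y)) u = Q.U 1 GF.one (-y) (Q.U 1 GF.one (-x) u) := by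
    intro u
    rw [Uadd1]
    congr 1
    abel
  unfold Wop
  rw [h2, ← h1, H246.U_sub' one_pos isLor_one, H246.U_sub' one_pos isLor_one, h3, Uadd1 x y]
  abel

theorem W_plane (N : CNet Q H alg S) (Gg : Gnr Q alg S G) (R : H15.Rep Q A) {a : V}
    (ha : IsNull a) {w : V} (hw : GF.mdot a w = 0) (v : D) : Wop Q G A a w v = 0 := by
  have hws : ∀ s : ℝ, GF.mdot a (s • w) = 0 := fun s => by rw [md_smul, hw, mul_zero]
  have hlor : ∀ s : ℝ, IsLor (nrt a (s • w)) := fun s => isLor_nrt ha (hws s)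
  have h0 : nrt a ((0 : ℝ) • w) = GF.one := by
    funext m
    rw [nrt_row, sim_nrt]
    simp [GF.one, GF.mdot]
  have hsim : ∀ (s : ℝ) (z : V), sim 1 (nrt a (s • w)) 0 z = z - (2 * s * GF.mdot w z) • a +
      (2 * s * GF.mdot a z) • w - (2 * s ^ 2 * GF.mdot w w * GF.mdot a z) • a := by
    intro s z
    rw [sim_nrt, md_smul_l, md_smul, md_smul_l]
    funext n
    simp only [Pi.add_apply, Pi.sub_apply, Pi.smul_apply, smul_eq_mul]
    ring
  have hu : HasDerivAt (fun s : ℝ => Q.U 1 (nrt a (s • w)) (-(s * GF.mdot w w) • a) v)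
      (I • A (Yx a w) v) 0 := by
    refine R.der (fun _ => 1) (fun s => nrt a (s • w)) (fun s => -(s * GF.mdot w w) • a) (Yx a w) v
      rfl h0 (by simp) (fun e => ⟨one_pos, hlor e⟩) (fun n z => ?_)
    have e : (fun s : ℝ => sim 1 (nrt a (s • w)) (-(s * GF.mdot w w) • a) z n) =
        fun s : ℝ => z n + s * (-(2 * GF.mdot w z) * a n + 2 * GF.mdot a z * w n -
          GF.mdot w w * a n) + s ^ 2 * (-(2 * GF.mdot w w * GF.mdot a z) * a n) := by
      funext s
      rw [c1_sim, one_smul, hsim]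
      simp only [Pi.add_apply, Pi.sub_apply, Pi.smul_apply, smul_eq_mul]
      ring
    have e2 : Yx a w z n = -(2 * GF.mdot w z) * a n + 2 * GF.mdot a z * w n -
          GF.mdot w w * a n := by
      rw [Yx_eq]
      unfold cK
      rw [hw, md_comm z w]
      simp only [Pi.add_apply, Pi.sub_apply, Pi.smul_apply, smul_eq_mul]
      ring
    rw [e, e2]
    exact hasDeriv_poly _ _ _
  have key : G a (Q.U 1 GF.one w v) = Q.U 1 GF.one w (G a v + A (Yx a w) v) := by
    refine ext_inner_left ℂ fun z => ?_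
    obtain ⟨z', hz'⟩ : ∃ z', z' = Q.U 1 GF.one (-w) z := ⟨_, rfl⟩
    have hmv : ∀ u : D, inner ℂ z (Q.U 1 GF.one w u) = inner ℂ z' u := by
      intro u
      rw [hz', c2_move]
    have hneg : HasDerivAt (fun s : ℝ => S a (-s) z') (-(I • G a z')) 0 := by
      have := Gg.der a z' ha
      rw [← neg_zero] at this
      have h2 := this.scomp (0 : ℝ) (hasDerivAt_neg (0 : ℝ))
      rw [neg_one_smul] at h2
      exact h2
    have h1 := hneg.inner ℂ hu
    have h2 : HasDerivAt (fun s => inner ℂ z (S a s (Q.U 1 GF.one w v)))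
        (inner ℂ z (I • G a (Q.U 1 GF.one w v))) 0 :=
      ((innerSL ℂ z).restrictScalars ℝ).hasFDerivAt.comp_hasDerivAt (0 : ℝ)
        (Gg.der a (Q.U 1 GF.one w v) ha)
    have e : (fun s : ℝ => inner ℂ z (S a s (Q.U 1 GF.one w v))) = fun s : ℝ =>
        inner ℂ (S a (-s) z') (Q.U 1 (nrt a (s • w)) (-(s * GF.mdot w w) • a) v) := by
      funext s
      have hp := Gg.ptr a s w (nrt a (s • w)) v ha hw (hlor s) (hsim s)
      have e1 : -(s * GF.mdot w w) • a = (-(s * GF.mdot w w)) • a := rfl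
      rw [hp, hmv, S_move N.toNet ha (-s), neg_neg]
    rw [e] at h2
    have h3 := h2.unique h1
    have e0 : Q.U 1 (nrt a ((0 : ℝ) • w)) (-((0 : ℝ) * GF.mdot w w) • a) v = v := by
      rw [h0, zero_mul, neg_zero, zero_smul]
      exact Uone v
    rw [e0, neg_zero, S_zero N.toNet ha, inner_smul_right, inner_smul_right, inner_neg_left,
      inner_smul_left, conj_I, H496.G_adj N Gg ha] at h3
    rw [hmv, inner_add_right]
    have h4 : I * inner ℂ z (G a (Q.U 1 GF.one w v)) =
        I * (inner ℂ z' (G a v) + inner ℂ z' (A (Yx a w) v)) := by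
      linear_combination h3
    exact mul_left_cancel₀ I_ne_zero h4
  unfold Wop
  rw [key, Uadd1, neg_add_cancel, Uone]
  abel

theorem W_dep (N : CNet Q H alg S) (Gg : Gnr Q alg S G) (R : H15.Rep Q A) {a : V}
    (ha : IsNull a) {x y : V} (h : GF.mdot a x = GF.mdot a y) (v : D) :
    Wop Q G A a x v = Wop Q G A a y v := by
  have hxy : GF.mdot a (x - y) = 0 := by rw [md_sub, h, sub_self]
  have h1 := W_cocycle N Gg R ha (x - y) y v
  rw [sub_add_cancel, W_plane N Gg R ha hxy] at h1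
  have h2 : Q.U 1 GF.one (-y) (0 : D) = 0 := by
    have := U_smul (Q := Q) one_pos isLor_one (-y) (0 : ℂ) (0 : D)
    simpa using this
  rw [h1, h2, zero_add]

theorem W_comm (N : CNet Q H alg S) (Gg : Gnr Q alg S G) (R : H15.Rep Q A) {a : V}
    (ha : IsNull a) {w : V} (hw : GF.mdot a w = 0) (x : V) (v : D) :
    Wop Q G A a x (Q.U 1 GF.one w v) = Q.U 1 GF.one w (Wop Q G A a x v) := by
  have h1 := W_cocycle N Gg R ha x w v
  have h2 : Wop Q G A a (x + w) v = Wop Q G A a x v :=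
    W_dep N Gg R ha (by rw [md_add, hw, add_zero]) v
  rw [h2, W_plane N Gg R ha hw, add_zero] at h1
  rw [h1, Uadd1, add_neg_cancel, Uone]

lemma cK_hom (c : ℝ) (a z : V) : cK a (c • z) = c ^ 2 • cK a z := by
  unfold cK
  simp only [md_smul, md_smul_l]
  funext n
  simp only [Pi.sub_apply, Pi.smul_apply, smul_eq_mul]
  ring

lemma cK_lin (c : ℝ) (a z : V) : cK (c • a) z = c • cK a z := by
  unfold cK
  simp only [md_smul_l]
  funext n
  simp only [Pi.sub_apply, Pi.smul_apply, smul_eq_mul]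
  ring

lemma cK_lor {L : Ix → V} (hL : IsLor L) (a z : V) :
    sim 1 L 0 (cK a z) = cK (sim 1 L 0 a) (sim 1 L 0 z) := by
  unfold cK
  rw [simL_sub, simL_smul, simL_smul, md_LL hL, md_LL hL]

theorem W_cov (N : CNet Q H alg S) (Gg : Gnr Q alg S G) (R : H15.Rep Q A) {σ r : ℝ}
    (hσ : 0 < σ) (hr : 0 < r) {L : Ix → V} (hL : IsLor L) {a b : V} (ha : IsNull a)
    (hb : IsNull b) (hab : sim 1 L 0 a = r • b) (x : V) (v : D) :
    Q.U σ L 0 (Wop Q G A a x v) =
      ((r / σ : ℝ) : ℂ) • Wop Q G A b (sim σ L 0 x) (Q.U σ L 0 v) := by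
  have hG : ∀ u : D, Q.U σ L 0 (G a u) = ((r / σ : ℝ) : ℂ) • G b (Q.U σ L 0 u) := by
    intro u
    have h := H246D.G_cov N Gg ha hb hσ hr hL hab u
    have hr' : (r : ℂ) ≠ 0 := by exact_mod_cast hr.ne'
    have hσ' : (σ : ℂ) ≠ 0 := by exact_mod_cast hσ.ne'
    rw [h, smul_smul]
    have e : ((r / σ : ℝ) : ℂ) * ((σ / r : ℝ) : ℂ) = 1 := by
      push_cast
      field_simp
    rw [e, one_smul]
  have hU : ∀ (y : V) (u : D), Q.U σ L 0 (Q.U 1 GF.one y u) =
      Q.U 1 GF.one (sim σ L 0 y) (Q.U σ L 0 u) := by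
    intro y u
    rw [R.mul σ L 0 1 GF.one y u hσ one_pos hL isLor_one,
      R.mul 1 GF.one _ σ L 0 u one_pos hσ isLor_one hL, mul_one, one_mul]
    congr 1
    · funext m n
      simp [sim, GF.one, bas]
    · funext n
      simp [sim]
  have hsn : sim σ L 0 (-x) = -sim σ L 0 x := by
    funext n
    simp [sim, Finset.sum_neg_distrib]
  have hA : Q.U σ L 0 (A (Yx a x) v) =
      ((r / σ : ℝ) : ℂ) • A (Yx b (sim σ L 0 x)) (Q.U σ L 0 v) := by
    rw [A_conj R (isSim_Yx a x) hσ hL 0 v]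
    have h1 := A_lin2 R (r / σ) 0 (Q.U σ L 0 v) (isSim_Yx b (sim σ L 0 x))
      (isSim_Yx b (sim σ L 0 x))
    rw [ofReal_zero, zero_smul, add_zero] at h1
    rw [← h1]
    congr 1
    funext z
    rw [zero_smul, add_zero, sub_zero]
    have h2 : ∀ y, sim 1 L 0 (cK a y) = r • cK b (sim 1 L 0 y) := by
      intro y
      rw [cK_lor hL, hab, cK_lin]
    unfold Yx
    have h4 : sim 1 L 0 (sim σ⁻¹ (linv L) 0 z) = σ⁻¹ • z := by
      rw [sim_s σ⁻¹ (linv L) z, simL_smul, sim_linv hL]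
    rw [simL_sub, h2, h2, simL_add, h4, sim_s σ L x]
    have h3 : z + σ • sim 1 L 0 x = σ • (σ⁻¹ • z + sim 1 L 0 x) := by
      rw [smul_add, smul_smul, mul_inv_cancel₀ hσ.ne', one_smul]
    rw [h3, cK_hom, cK_hom]
    rw [smul_sub, smul_sub, smul_smul, smul_smul, smul_smul, smul_smul]
    congr 1
    · congr 1
      field_simp
    · congr 1
      field_simp
  unfold Wop
  rw [H246.U_sub' hσ hL, H246.U_sub' hσ hL, hU, hG, hG, hU, hsn, hA, U_smul one_pos isLor_one, smul_sub,
    smul_sub]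

theorem W_scale (N : CNet Q H alg S) (Gg : Gnr Q alg S G) (R : H15.Rep Q A) {a : V}
    (ha : IsNull a) {r : ℝ} (hr : 0 < r) (x : V) (v : D) :
    Wop Q G A (r • a) x v = ((r : ℝ) : ℂ) • Wop Q G A a x v := by
  have hra : IsNull (r • a) := by
    refine ⟨by rw [md_smul, md_smul_l, ha.1, mul_zero, mul_zero], ?_⟩
    show 0 < r * a o
    exact mul_pos hr ha.2
  have hone : ∀ x : V, sim 1 GF.one 0 x = x := by
    intro x
    funext n
    simp [sim, GF.one, bas]
  have h := W_cov N Gg R one_pos hr isLor_one hra ha (hone (r • a)) x v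
  rw [hone, div_one] at h
  have hU : ∀ u : D, Q.U 1 GF.one 0 u = u := fun u => Uone u
  rwa [hU, hU] at h

end Vale.Agent.P352.N86

end
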