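import Vale.Agent.P352.N86.K.LW0

set_option linter.all false

noncomputable section

open MeasureTheory Filter Topology SchwartzMap Complex
open scoped SchwartzMap ComplexConjugate ContDiff LineDeriv

namespace Vale.Agent.P352.N86

open GF (Ix V Fn Fld Theory Sch IsLor bas eta o sim pd tr ev bar)
open H246 H496 H755 H15 H846 H246R H746
open UniformSpace (Completion)

variable {D : Type*} [NormedAddCommGroup D] [InnerProductSpace ℂ D]
variable {Q : GF.Theory D} {T : Ix → Ix → GF.Fld D} {J : Ix → GF.Fld D}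
variable {H : D → D} {alg : Set V → Set (D → D)} {S : V → ℝ → D → D} {G : V → D → D}
variable {A : (V → V) → D → D} {l : Fn → Completion D}

lemma HasAdj.add {B : D → D} (h : HasAdj B) (v w : D) : B (v + w) = B v + B w := by
  obtain ⟨B', h⟩ := h
  exact Adj.add h v w

lemma HasAdj.smul {B : D → D} (h : HasAdj B) (c : ℂ) (v : D) : B (c • v) = c • B v := by
  obtain ⟨B', h⟩ := h
  exact Adj.smul h c v

/-- the limit of the inverse of the contractions -/
def Pb (x : Mink) : Mink := ((x 0 - x 1) / 2) • WithLp.toLp 2 (nu (-1))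

lemma tend_Pb (x : Mink) : Tendsto (fun t : ℝ => (Real.exp t)⁻¹ • lam (linv (mBoost t)) x) atTop
    (𝓝 (Pb x)) := by
  have h0 : Tendsto (fun t : ℝ => Real.exp (-t)) atTop (𝓝 0) :=
    Real.tendsto_exp_neg_atTop_nhds_zero
  have hsq : Tendsto (fun t : ℝ => Real.exp (-t) * Real.exp (-t)) atTop (𝓝 0) := by
    simpa using h0.mul h0
  have hc : ∀ t : ℝ, (Real.exp t)⁻¹ * Real.cosh t = (1 + Real.exp (-t) * Real.exp (-t)) / 2 := by
    intro t
    rw [Real.cosh_eq, Real.exp_neg]
    have := (Real.exp_pos t).ne'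
    field_simp
  have hs : ∀ t : ℝ, (Real.exp t)⁻¹ * Real.sinh t = (1 - Real.exp (-t) * Real.exp (-t)) / 2 := by
    intro t
    rw [Real.sinh_eq, Real.exp_neg]
    have := (Real.exp_pos t).ne'
    field_simp
  have e : ∀ t : ℝ, (Real.exp t)⁻¹ • lam (linv (mBoost t)) x = WithLp.toLp 2
      ![(1 + Real.exp (-t) * Real.exp (-t)) / 2 * x 0 - (1 - Real.exp (-t) * Real.exp (-t)) / 2 * x 1,
        -((1 - Real.exp (-t) * Real.exp (-t)) / 2) * x 0 +
          (1 + Real.exp (-t) * Real.exp (-t)) / 2 * x 1,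
        Real.exp (-t) * x 2, Real.exp (-t) * x 3] := by
    intro t
    rw [← hc, ← hs, Real.exp_neg]
    apply mink_ext <;>
      simp [lam_apply, linv, mBoost, Fin.sum_univ_four, GF.eta, o] <;> ring
  simp only [e]
  have e2 : Pb x = WithLp.toLp 2 ![(1 + 0) / 2 * x 0 - (1 - 0) / 2 * x 1,
      -((1 - 0) / 2) * x 0 + (1 + 0) / 2 * x 1, 0 * x 2, 0 * x 3] := by
    apply mink_ext <;> simp [Pb, nu] <;> ring
  rw [e2]
  refine (PiLp.continuous_toLp 2 _).continuousAt.tendsto.comp ?_
  rw [tendsto_pi_nhds]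
  intro i
  fin_cases i
  · exact (((hsq.const_add 1).div_const 2).mul_const _).sub (((hsq.const_sub 1).div_const 2).mul_const _)
  · exact (((hsq.const_sub 1).div_const 2).neg.mul_const _).add
      (((hsq.const_add 1).div_const 2).mul_const _)
  · exact h0.mul_const _
  · exact h0.mul_const _

section

variable (N : CNet Q H alg S) (hJ : IsVirial Q T J)
include N hJ

lemma vc_add (c : V) (v w : D) : vc Q J c (v + w) = vc Q J c v + vc Q J c w := by
  have hf : ∀ m, Q.fld (J m) := fun m => Q.bose_fld _ (hJ.bose m)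
  obtain ⟨μ, K, z, n, hrep⟩ := exists_kc N.toNet hf fun m => GF.eta m * c m
  have h8 := fun v => sum_vj N.toNet hf (pw1_mem N.toNet n) hrep v
  unfold vc
  rw [h8, h8, h8, pt_add' N (pw1_mem N.toNet n)]

lemma vc_smul (c : V) (z : ℂ) (v : D) : vc Q J c (z • v) = z * vc Q J c v := by
  have hf : ∀ m, Q.fld (J m) := fun m => Q.bose_fld _ (hJ.bose m)
  obtain ⟨μ, K, w, n, hrep⟩ := exists_kc N.toNet hf fun m => GF.eta m * c m
  have h8 := fun v => sum_vj N.toNet hf (pw1_mem N.toNet n) hrep v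
  unfold vc
  rw [h8, h8, pt_smul' N (pw1_mem N.toNet n)]

lemma vj_add (m : Ix) (v w : D) : vj Q J m (v + w) = vj Q J m v + vj Q J m w := by
  have hf : ∀ m, Q.fld (J m) := fun m => Q.bose_fld _ (hJ.bose m)
  obtain ⟨μ, K, z, n, hrep⟩ := exists_kc N.toNet hf (bas m 1)
  have hB := pw1_mem N.toNet n
  simp only [vj_eq N.toNet hf hB hrep]
  exact pt_add' N hB _ _ _

lemma vj_smul (m : Ix) (c : ℂ) (v : D) : vj Q J m (c • v) = c * vj Q J m v := by
  have hf : ∀ m, Q.fld (J m) := fun m => Q.bose_fld _ (hJ.bose m)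
  obtain ⟨μ, K, z, n, hrep⟩ := exists_kc N.toNet hf (bas m 1)
  have hB := pw1_mem N.toNet n
  simp only [vj_eq N.toNet hf hB hrep]
  exact pt_smul' N hB _ _ _

lemma cont_vc (c : V) (v : D) : Continuous fun x : Mink => vc Q J c (U1 Q (-x) v) := by
  have hf : ∀ m, Q.fld (J m) := fun m => Q.bose_fld _ (hJ.bose m)
  unfold vc
  exact continuous_finset_sum _ fun m _ => continuous_const.mul (cont_vj N.toNet hf m v)

lemma bdd_vc (c : V) (v : D) : ∃ C, ∀ x : Mink, ‖vc Q J c (U1 Q x v)‖ ≤ C := by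
  have hf : ∀ m, Q.fld (J m) := fun m => Q.bose_fld _ (hJ.bose m)
  choose C hC using fun m => bdd_vj N.toNet hf m v
  refine ⟨∑ m, ‖((GF.eta m * c m : ℝ) : ℂ)‖ * C m, fun x => ?_⟩
  unfold vc
  refine (norm_sum_le _ _).trans (Finset.sum_le_sum fun m _ => ?_)
  rw [norm_mul]
  exact mul_le_mul_of_nonneg_left (hC m x) (norm_nonneg _)

/-- the smeared component -/
lemma vc_rep (c : V) (F : 𝓢(Mink, ℂ)) (v : D) :
    inner ℂ (∑ m, ((GF.eta m * c m : ℝ) : ℂ) • J m (fl F) Q.vac) v =
      ∫ x : Mink, conj (F x) * vc Q J c (U1 Q (-x) v) := by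
  have hf : ∀ m, Q.fld (J m) := fun m => Q.bose_fld _ (hJ.bose m)
  have hint : ∀ m, Integrable fun x : Mink => conj (F x) * vj Q J m (U1 Q (-x) v) := by
    intro m
    obtain ⟨C, hC⟩ := bdd_vj N.toNet hf m v
    have h1 : Integrable fun x : Mink => conj (F x) :=
      Complex.conjCLE.toContinuousLinearMap.integrable_comp F.integrable
    exact h1.mul_bdd (c := C) (cont_vj N.toNet hf m v).aestronglyMeasurable
      (Eventually.of_forall fun x => hC (-x))
  rw [sum_inner]
  unfold vc
  simp only [Finset.mul_sum]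
  rw [integral_finset_sum _ fun m _ => ?_]
  · refine Finset.sum_congr rfl fun m _ => ?_
    rw [inner_smul_left, conj_ofReal, ← Completion.inner_coe, vj_rep N.toNet hf,
      ← integral_const_mul]
    congr 1
    ext x
    ring
  · refine ((hint m).const_mul ((GF.eta m * c m : ℝ) : ℂ)).congr (Eventually.of_forall fun x => ?_)
    simp only
    ring

/-- covariance of the component along a null vector that is scaled -/
lemma vc_cov {s : ℝ} (hs : 0 < s) {L : Ix → V} (hL : GF.IsLor L) {a b : V} {r : ℝ} (hr : 0 < r)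
    (hab : sim 1 L 0 a = r • b) (v : D) :
    vc Q J b (Q.U s L 0 v) = (((s ^ 3 * r)⁻¹ : ℝ) : ℂ) * vc Q J a v := by
  unfold vc
  simp only [vj_cov N hJ hs hL, Finset.mul_sum]
  rw [Finset.sum_comm]
  refine Finset.sum_congr rfl fun k _ => ?_
  have h4 := H246R.contr2 hL hab k
  have h5 : ∑ m, ((GF.eta m * b m : ℝ) : ℂ) * (((s ^ 3)⁻¹ : ℝ) * ((L k m : ℂ) *
      vj Q J k v)) = ((∑ m, GF.eta m * b m * L k m : ℝ) : ℂ) * (((s ^ 3)⁻¹ : ℝ) * vj Q J k v) := by
    push_cast
    rw [Finset.sum_mul]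
    exact Finset.sum_congr rfl fun m _ => by ring
  rw [h5]
  have h6 : ∑ m, GF.eta m * b m * L k m = r⁻¹ * (GF.eta k * a k) := by
    rw [← h4, ← mul_assoc, inv_mul_cancel₀ hr.ne', one_mul]
  rw [h6]
  push_cast
  have hs' : (s : ℂ) ≠ 0 := by exact_mod_cast hs.ne'
  have hr' : (r : ℂ) ≠ 0 := by exact_mod_cast hr.ne'
  field_simp

lemma vc_Wd (t : ℝ) (v : D) : vc Q J (nu (-1)) (H496.Wd Q t v) =
    (((Real.exp t ^ 2)⁻¹ : ℝ) : ℂ) * vc Q J (nu (-1)) v := by
  have h := vc_cov N hJ (Real.exp_pos t) (isLor_boost t) (Real.exp_pos (-t)) (boost_nu t) v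
  have e : (Real.exp t ^ 3 * Real.exp (-t))⁻¹ = (Real.exp t ^ 2)⁻¹ := by
    congr 1
    rw [Real.exp_neg]
    have := (Real.exp_pos t).ne'
    field_simp
  rw [e] at h
  exact h

lemma vc_Rn (c : ℝ × ℝ) (v : D) : vc Q J (nu (-1)) (Rn Q c v) = vc Q J (nu (-1)) v := by
  have h := vc_cov N hJ one_pos (isLor_nr c) one_pos (nr_nu c) v
  rw [one_pow, mul_one, inv_one, ofReal_one, one_mul] at h
  exact h

end

/-- LEMMA W -/
theorem lemW (N : CNet Q H alg S) (Gg : Gnr Q alg S G) (R : H15.Rep Q A) (hJ : IsVirial Q T J)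
    {B : D → D} (hB : HasAdj B) (hc : ∀ t v, B (H496.Wd Q t v) = H496.Wd Q t (B v)) (c : ℝ × ℝ)
    (u : ℝ) (v : D) : vc Q J (nu (-1)) (Q.U 1 GF.one (-(u • nu (-1)))
      (B (Rn Q ((2 : ℝ) • c) v - (2 : ℂ) • Rn Q c v + v))) = 0 := by
  obtain ⟨B', hadj⟩ := id hB
  -- the vectors
  set w : D → D := fun v => B (Rn Q ((2 : ℝ) • c) v - (2 : ℂ) • Rn Q c v + v) with hw
  set F : D → Mink → ℂ := fun v x => vc Q J (nu (-1)) (U1 Q (-x) (w v)) with hF
  have hFc : ∀ v, Continuous (F v) := fun v => cont_vc N hJ _ _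
  have hsub : ∀ v w : D, B (v - w) = B v - B w := by
    intro v w
    rw [sub_eq_add_neg, ← neg_one_smul ℂ w, hB.add, hB.smul, neg_one_smul, ← sub_eq_add_neg]
  -- the key limit
  have key : ∀ (f : 𝓢(Mink, ℂ)) (v : D), ∫ x : Mink, conj (f x) * F v (Pb x) = 0 := by
    intro f v0
    set y : D := B' (∑ m, ((GF.eta m * nu (-1) m : ℝ) : ℂ) • J m (fl f) Q.vac) with hy
    set ξ : D := I • A (Xn (-c)) (I • A (Xn (-c)) y) with hξ
    set Λ : D → ℂ := fun v => ∫ x : Mink, conj (f x) * F v (Pb x) with hΛ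
    set wt : ℝ → D := fun t => ((Real.exp (-t)) ^ 2)⁻¹ •
      (Rn Q ((2 * Real.exp (-t)) • (-c)) y - (2 : ℝ) • Rn Q (Real.exp (-t) • (-c)) y + y) with hwt
    have hexp : Tendsto (fun t : ℝ => Real.exp (-t)) atTop (𝓝[>] 0) := by
      rw [tendsto_nhdsWithin_iff]
      exact ⟨Real.tendsto_exp_neg_atTop_nhds_zero, Eventually.of_forall fun t => Real.exp_pos _⟩
    have hwtl : Tendsto wt atTop (𝓝 ξ) := (Rn_second N R (-c) y).comp hexp
    -- identity
    have hid : ∀ t (v : D), inner ℂ (wt t) (H496.Wd Q t v) =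
        ∫ x : Mink, conj (f x) * F v ((Real.exp t)⁻¹ • lam (linv (mBoost t)) x) := by
      intro t v
      have e1 : ∀ z : D, inner ℂ (Rn Q ((2 * Real.exp (-t)) • (-c)) y -
          (2 : ℝ) • Rn Q (Real.exp (-t) • (-c)) y + y) z =
          inner ℂ y (Rn Q ((2 * Real.exp (-t)) • c) z - (2 : ℂ) • Rn Q (Real.exp (-t) • c) z + z) := by
        intro z
        rw [inner_add_left, inner_sub_left, inner_add_right, inner_sub_right, Rn_move N]
        have e2 : (2 : ℝ) • Rn Q (Real.exp (-t) • (-c)) y =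
            (2 : ℂ) • Rn Q (Real.exp (-t) • (-c)) y := by
          rw [← coe_smul]; norm_num
        have e9 : conj (2 : ℂ) = 2 := map_ofNat _ 2
        rw [e2, inner_smul_left, inner_smul_right, Rn_move N, smul_neg, smul_neg, neg_neg, neg_neg,
          e9]
      have e3 : ∀ k : ℝ, Rn Q ((k * Real.exp (-t)) • c) (H496.Wd Q t v) =
          H496.Wd Q t (Rn Q (k • c) v) := by
        intro k
        rw [Rn_Wd N, smul_smul]
        congr 2
        congr 1
        rw [mul_comm k, ← mul_assoc, ← Real.exp_add, add_neg_cancel, Real.exp_zero, one_mul]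
      have e4 : Rn Q ((2 * Real.exp (-t)) • c) (H496.Wd Q t v) -
          (2 : ℂ) • Rn Q (Real.exp (-t) • c) (H496.Wd Q t v) + H496.Wd Q t v =
          H496.Wd Q t (Rn Q ((2 : ℝ) • c) v - (2 : ℂ) • Rn Q c v + v) := by
        have h1 := e3 1
        rw [one_mul, one_smul] at h1
        rw [e3 2, h1, sub_eq_add_neg, sub_eq_add_neg, ← neg_smul, ← neg_smul, Wd_add, Wd_add,
          Wd_smul]
      have e5 : inner ℂ (wt t) (H496.Wd Q t v) = (((Real.exp (-t)) ^ 2)⁻¹ : ℝ) *
          inner ℂ (∑ m, ((GF.eta m * nu (-1) m : ℝ) : ℂ) • J m (fl f) Q.vac)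
            (H496.Wd Q t (w v)) := by
        rw [hwt]
        simp only
        rw [← coe_smul, inner_smul_left, conj_ofReal, e1, e4, hy]
        congr 1
        have h1 : ∀ a b : D, inner ℂ (B' a) b = inner ℂ a (B b) := by
          intro a b
          rw [← inner_conj_symm, ← hadj, inner_conj_symm]
        rw [h1, hc]
      rw [e5, vc_rep N hJ, ← integral_const_mul]
      congr 1
      ext x
      have e6 : U1 Q (-x) (H496.Wd Q t (w v)) =
          H496.Wd Q t (U1 Q (-((Real.exp t)⁻¹ • lam (linv (mBoost t)) x)) (w v)) :=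
        U_inv_scale N (Real.exp_pos t) (isLor_boost t) x (w v)
      rw [e6, vc_Wd N hJ]
      have e7 : (((Real.exp (-t)) ^ 2)⁻¹ : ℝ) = Real.exp t ^ 2 := by
        rw [Real.exp_neg, inv_pow, inv_inv]
      rw [e7]
      have e8 : ((Real.exp t ^ 2 : ℝ) : ℂ) * (((Real.exp t ^ 2)⁻¹ : ℝ) : ℂ) = 1 := by
        rw [← ofReal_mul, mul_inv_cancel₀ (by positivity), ofReal_one]
      simp only [hF]
      linear_combination (conj (f x) * vc Q J (nu (-1))
        (U1 Q (-((Real.exp t)⁻¹ • lam (linv (mBoost t)) x)) (w v))) * e8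
    -- limit of the right hand side
    have hlim1 : ∀ v, Tendsto (fun t => inner ℂ (wt t) (H496.Wd Q t v)) atTop (𝓝 (Λ v)) := by
      intro v
      simp only [hid]
      obtain ⟨C, hC⟩ := bdd_vc N hJ (nu (-1)) (w v)
      refine tendsto_integral_filter_of_dominated_convergence (fun x => ‖f x‖ * C) ?_ ?_ ?_ ?_
      · refine Eventually.of_forall fun t => ?_
        refine Continuous.aestronglyMeasurable ?_
        refine (Complex.continuous_conj.comp f.continuous).mul ((hFc v).comp ?_)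
        exact (continuous_lam (linv (mBoost t))).const_smul (Real.exp t)⁻¹
      · refine Eventually.of_forall fun t => Eventually.of_forall fun x => ?_
        rw [norm_mul, RCLike.norm_conj]
        exact mul_le_mul_of_nonneg_left (hC _) (norm_nonneg _)
      · exact f.integrable.norm.mul_const C
      · refine Eventually.of_forall fun x => ?_
        exact (((hFc v).tendsto _).comp (tend_Pb x)).const_mul _
    have hnW : ∀ t (v : D), ‖H496.Wd Q t v‖ = ‖v‖ := fun t v =>
      U_nrmL (Real.exp_pos t) (isLor_boost t) v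
    have hlim : ∀ v, Tendsto (fun t => inner ℂ ξ (H496.Wd Q t v)) atTop (𝓝 (Λ v)) := by
      intro v
      have h1 : Tendsto (fun t => inner ℂ (ξ - wt t) (H496.Wd Q t v)) atTop (𝓝 0) := by
        rw [tendsto_zero_iff_norm_tendsto_zero]
        have h2 : Tendsto (fun t => ‖ξ - wt t‖ * ‖v‖) atTop (𝓝 0) := by
          have h3 : Tendsto (fun t => ‖ξ - wt t‖) atTop (𝓝 0) := by
            have := (tendsto_const_nhds (x := ξ)).sub hwtl
            simpa using this.norm
          simpa using h3.mul_const ‖v‖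
        refine squeeze_zero (fun t => norm_nonneg _) (fun t => ?_) h2
        refine (norm_inner_le_norm _ _).trans ?_
        rw [hnW]
      have h2 := h1.add (hlim1 v)
      rw [zero_add] at h2
      refine h2.congr fun t => ?_
      rw [← inner_add_left, sub_add_cancel]
    -- invariance under null rotations
    have hbd : ∀ v, ‖Λ v‖ ≤ ‖ξ‖ * ‖v‖ := by
      intro v
      refine le_of_tendsto (hlim v).norm (Eventually.of_forall fun t => ?_)
      refine (norm_inner_le_norm _ _).trans ?_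
      rw [hnW]
    have hadd : ∀ v v', Λ (v + v') = Λ v + Λ v' := by
      intro v v'
      refine tendsto_nhds_unique (hlim (v + v')) ?_
      simp only [Wd_add, inner_add_right]
      exact (hlim v).add (hlim v')
    have hsm : ∀ (z : ℂ) v, Λ (z • v) = z * Λ v := by
      intro z v
      refine tendsto_nhds_unique (hlim (z • v)) ?_
      simp only [Wd_smul, inner_smul_right]
      exact (hlim v).const_mul z
    have hinv : ∀ (c' : ℝ × ℝ) v, Λ (Rn Q c' v) = Λ v := by
      intro c' v
      refine tendsto_nhds_unique (hlim _) ?_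
      have h1 : Tendsto (fun t : ℝ => inner ℂ (Rn Q (-(Real.exp (-t) • c')) ξ - ξ)
          (H496.Wd Q t v)) atTop (𝓝 0) := by
        rw [tendsto_zero_iff_norm_tendsto_zero]
        have h2 : Tendsto (fun t : ℝ => ‖Rn Q (-(Real.exp (-t) • c')) ξ - ξ‖ * ‖v‖) atTop (𝓝 0) := by
          have h3 : Tendsto (fun t : ℝ => -(Real.exp (-t) • c')) atTop (𝓝 0) := by
            have := (Real.tendsto_exp_neg_atTop_nhds_zero.smul_const c').neg
            simpa using this
          have h4 := ((Rn_cont N Gg ξ).tendsto 0).comp h3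
          rw [Rn_zero N] at h4
          have h5 := (h4.sub_const ξ).norm
          rw [sub_self, norm_zero] at h5
          simpa using h5.mul_const ‖v‖
        refine squeeze_zero (fun t => norm_nonneg _) (fun t => ?_) h2
        refine (norm_inner_le_norm _ _).trans ?_
        rw [hnW]
      have h2 := h1.add (hlim v)
      rw [zero_add] at h2
      refine h2.congr fun t => ?_
      rw [← inner_add_left, sub_add_cancel, Rn_move N, neg_neg, Rn_Wd N, smul_smul, ← Real.exp_add,
        add_neg_cancel, Real.exp_zero, one_smul]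
    have hgen : ∀ z : D, Λ (I • A (Xn (-c)) z) = 0 := by
      intro z
      set L0 : D →ₗ[ℂ] ℂ := { toFun := Λ, map_add' := hadd, map_smul' := hsm } with hL0
      set L1 : D →L[ℂ] ℂ := L0.mkContinuous ‖ξ‖ (fun v => hbd v) with hL1
      have h1 := (L1.restrictScalars ℝ).hasFDerivAt.comp_hasDerivAt (0 : ℝ)
        (Rn_der0 (Q := Q) R (-c) z)
      have h2 : ((L1.restrictScalars ℝ) ∘ fun s : ℝ => Rn Q (s • (-c)) z) = fun _ => Λ z := by
        funext s
        exact hinv _ z
      rw [h2] at h1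
      exact h1.unique (hasDerivAt_const _ _)
    exact abs_lim (W := H496.Wd Q) Wd_add Wd_smul Wd_inner (Wd_Wd N) hlim (hgen _) v0
  -- conclusion
  have hPc : Continuous fun x : Mink => Pb x := by
    unfold Pb
    fun_prop
  have h1 := fun_unique (h := fun x => F v (Pb x)) (h' := fun _ => 0) ((hFc v).comp hPc)
    continuous_const (fun f _ => by
      rw [key]
      simp)
  have h2 := congrFun h1 (u • WithLp.toLp 2 (nu (-1)))
  have h3 : Pb (u • WithLp.toLp 2 (nu (-1))) = u • WithLp.toLp 2 (nu (-1)) := by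
    unfold Pb
    congr 1
    simp [nu]
  rw [h3] at h2
  exact h2

end Vale.Agent.P352.N86

end
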