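import Vale.Agent.P352.N86.K.Defs

/-!
# P352: uniform bounds along the rotations
-/

set_option linter.all false

noncomputable section

open MeasureTheory Filter Topology SchwartzMap Complex
open scoped SchwartzMap ComplexConjugate ContDiff LineDeriv NNReal

namespace Vale.Agent.P352.N86

open GF (Ix V Fn Fld Theory Sch IsLor bas eta o sim pd tr ev bar)
open H246 H496 H755 H15 H846 H246R H746
open UniformSpace (Completion)

variable {D : Type*} [NormedAddCommGroup D] [InnerProductSpace ℂ D]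
variable {Q : GF.Theory D} {T : Ix → Ix → GF.Fld D} {J : Ix → GF.Fld D}
variable {H : D → D} {alg : Set V → Set (D → D)} {S : V → ℝ → D → D} {G : V → D → D}
variable {A : (V → V) → D → D} {l : Fn → Completion D}

theorem exists_adjL {B : D → D} (hB : HasAdj B) {Φ : GF.Fld D} (hΦ : Q.fld Φ) :
    ∃ K : 𝓢(Mink, ℂ) →L[ℂ] Completion D, ∀ F, K F = ((B (Φ (fl F) Q.vac) : D) : Completion D) := by
  obtain ⟨Y, hadj⟩ := hB
  have hadd : ∀ v w, B (v + w) = B v + B w := fun v w => Adj.add hadj v w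
  have hsm : ∀ (c : ℂ) v, B (c • v) = c • B v := fun c v => Adj.smul hadj c v
  set Ψ : 𝓢(Mink, ℂ) →ₗ[ℂ] Completion D :=
    { toFun := fun F => ((B (Φ (fl F) Q.vac) : D) : Completion D)
      map_add' := fun F G => by
        have h1 := fld_lin hΦ F G 1 Q.vac
        rw [one_smul, one_smul] at h1
        rw [h1, hadd, Completion.coe_add]
      map_smul' := fun c F => by
        have h1 := fld_lin hΦ 0 F c Q.vac
        have h0 : Φ (fl (0 : 𝓢(Mink, ℂ))) Q.vac = 0 := by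
          have h2 := fld_lin hΦ 0 (0 : 𝓢(Mink, ℂ)) 1 Q.vac
          simpa using h2
        rw [h0, zero_add, zero_add] at h1
        rw [h1, hsm, Completion.coe_smul, RingHom.id_apply] } with hΨ
  have := barrelled_schwartz
  have hcont : Continuous Ψ := by
    refine cont_of_weak Ψ (Z := Set.range ((↑) : D → Completion D)) Completion.denseRange_coe ?_
    rintro _ ⟨z, rfl⟩
    have e : (fun F : 𝓢(Mink, ℂ) => inner ℂ (z : Completion D) (Ψ F)) =
        fun F : 𝓢(Mink, ℂ) => inner ℂ (Y z) (Φ (fl F) Q.vac) := by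
      funext F
      show inner ℂ (z : Completion D) ((B (Φ (fl F) Q.vac) : D) : Completion D) = _
      rw [Completion.inner_coe, ← inner_conj_symm, hadj, inner_conj_symm]
    rw [e]
    exact continuous_const.inner (fld_cont hΦ Q.vac)
  exact ⟨⟨Ψ, hcont⟩, fun F => rfl⟩

/-- pointwise bounded families of vector valued distributions are equicontinuous -/
lemma bdd_fam {ι : Type*} (K : ι → 𝓢(Mink, ℂ) →L[ℂ] Completion D)
    (hb : ∀ F, ∃ C, ∀ i, ‖K i F‖ ≤ C) : ∃ (s : Finset (ℕ × ℕ)) (C : ℝ≥0), ∀ i F,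
      ‖K i F‖ ≤ C * (s.sup (schwartzSeminormFamily ℂ Mink ℂ)) F := by
  have := barrelled_schwartz
  set p : ι → Seminorm ℂ 𝓢(Mink, ℂ) := fun i =>
    (normSeminorm ℂ (Completion D)).comp (K i : 𝓢(Mink, ℂ) →ₗ[ℂ] Completion D) with hp
  have bdd : BddAbove (Set.range p) := by
    rw [Seminorm.bddAbove_range_iff]
    intro F
    obtain ⟨C, hC⟩ := hb F
    refine ⟨C, ?_⟩
    rintro _ ⟨i, rfl⟩
    exact hC i
  have hc0 := Seminorm.continuous_iSup p (fun i => (K i).continuous.norm) bdd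
  have hc : Continuous (⇑(⨆ i, p i)) := by
    rw [Seminorm.coe_iSup_eq bdd]
    exact hc0
  obtain ⟨s, C, _, h⟩ := Seminorm.bound_of_continuous (schwartz_withSeminorms ℂ Mink ℂ) _ hc
  refine ⟨s, C, fun i F => ?_⟩
  have h1 : p i F ≤ (⨆ i, p i) F := by
    rw [Seminorm.iSup_apply bdd]
    refine le_ciSup (f := fun i => p i F) ?_ i
    obtain ⟨C', hC'⟩ := hb F
    refine ⟨C', ?_⟩
    rintro _ ⟨i, rfl⟩
    exact hC' i
  have h2 := h F
  exact h1.trans h2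

lemma norm_lam_Rt (θ ψ : ℝ) (x : Mink) : ‖lam (Rt θ ψ) x‖ = ‖x‖ := by
  have h1 := Real.sin_sq_add_cos_sq θ
  have h2 := Real.sin_sq_add_cos_sq ψ
  rw [EuclideanSpace.norm_eq, EuclideanSpace.norm_eq]
  congr 1
  simp only [Real.norm_eq_abs, sq_abs, lam_apply, Fin.sum_univ_four]
  simp [Rt]
  linear_combination (x 1 * Real.cos θ - x 2 * Real.sin θ) ^ 2 * 0 + (x 1 ^ 2 + x 2 ^ 2) * h1 +
    ((x 1 * Real.sin θ + x 2 * Real.cos θ) ^ 2 + x 3 ^ 2) * h2

/-- the rotation as a linear isometry -/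
def rotE (θ ψ : ℝ) : Mink ≃ₗᵢ[ℝ] Mink where
  toLinearEquiv := (lamE (isLor_Rt θ ψ)).toLinearEquiv
  norm_map' x := norm_lam_Rt θ ψ x

lemma rotE_apply (θ ψ : ℝ) (x : Mink) : rotE θ ψ x = lam (Rt θ ψ) x := rfl

lemma semi_rot (θ ψ : ℝ) (F : 𝓢(Mink, ℂ)) (s : Finset (ℕ × ℕ)) :
    (s.sup (schwartzSeminormFamily ℂ Mink ℂ)) (compLam (isLor_Rt θ ψ) F) ≤
      (s.sup (schwartzSeminormFamily ℂ Mink ℂ)) F := by
  refine Seminorm.finset_sup_apply_le (apply_nonneg _ _) fun i hi => ?_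
  refine le_trans ?_ (Seminorm.le_finset_sup_apply hi)
  refine SchwartzMap.seminorm_le_bound ℂ i.1 i.2 _ (apply_nonneg _ _) fun x => ?_
  have e : ((compLam (isLor_Rt θ ψ) F : 𝓢(Mink, ℂ)) : Mink → ℂ) = F ∘ rotE θ ψ := by
    funext y
    rw [compLam_apply]
    rfl
  rw [e, LinearIsometryEquiv.norm_iteratedFDeriv_comp_right, ← (rotE θ ψ).norm_map x]
  exact SchwartzMap.le_seminorm ℂ i.1 i.2 F (rotE θ ψ x)

lemma abs_Rt_le (θ ψ : ℝ) (j m : Ix) : |Rt θ ψ j m| ≤ 1 := by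
  have hs := fun t => Real.abs_sin_le_one t
  have hc := fun t => Real.abs_cos_le_one t
  have hm : ∀ a b : ℝ, |a| ≤ 1 → |b| ≤ 1 → |a| * |b| ≤ 1 := fun a b ha hb =>
    mul_le_one₀ ha (abs_nonneg b) hb
  fin_cases j <;> fin_cases m <;> simp [Rt, abs_mul, hs, hc, hm]

lemma linv_U (N : CNet Q H alg S) {L : Ix → V} (hL : GF.IsLor L) (v : D) :
    Q.U 1 (linv L) 0 (Q.U 1 L 0 v) = v := by
  have h := U_linv N (isLor_linv hL) v
  have e : linv (linv L) = L := by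
    funext m n
    unfold linv
    linear_combination (L m n * (GF.eta m * GF.eta m)) * eta_sq n + L m n * eta_sq m
  rwa [e] at h

lemma U_sum {s : ℝ} (hs : 0 < s) {L : Ix → V} (hL : GF.IsLor L) (a : V) {ι : Type*}
    (t : Finset ι) (f : ι → D) : Q.U s L a (∑ i ∈ t, f i) = ∑ i ∈ t, Q.U s L a (f i) :=
  map_sum (⟨⟨Q.U s L a, U_add hs hL a⟩, U_smul hs hL a⟩ : D →ₗ[ℂ] D) f t

/-- the rotated vectors -/
lemma U_rot (N : CNet Q H alg S) (hJ : IsVirial Q T J) (θ ψ : ℝ) (F : 𝓢(Mink, ℂ)) (m : Ix) :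
    Q.U 1 (linv (Rt θ ψ)) 0 (J m (fl F) Q.vac) = ∑ k, (Rt θ ψ k m : ℂ) •
      J k (fl (compLam (isLor_Rt θ ψ) F)) Q.vac := by
  have hL := isLor_Rt θ ψ
  have h2 := hJ.cov m 1 (Rt θ ψ) 0 (fl F) Q.vac one_pos hL (isTest_fl F)
  rw [Q.U_vac _ _ _ one_pos hL] at h2
  rw [h2, U_sum one_pos (isLor_linv hL)]
  refine Finset.sum_congr rfl fun k _ => ?_
  rw [U_smul one_pos (isLor_linv hL), linv_U N hL, fl_sim 1 one_pos hL 0, simS_lam]
  simp

theorem bdd_rot (N : CNet Q H alg S) (hJ : IsVirial Q T J) {ι : Type*} {B : ι → D → D}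
    (hadj : ∀ i, HasAdj (B i)) (hb : ∀ v, ∃ C, ∀ i, ‖B i v‖ ≤ C) (g : Ix → 𝓢(Mink, ℂ)) :
    ∃ C, ∀ i θ ψ, ‖B i (Q.U 1 (linv (Rt θ ψ)) 0 (jv Q J g))‖ ≤ C := by
  have hf : ∀ m, Q.fld (J m) := fun m => Q.bose_fld _ (hJ.bose m)
  choose K hK using fun i m => exists_adjL (hadj i) (hf m)
  have h1 : ∀ m, ∃ (s : Finset (ℕ × ℕ)) (C : ℝ≥0), ∀ i F,
      ‖K i m F‖ ≤ C * (s.sup (schwartzSeminormFamily ℂ Mink ℂ)) F := by
    intro m
    refine bdd_fam (fun i => K i m) fun F => ?_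
    obtain ⟨C, hC⟩ := hb (J m (fl F) Q.vac)
    refine ⟨C, fun i => ?_⟩
    rw [hK, Completion.norm_coe]
    exact hC i
  choose s C hsC using h1
  have hadd : ∀ i (t : Finset Ix) (f : Ix → D), B i (∑ k ∈ t, f k) = ∑ k ∈ t, B i (f k) := by
    intro i t f
    obtain ⟨Y, hY⟩ := hadj i
    exact map_sum (⟨⟨B i, fun v w => Adj.add hY v w⟩, fun c v => Adj.smul hY c v⟩ : D →ₗ[ℂ] D) f t
  have hsm : ∀ i (c : ℂ) v, B i (c • v) = c • B i v := fun i c v => by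
    obtain ⟨Y, hY⟩ := hadj i
    exact Adj.smul hY c v
  refine ⟨∑ m, ∑ k, C k * ((s k).sup (schwartzSeminormFamily ℂ Mink ℂ)) (g m),
    fun i θ ψ => ?_⟩
  unfold jv
  rw [U_sum one_pos (isLor_linv (isLor_Rt θ ψ)), hadd]
  refine (norm_sum_le _ _).trans (Finset.sum_le_sum fun m _ => ?_)
  rw [U_rot N hJ, hadd]
  refine (norm_sum_le _ _).trans (Finset.sum_le_sum fun k _ => ?_)
  rw [hsm, norm_smul]
  have h2 := hsC k i (compLam (isLor_Rt θ ψ) (g m))
  rw [hK, Completion.norm_coe] at h2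
  have h3 : ‖(Rt θ ψ k m : ℂ)‖ ≤ 1 := by
    rw [Complex.norm_real, Real.norm_eq_abs]
    exact abs_Rt_le θ ψ k m
  calc _ ≤ 1 * ‖B i (J k (fl (compLam (isLor_Rt θ ψ) (g m))) Q.vac)‖ := by gcongr
    _ ≤ C k * ((s k).sup (schwartzSeminormFamily ℂ Mink ℂ)) (compLam (isLor_Rt θ ψ) (g m)) := by
        rw [one_mul]; exact h2
    _ ≤ _ := by
        gcongr
        exact semi_rot θ ψ (g m) (s k)

end Vale.Agent.P352.N86

end
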