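import Vale.Agent.P352.N86.K.C2
import Vale.Agent.P352.N86.K.C3
import Vale.Agent.P352.N86.K.C4
import Vale.Agent.P352.N86.K.C5

/-!
# P352: growth bounds for the values along the null directions
-/

set_option linter.all false

noncomputable section

open MeasureTheory Filter Topology SchwartzMap Complex
open scoped SchwartzMap ComplexConjugate ContDiff LineDeriv

namespace Vale.Agent.P352.N86

open GF (Ix V Fn Fld Theory Sch IsLor bas eta o sim pd tr ev bar)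
open H246 H496 H755 H15 H846 H246R H746
open UniformSpace (Completion)

variable {D : Type*} [NormedAddCommGroup D] [InnerProductSpace ℂ D]
variable {Q : GF.Theory D} {T : Ix → Ix → GF.Fld D} {J : Ix → GF.Fld D}
variable {H : D → D} {alg : Set V → Set (D → D)} {S : V → ℝ → D → D} {G : V → D → D}
variable {A : (V → V) → D → D} {l : Fn → Completion D}

lemma c6b_adj (N : CNet Q H alg S) (n : ℕ) {W : D → D}
    (hW : ∀ v w, inner ℂ (W v) w = inner ℂ v (W w)) (c : ℂ) :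
    HasAdj (fun v => c • pw1 H n (W v)) := by
  obtain ⟨Y, _, hY⟩ := N.adj _ _ (pw1_mem N.toNet n)
  refine ⟨fun w => conj c • W (Y w), fun v w => ?_⟩
  rw [inner_smul_left, inner_smul_right, hY, hW]

/-- bounds for the values of the current on rotated vectors -/
lemma c6b_vc (N : CNet Q H alg S) (hJ : IsVirial Q T J) (b : V) :
    ∃ (C : Ix → ℝ) (n : Ix → ℕ), (∀ k, 0 ≤ C k) ∧ ∀ (θ ψ : ℝ) (x : Mink) (w : D),
      ‖vc Q J b (U1 Q (-x) (Q.U 1 (Rt θ ψ) 0 w))‖ ≤ ∑ k, C k * ‖pw1 H (n k) w‖ := by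
  have hf : ∀ m, Q.fld (J m) := fun m => Q.bose_fld _ (hJ.bose m)
  have h1 : ∀ k, ∃ (C : ℝ) (n : ℕ), 0 ≤ C ∧ ∀ v, ‖vj Q J k v‖ ≤ C * ‖pw1 H n v‖ := by
    intro k
    obtain ⟨μ, K, w, n, h⟩ := exists_kc N.toNet hf (bas k 1)
    refine ⟨‖K.J w‖, n, norm_nonneg _, fun v => ?_⟩
    rw [vj_eq N.toNet hf (pw1_mem N.toNet n) h, pt]
    refine (norm_inner_le_norm _ _).trans ?_
    rw [Completion.norm_coe]
  choose C n hC hn using h1
  refine ⟨fun k => (∑ m, |b m|) * C k, n, fun k => ?_, fun θ ψ x w => ?_⟩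
  · have := hC k
    have h0 : 0 ≤ ∑ m, |b m| := Finset.sum_nonneg fun m _ => abs_nonneg _
    positivity
  rw [U_inv_scale N one_pos (isLor_Rt θ ψ)]
  obtain ⟨w', hw'⟩ : ∃ w', w' = U1 Q (-((1 : ℝ)⁻¹ • lam (linv (Rt θ ψ)) x)) w := ⟨_, rfl⟩
  rw [← hw']
  have hnw : ∀ k, ‖pw1 H (n k) w'‖ = ‖pw1 H (n k) w‖ := fun k => by
    rw [hw', pw1_comm N.toNet, U1_norm]
  unfold vc
  have h2 : ∀ m, ‖((GF.eta m * b m : ℝ) : ℂ) * vj Q J m (Q.U 1 (Rt θ ψ) 0 w')‖ ≤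
      |b m| * ∑ k, C k * ‖pw1 H (n k) w‖ := by
    intro m
    have he : |GF.eta m| = 1 := by unfold GF.eta; split_ifs <;> simp
    rw [norm_mul, Complex.norm_real, Real.norm_eq_abs, abs_mul, he, one_mul]
    refine mul_le_mul_of_nonneg_left ?_ (abs_nonneg _)
    rw [vj_cov N hJ one_pos (isLor_Rt θ ψ)]
    simp only [one_pow, inv_one, ofReal_one, one_mul]
    refine (norm_sum_le _ _).trans (Finset.sum_le_sum fun k _ => ?_)
    rw [norm_mul, Complex.norm_real, Real.norm_eq_abs]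
    calc _ ≤ 1 * (C k * ‖pw1 H (n k) w'‖) :=
          mul_le_mul (abs_Rt_le θ ψ k m) (hn k _) (norm_nonneg _) zero_le_one
      _ = _ := by rw [one_mul, hnw]
  refine (norm_sum_le _ _).trans ((Finset.sum_le_sum fun m _ => h2 m).trans ?_)
  rw [← Finset.sum_mul, Finset.mul_sum]
  exact le_of_eq (Finset.sum_congr rfl fun k _ => by ring)

/-- reduction to the null vector `nu (-1)` -/
lemma c6b_W (N : CNet Q H alg S) (Gg : Gnr Q alg S G) (R : H15.Rep Q A) {c : V} (hc : IsNull c)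
    {θ ψ : ℝ} (h : sim 1 (Rt θ ψ) 0 (nu (-1)) = (c 0)⁻¹ • c) (y : V) (X : D) :
    Wop Q G A c y X = ((c 0 : ℝ) : ℂ) • Q.U 1 (Rt θ ψ) 0 (Wop Q G A (nu (-1))
      (bas o ((c 0)⁻¹ * GF.mdot c y)) (Q.U 1 (linv (Rt θ ψ)) 0 X)) := by
  have h0 : 0 < c 0 := hc.2
  have hL := isLor_Rt θ ψ
  have hn : IsNull (nu (-1)) := isNull_nu (Or.inr rfl)
  have h1 := W_cov N Gg R one_pos (inv_pos.2 h0) hL hn hc h (sim 1 (linv (Rt θ ψ)) 0 y)
    (Q.U 1 (linv (Rt θ ψ)) 0 X)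
  rw [U_linv N hL, sim_linv hL] at h1
  have h2 : GF.mdot (nu (-1)) (sim 1 (linv (Rt θ ψ)) 0 y) =
      GF.mdot (nu (-1)) (bas o ((c 0)⁻¹ * GF.mdot c y)) := by
    rw [← md_LL hL, sim_linv hL, h, md_smul_l]
    rw [gf_mdot (nu (-1))]
    simp [nu, bas, o]
  rw [W_dep N Gg R hn h2] at h1
  rw [h1, smul_smul]
  have e : ((c 0 : ℝ) : ℂ) * (((c 0)⁻¹ / 1 : ℝ) : ℂ) = 1 := by
    rw [← ofReal_mul, div_one, mul_inv_cancel₀ h0.ne', ofReal_one]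
  rw [e, one_smul]

/-- uniform bounds along the rotations -/
lemma c6b_gen (N : CNet Q H alg S) (hJ : IsVirial Q T J) {X : D} (hX : InJ Q J X) (b : V) {p : ℕ}
    {W : ℝ → D → D} (hs : ∀ τ v w, inner ℂ (W τ v) w = inner ℂ v (W τ w))
    (hl : ∀ n v, ∃ C, ∀ τ : ℝ, 0 < τ → τ ≤ 1 → ‖pw1 H n (W τ v)‖ ≤ C * τ ^ p) :
    ∃ C, ∀ τ : ℝ, 0 < τ → τ ≤ 1 → ∀ (θ ψ : ℝ) (x : Mink),
      ‖vc Q J b (U1 Q (-x) (Q.U 1 (Rt θ ψ) 0 (W τ (Q.U 1 (linv (Rt θ ψ)) 0 X))))‖ ≤ C * τ ^ p := by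
  obtain ⟨g, hg, rfl⟩ := hX
  obtain ⟨C, n, hC, hv⟩ := c6b_vc N hJ b
  have h1 : ∀ k, ∃ M, ∀ (τ : {τ : ℝ // 0 < τ ∧ τ ≤ 1}) (θ ψ : ℝ),
      ‖(((τ.1 ^ p)⁻¹ : ℝ) : ℂ) • pw1 H (n k) (W τ.1 (Q.U 1 (linv (Rt θ ψ)) 0 (jv Q J g)))‖ ≤ M := by
    intro k
    refine bdd_rot N hJ (B := fun (τ : {τ : ℝ // 0 < τ ∧ τ ≤ 1}) v =>
      (((τ.1 ^ p)⁻¹ : ℝ) : ℂ) • pw1 H (n k) (W τ.1 v)) (fun τ => c6b_adj N (n k) (hs τ.1) _)
      (fun v => ?_) g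
    obtain ⟨M, hM⟩ := hl (n k) v
    refine ⟨M, fun τ => ?_⟩
    have hp : 0 < τ.1 ^ p := pow_pos τ.2.1 p
    rw [norm_smul, Complex.norm_real, Real.norm_eq_abs, abs_of_pos (inv_pos.2 hp),
      inv_mul_le_iff₀ hp, mul_comm]
    exact hM τ.1 τ.2.1 τ.2.2
  choose M hM using h1
  refine ⟨∑ k, C k * M k, fun τ h0 h1 θ ψ x => ?_⟩
  refine (hv θ ψ x _).trans ?_
  rw [Finset.sum_mul]
  refine Finset.sum_le_sum fun k _ => ?_
  have h2 := hM k ⟨τ, h0, h1⟩ θ ψ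
  have hp : 0 < τ ^ p := pow_pos h0 p
  simp only at h2
  rw [norm_smul, Complex.norm_real, Real.norm_eq_abs, abs_of_pos (inv_pos.2 hp),
    inv_mul_le_iff₀ hp] at h2
  rw [mul_assoc]
  refine mul_le_mul_of_nonneg_left ?_ (hC k)
  rw [mul_comm (M k)]
  exact h2

lemma c6b_half {c : V} (hc : IsNull c) (hcb : GF.mdot c (nu (-1)) = 1) : 1 / 2 ≤ c 0 := by
  have h1 := hc.1
  rw [gf_mdot] at h1 hcb
  simp [nu] at hcb
  nlinarith [sq_nonneg (c 2), sq_nonneg (c 3)]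

theorem grow2 (N : CNet Q H alg S) (Gg : Gnr Q alg S G) (R : H15.Rep Q A) (hJ : IsVirial Q T J)
    {X : D} (hX : InJ Q J X) (t : ℝ) : ∃ C, ∀ c, IsNull c → GF.mdot c (nu (-1)) = 1 →
      ‖vc Q J (nu (-1)) (Wop Q G A c (t • nu (-1)) X)‖ ≤ C := by
  have hn : IsNull (nu (-1)) := isNull_nu (Or.inr rfl)
  obtain ⟨C, hC⟩ := c6b_gen N hJ hX (nu (-1)) (p := 1)
    (W := fun τ => Wop Q G A (nu (-1)) (bas o (τ * (2 * t))))
    (fun τ => W_symm N Gg R hn _) (fun n v => by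
      obtain ⟨M, hM⟩ := lip_W N Gg R hn n (2 * t) v
      exact ⟨M, fun τ h0 h1 => by rw [pow_one]; exact hM τ h0 h1⟩)
  refine ⟨C / 2, fun c hc hcb => ?_⟩
  have h0 := c6b_half hc hcb
  obtain ⟨θ, ψ, h⟩ := exists_rot hc
  have h1 := hC (2 * c 0)⁻¹ (by positivity) (by
    rw [inv_le_one_iff₀]; right; linarith) θ ψ 0
  have e1 : (c 0)⁻¹ * GF.mdot c (t • nu (-1)) = (2 * c 0)⁻¹ * (2 * t) := by
    rw [H755.md_smul, hcb, mul_one]
    field_simp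
  rw [c6b_W N Gg R hc h, vc_smul N hJ, norm_mul, Complex.norm_real, Real.norm_eq_abs,
    abs_of_pos (by linarith : 0 < c 0), e1]
  rw [neg_zero, U1_zero_all, pow_one] at h1
  calc _ ≤ c 0 * (C * (2 * c 0)⁻¹) := mul_le_mul_of_nonneg_left h1 (by linarith)
    _ = C / 2 := by
      have : c 0 ≠ 0 := by linarith
      field_simp

lemma c6b_sub {s : ℝ} (hs : 0 < s) {L : Ix → V} (hL : GF.IsLor L) (a : V) (v w : D) :
    Q.U s L a (v - w) = Q.U s L a v - Q.U s L a w :=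
  H246.U_sub' hs hL a v w

theorem grow1 (N : CNet Q H alg S) (Gg : Gnr Q alg S G) (R : H15.Rep Q A) (hJ : IsVirial Q T J)
    {X : D} (hX : InJ Q J X) (u t s : ℝ) : ∃ C, ∀ c, IsNull c → GF.mdot c (nu (-1)) = 1 →
      c o * ‖vc Q J (nu (-1)) (Q.U 1 GF.one (-(u • nu (-1))) (Wop Q G A c ((t + s) • nu (-1)) X -
        Wop Q G A c (t • nu (-1)) X - Wop Q G A c (s • nu (-1)) X))‖ ≤ C := by
  have hn : IsNull (nu (-1)) := isNull_nu (Or.inr rfl)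
  obtain ⟨C, hC⟩ := c6b_gen N hJ hX (nu (-1)) (p := 2)
    (W := fun τ v => Wop Q G A (nu (-1)) (bas o (τ * (2 * t + 2 * s))) v -
      Wop Q G A (nu (-1)) (bas o (τ * (2 * t))) v - Wop Q G A (nu (-1)) (bas o (τ * (2 * s))) v)
    (fun τ v w => by
      simp only [inner_sub_left, inner_sub_right, W_symm N Gg R hn])
    (fun n v => lip2_W N Gg R hn n (2 * t) (2 * s) v)
  refine ⟨C / 4, fun c hc hcb => ?_⟩
  have h0 := c6b_half hc hcb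
  have hc0 : c 0 ≠ 0 := by linarith
  obtain ⟨θ, ψ, h⟩ := exists_rot hc
  have h1 := hC (2 * c 0)⁻¹ (by positivity) (by
    rw [inv_le_one_iff₀]; right; linarith) θ ψ (WithLp.toLp 2 (u • nu (-1)))
  have e1 : ∀ r : ℝ, (c 0)⁻¹ * GF.mdot c (r • nu (-1)) = (2 * c 0)⁻¹ * (2 * r) := by
    intro r
    rw [H755.md_smul, hcb, mul_one]
    field_simp
  have e2 : (2 * c 0)⁻¹ * (2 * (t + s)) = (2 * c 0)⁻¹ * (2 * t + 2 * s) := by ring
  rw [c6b_W N Gg R hc h, c6b_W N Gg R hc h, c6b_W N Gg R hc h, e1, e1, e1, e2, ← smul_sub,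
    ← smul_sub, ← c6b_sub one_pos (isLor_Rt θ ψ), ← c6b_sub one_pos (isLor_Rt θ ψ),
    U_smul one_pos isLor_one, vc_smul N hJ, norm_mul, Complex.norm_real, Real.norm_eq_abs,
    abs_of_pos (by linarith : 0 < c 0)]
  have h2 : ‖vc Q J (nu (-1)) (Q.U 1 GF.one (-(u • nu (-1))) (Q.U 1 (Rt θ ψ) 0
      (Wop Q G A (nu (-1)) (bas o ((2 * c 0)⁻¹ * (2 * t + 2 * s))) (Q.U 1 (linv (Rt θ ψ)) 0 X) -
        Wop Q G A (nu (-1)) (bas o ((2 * c 0)⁻¹ * (2 * t))) (Q.U 1 (linv (Rt θ ψ)) 0 X) -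
        Wop Q G A (nu (-1)) (bas o ((2 * c 0)⁻¹ * (2 * s)))
          (Q.U 1 (linv (Rt θ ψ)) 0 X))))‖ ≤ C * (2 * c 0)⁻¹ ^ 2 := h1
  calc _ ≤ c 0 * (c 0 * (C * (2 * c 0)⁻¹ ^ 2)) := by
        refine mul_le_mul_of_nonneg_left ?_ (by linarith : 0 ≤ c 0)
        exact mul_le_mul_of_nonneg_left h2 (by linarith)
    _ = C / 4 := by
      field_simp
      ring

end Vale.Agent.P352.N86

end
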