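import Vale.Agent.P352.N86.K.C6a
import Vale.Agent.P352.N86.K.C2
import Vale.Agent.P352.N86.K.C4
import Vale.Agent.P352.N86.K.C6b

set_option linter.all false

noncomputable section

open MeasureTheory Filter Topology SchwartzMap Complex
open scoped SchwartzMap ComplexConjugate ContDiff LineDeriv

namespace Vale.Agent.P352.N86

open GF (Ix V Fn Fld Theory Sch IsLor bas eta o sim pd tr ev bar)
open H246 H496 H755 H15 H846 H246R H746
open UniformSpace (Completion)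

variable {D : Type*} [NormedAddCommGroup D] [InnerProductSpace ℂ D]
variable {Q : GF.Theory D} {T : Ix → Ix → GF.Fld D} {J : Ix → GF.Fld D}
variable {H : D → D} {alg : Set V → Set (D → D)} {S : V → ℝ → D → D} {G : V → D → D}
variable {A : (V → V) → D → D} {l : Fn → Completion D}

namespace C6

section

variable (N : CNet Q H alg S) (Gg : Gnr Q alg S G) (R : H15.Rep Q A)
include N Gg R

/-- the operator for `cV v` is a conjugate of the operator for `cV 0` -/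
lemma W_cV (v : ℝ × ℝ) (t : ℝ) (w : D) : Wop Q G A (cV v) (t • nu (-1)) w =
    Rn Q v (Wop Q G A ((1 / 2 : ℝ) • nu 1) (t • nu (-1)) (Rn Q (-v) w)) := by
  have h := W_cov N Gg R one_pos one_pos (isLor_nr v) isNull_a0' (isNull_cV v)
    (by rw [one_smul]; rfl) (t • nu (-1)) (Rn Q (-v) w)
  have e : Q.U 1 (nr v) 0 (Rn Q (-v) w) = w := by
    show Rn Q v (Rn Q (-v) w) = w
    rw [Rn_Rn N, add_neg_cancel, Rn_zero N]
  rw [e, nr_smul_nu, div_one, ofReal_one, one_smul] at h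
  exact h.symm

/-- commutation with the dilations that preserve `nu (-1)` -/
lemma W_Wd (t u : ℝ) (w : D) : Wop Q G A ((1 / 2 : ℝ) • nu 1) (u • nu (-1)) (H496.Wd Q t w) =
    H496.Wd Q t (Wop Q G A ((1 / 2 : ℝ) • nu 1) (u • nu (-1)) w) := by
  have h := W_cov N Gg R (Real.exp_pos t) (Real.exp_pos t) (isLor_boost t) isNull_a0' isNull_a0'
    (boost_a0' t) (u • nu (-1)) w
  rw [boost_smul_nu, div_self (Real.exp_pos t).ne', ofReal_one, one_smul] at h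
  exact h.symm

lemma hasAdj_W {a : V} (ha : IsNull a) (x : V) : HasAdj (Wop Q G A a x) :=
  ⟨Wop Q G A a x, fun v w => W_symm N Gg R ha x v w⟩

end

/-- the second differences along lines vanish -/
theorem second_diff (N : CNet Q H alg S) (Gg : Gnr Q alg S G) (R : H15.Rep Q A)
    (hJ : IsVirial Q T J) {B : D → D} (hB : HasAdj B)
    (hc : ∀ t v, B (H496.Wd Q t v) = H496.Wd Q t (B v)) (u : ℝ) (X : D) (v w : ℝ × ℝ) :
    vc Q J (nu (-1)) (Q.U 1 GF.one (-(u • nu (-1))) (B (Rn Q (-(v + (2 : ℝ) • w)) X))) -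
      2 * vc Q J (nu (-1)) (Q.U 1 GF.one (-(u • nu (-1))) (B (Rn Q (-(v + w)) X))) +
      vc Q J (nu (-1)) (Q.U 1 GF.one (-(u • nu (-1))) (B (Rn Q (-v) X))) = 0 := by
  have h := lemW N Gg R hJ hB hc (-w) u (Rn Q (-v) X)
  rw [Rn_Rn N, Rn_Rn N] at h
  have e1 : (2 : ℝ) • -w + -v = -(v + (2 : ℝ) • w) := by rw [smul_neg]; abel
  have e2 : -w + -v = -(v + w) := by abel
  have hadd : ∀ x y, B (x + y) = B x + B y := by
    obtain ⟨Y, hY⟩ := hB
    exact fun x y => Adj.add (X := B) (Y := Y) hY x y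
  have hsm : ∀ (z : ℂ) x, B (z • x) = z • B x := by
    obtain ⟨Y, hY⟩ := hB
    exact fun z x => Adj.smul (X := B) (Y := Y) hY z x
  have hsub : ∀ x y, B (x - y) = B x - B y := fun x y => by
    rw [sub_eq_add_neg, ← neg_one_smul ℂ y, hadd, hsm, neg_one_smul, ← sub_eq_add_neg]
  rw [e1, e2, hadd, hsub, hsm, U_add one_pos isLor_one, H246.U_sub' one_pos isLor_one,
    U_smul one_pos isLor_one, vc_add6 N hJ, vc_sub6 N hJ, vc_smul6 N hJ] at h
  exact h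

/-- the values are constant if they are bounded -/
theorem const_of_bdd (N : CNet Q H alg S) (Gg : Gnr Q alg S G) (R : H15.Rep Q A)
    (hJ : IsVirial Q T J) {B : D → D} (hB : HasAdj B)
    (hc : ∀ t v, B (H496.Wd Q t v) = H496.Wd Q t (B v)) (u : ℝ) (X : D) {f : ℝ × ℝ → ℂ}
    (hf : ∀ v, f v = vc Q J (nu (-1)) (Q.U 1 GF.one (-(u • nu (-1)))
      (Rn Q v (B (Rn Q (-v) X))))) {C : ℝ} (hC : ∀ v, ‖f v‖ ≤ C) (v w : ℝ × ℝ) :
    f (v + w) = f v := by
  refine const_of_affine (f := f) (fun v w => ?_) hC v w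
  rw [hf, hf, hf, Rn_U1nu N, Rn_U1nu N, Rn_U1nu N, vc_Rn N hJ, vc_Rn N hJ, vc_Rn N hJ]
  exact second_diff N Gg R hJ hB hc u X v w

end C6

open C6

theorem Sa1 (N : CNet Q H alg S) (Gg : Gnr Q alg S G) (R : H15.Rep Q A) (hJ : IsVirial Q T J)
    {X : D} (hX : InJ Q J X) {c : V} (hc : IsNull c) (hcb : GF.mdot c (nu (-1)) = 1)
    (u t s : ℝ) : vc Q J (nu (-1)) (Q.U 1 GF.one (-(u • nu (-1)))
      (Wop Q G A c ((t + s) • nu (-1)) X - Wop Q G A c (t • nu (-1)) X -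
        Wop Q G A c (s • nu (-1)) X)) = 0 := by
  obtain ⟨B, hBd⟩ : ∃ B : D → D, B = fun w =>
      Wop Q G A ((1 / 2 : ℝ) • nu 1) ((t + s) • nu (-1)) w -
      Wop Q G A ((1 / 2 : ℝ) • nu 1) (t • nu (-1)) w -
      Wop Q G A ((1 / 2 : ℝ) • nu 1) (s • nu (-1)) w := ⟨_, rfl⟩
  obtain ⟨f, hfd⟩ : ∃ f : ℝ × ℝ → ℂ, f = fun v =>
      vc Q J (nu (-1)) (Q.U 1 GF.one (-(u • nu (-1)))
      (Wop Q G A (cV v) ((t + s) • nu (-1)) X - Wop Q G A (cV v) (t • nu (-1)) X -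
        Wop Q G A (cV v) (s • nu (-1)) X)) := ⟨_, rfl⟩
  have hB : HasAdj B := by
    refine ⟨B, fun v w => ?_⟩
    rw [hBd]
    simp only [inner_sub_left, inner_sub_right]
    rw [W_symm N Gg R isNull_a0', W_symm N Gg R isNull_a0', W_symm N Gg R isNull_a0']
  have hBc : ∀ t v, B (H496.Wd Q t v) = H496.Wd Q t (B v) := by
    intro t v
    rw [hBd]
    simp only [W_Wd N Gg R]
    unfold H496.Wd
    rw [H246.U_sub' (Real.exp_pos t) (isLor_boost t), H246.U_sub' (Real.exp_pos t) (isLor_boost t)]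
  have hf : ∀ v, f v = vc Q J (nu (-1)) (Q.U 1 GF.one (-(u • nu (-1)))
      (Rn Q v (B (Rn Q (-v) X)))) := by
    intro v
    rw [hfd, hBd]
    simp only [W_cV N Gg R]
    unfold Rn
    rw [H246.U_sub' one_pos (isLor_nr v), H246.U_sub' one_pos (isLor_nr v)]
  obtain ⟨C, hC⟩ := grow1 N Gg R hJ hX u t s
  have hg : ∀ v, (1 + (v.1 ^ 2 + v.2 ^ 2)) / 2 * ‖f v‖ ≤ C := by
    intro v
    have h := hC (cV v) (isNull_cV v) (mdot_cV v)
    rw [cV_zero_apply] at h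
    rw [hfd]
    exact h
  have hC0 : ∀ v, ‖f v‖ ≤ 2 * C := by
    intro v
    have h1 := hg v
    have h2 : 1 / 2 * ‖f v‖ ≤ (1 + (v.1 ^ 2 + v.2 ^ 2)) / 2 * ‖f v‖ :=
      mul_le_mul_of_nonneg_right (by nlinarith [sq_nonneg v.1, sq_nonneg v.2]) (norm_nonneg _)
    linarith
  have hconst := fun v w => const_of_bdd N Gg R hJ hB hBc u X hf hC0 v w
  have hz : ∀ v, f v = 0 := by
    intro v
    by_contra hne
    have hpos : 0 < ‖f v‖ := norm_pos_iff.2 hne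
    obtain ⟨n, hn⟩ := exists_nat_gt (2 * C / ‖f v‖)
    have h1 := hg (v + (((n : ℝ), 0) - v))
    rw [hconst v] at h1
    rw [div_lt_iff₀ hpos] at hn
    have e : (v + (((n : ℝ), 0) - v)) = ((n : ℝ), (0 : ℝ)) := by abel
    rw [e] at h1
    have h2 : (n : ℝ) / 2 * ‖f v‖ ≤ (1 + ((n : ℝ) ^ 2 + (0 : ℝ) ^ 2)) / 2 * ‖f v‖ :=
      mul_le_mul_of_nonneg_right (by nlinarith [sq_nonneg ((n : ℝ) - 1)]) (norm_nonneg _)
    linarith
  have h := hz (c 2, c 3)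
  rw [hfd] at h
  rw [eq_cV hc hcb]
  exact h

theorem Sa2 (N : CNet Q H alg S) (Gg : Gnr Q alg S G) (R : H15.Rep Q A) (hJ : IsVirial Q T J)
    {X : D} (hX : InJ Q J X) {c c' : V} (hc : IsNull c) (hcb : GF.mdot c (nu (-1)) = 1)
    (hc' : IsNull c') (hcb' : GF.mdot c' (nu (-1)) = 1) (t : ℝ) :
    vc Q J (nu (-1)) (Wop Q G A c (t • nu (-1)) X) =
      vc Q J (nu (-1)) (Wop Q G A c' (t • nu (-1)) X) := by
  obtain ⟨B, hBd⟩ : ∃ B : D → D, B = Wop Q G A ((1 / 2 : ℝ) • nu 1) (t • nu (-1)) := ⟨_, rfl⟩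
  obtain ⟨f, hfd⟩ : ∃ f : ℝ × ℝ → ℂ, f = fun v =>
      vc Q J (nu (-1)) (Wop Q G A (cV v) (t • nu (-1)) X) := ⟨_, rfl⟩
  have hB : HasAdj B := by
    rw [hBd]
    exact hasAdj_W N Gg R isNull_a0' _
  have hBc : ∀ t v, B (H496.Wd Q t v) = H496.Wd Q t (B v) := by
    intro t v
    rw [hBd, W_Wd N Gg R]
  have hf : ∀ v, f v = vc Q J (nu (-1)) (Q.U 1 GF.one (-((0 : ℝ) • nu (-1)))
      (Rn Q v (B (Rn Q (-v) X)))) := by
    intro v
    have h0 : ∀ w : D, Q.U 1 GF.one (-((0 : ℝ) • nu (-1))) w = w := fun w => by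
      rw [zero_smul, neg_zero]
      exact U1_zero_all (Q := Q) w
    rw [h0, hfd, hBd]
    simp only [W_cV N Gg R]
  obtain ⟨C, hC⟩ := grow2 N Gg R hJ hX t
  have hC0 : ∀ v, ‖f v‖ ≤ C := by
    intro v
    rw [hfd]
    exact hC (cV v) (isNull_cV v) (mdot_cV v)
  have hconst := const_of_bdd N Gg R hJ hB hBc 0 X hf hC0 (c' 2, c' 3) ((c 2, c 3) - (c' 2, c' 3))
  have e : (c' 2, c' 3) + ((c 2, c 3) - (c' 2, c' 3)) = (c 2, c 3) := by abel
  rw [e, hfd] at hconst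
  rw [eq_cV hc hcb, eq_cV hc' hcb']
  exact hconst

end Vale.Agent.P352.N86

end
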