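import Vale.Agent.P352.N86.K.C7a
import Vale.Agent.P352.N86.K.C6
import Vale.Agent.P352.N86.K.C12

/-!
# P352: the deviation operators on the vectors of the virial current
-/

set_option linter.all false

noncomputable section

open MeasureTheory Filter Topology SchwartzMap Complex
open scoped SchwartzMap ComplexConjugate ContDiff LineDeriv

namespace Vale.Agent.P352.N86

open GF (Ix V Fn Fld Theory Sch IsLor bas eta o sim pd tr ev bar)
open H246 H496 H755 H15 H846 H246R H746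
open UniformSpace (Completion)

variable {D : Type*} [NormedAddCommGroup D] [InnerProductSpace ℂ D]
variable {Q : GF.Theory D} {T : Ix → Ix → GF.Fld D} {J : Ix → GF.Fld D}
variable {H : D → D} {alg : Set V → Set (D → D)} {S : V → ℝ → D → D} {G : V → D → D}
variable {A : (V → V) → D → D} {l : Fn → Completion D}

lemma c7_null_smul {r : ℝ} (hr : 0 < r) {a : V} (ha : IsNull a) : IsNull (r • a) :=
  ⟨by rw [md_smul, md_smul_l, ha.1, mul_zero, mul_zero], mul_pos hr ha.2⟩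

/-- the frame: a Lorentz transformation takes `nu (-1)` to a multiple of `b`, and a multiple of a
null vector `c'` with `c'·nu (-1) = 1` to a multiple of `c` -/
lemma c7_frame {b c : V} (hb : IsNull b) (hc : IsNull c) (hcb : 0 < GF.mdot c b) :
    ∃ (L : Ix → V) (c' : V), IsLor L ∧ sim 1 L 0 (nu (-1)) = (b 0)⁻¹ • b ∧
      IsNull c' ∧ sim 1 L 0 c' = (b 0 / GF.mdot c b) • c ∧ GF.mdot c' (nu (-1)) = 1 := by
  obtain ⟨θ, ψ, hrot⟩ := exists_rot hb
  have hL := isLor_Rt θ ψ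
  have hb0 : 0 < b 0 := hb.2
  have hr : 0 < b 0 / GF.mdot c b := div_pos hb0 hcb
  refine ⟨Rt θ ψ, (b 0 / GF.mdot c b) • sim 1 (linv (Rt θ ψ)) 0 c, hL, hrot,
    c7_null_smul hr (isNull_lor (isLor_linv hL) hc), ?_, ?_⟩
  · rw [simL_smul, sim_linv hL]
  · have h2 : GF.mdot (sim 1 (linv (Rt θ ψ)) 0 c) (nu (-1)) = GF.mdot c ((b 0)⁻¹ • b) := by
      rw [← md_LL hL, sim_linv hL, hrot]
    rw [md_smul_l, h2, md_smul]
    field_simp

section

variable (N : CNet Q H alg S) (Gg : Gnr Q alg S G) (R : H15.Rep Q A) (hJ : IsVirial Q T J)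
include N Gg R

/-- the deviation operators in the frame -/
lemma c7_W {L : Ix → V} (hL : IsLor L) {c c' : V} (hc : IsNull c) (hc' : IsNull c') {r : ℝ}
    (hr : 0 < r) (h : sim 1 L 0 c' = r • c) {x y : V}
    (hxy : GF.mdot c x = GF.mdot c (sim 1 L 0 y)) (X : D) :
    Wop Q G A c x X = ((r⁻¹ : ℝ) : ℂ) • Q.U 1 L 0 (Wop Q G A c' y (Q.U 1 (linv L) 0 X)) := by
  rw [W_cov N Gg R one_pos hr hL hc' hc h, U_linv N hL, W_dep N Gg R hc hxy, smul_smul, div_one,
    ← ofReal_mul, inv_mul_cancel₀ hr.ne', ofReal_one, one_smul]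

include hJ

/-- additivity in general frames, first step -/
lemma c7_Sa1b {X : D} (hX : InJ Q J X) {c b : V} (hc : IsNull c) (hb : IsNull b)
    (hcb : 0 < GF.mdot c b) (u : ℝ) (y z : V) : vc Q J b (Q.U 1 GF.one (-(u • b))
      (Wop Q G A c (y + z) X - Wop Q G A c y X - Wop Q G A c z X)) = 0 := by
  obtain ⟨L, c', hL, hrot, hc', hLc, hcb'⟩ := c7_frame hb hc hcb
  have hb0 : 0 < b 0 := hb.2
  have hr : 0 < b 0 / GF.mdot c b := div_pos hb0 hcb
  have e : ∀ x : V, GF.mdot c x =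
      GF.mdot c (sim 1 L 0 ((b 0 / GF.mdot c b * GF.mdot c x) • nu (-1))) := by
    intro x
    rw [simL_smul, hrot, md_smul, md_smul]
    field_simp
  have w : ∀ x : V, Wop Q G A c x X = (((b 0 / GF.mdot c b)⁻¹ : ℝ) : ℂ) • Q.U 1 L 0
      (Wop Q G A c' ((b 0 / GF.mdot c b * GF.mdot c x) • nu (-1)) (Q.U 1 (linv L) 0 X)) :=
    fun x => c7_W N Gg R hL hc hc' hr hLc (e x) X
  have hsum : b 0 / GF.mdot c b * GF.mdot c (y + z) =
      b 0 / GF.mdot c b * GF.mdot c y + b 0 / GF.mdot c b * GF.mdot c z := by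
    rw [md_add, mul_add]
  rw [w, w y, w z, hsum, ← smul_sub, ← smul_sub, ← H246.U_sub' one_pos hL, ← H246.U_sub' one_pos hL,
    U_smul one_pos isLor_one]
  have hu : u • b = sim 1 L 0 ((u * b 0) • nu (-1)) := by
    rw [simL_smul, hrot, smul_smul]
    congr 1
    field_simp
  rw [hu, c7_UL N hL, c7_vc_smul N hJ, c7_vc_rot N hJ hL (inv_pos.2 hb0).ne' hrot,
    Sa1 N Gg R hJ (InJ_U N hJ hX one_pos (isLor_linv hL) 0) hc' hcb']
  simp

/-- additivity in general frames -/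
lemma c7_Sa1c {X : D} (hX : InJ Q J X) {c b : V} (hc : IsNull c) (hb : IsNull b)
    (hcb : 0 < GF.mdot c b) (x y z : V) : vc Q J b (Q.U 1 GF.one (-x)
      (Wop Q G A c (y + z) X - Wop Q G A c y X - Wop Q G A c z X)) = 0 := by
  set u : ℝ := GF.mdot c x / GF.mdot c b with hu
  set w : V := x - u • b with hw
  have hcw : GF.mdot c (-w) = 0 := by
    have h1 : GF.mdot c (-w) = -GF.mdot c w := by
      have := md_smul c (-1) w
      rwa [neg_one_smul, neg_one_mul] at this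
    rw [h1, hw, md_sub, md_smul, hu]
    field_simp
    ring
  have e : -x = -(u • b) + -w := by rw [hw]; abel
  have h1 := c7_Sa1b N Gg R hJ (InJ_U N hJ hX one_pos isLor_one (-w)) hc hb hcb u y z
  rw [W_comm N Gg R hc hcw, W_comm N Gg R hc hcw, W_comm N Gg R hc hcw, ← H246.U_sub' one_pos isLor_one,
    ← H246.U_sub' one_pos isLor_one, c7_UU, ← e] at h1
  exact h1

/-- additivity -/
lemma c7_add {X : D} (hX : InJ Q J X) {c : V} (hc : IsNull c) (m : Ix) (x y z : V) :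
    vj Q J m (Q.U 1 GF.one (-x) (Wop Q G A c (y + z) X)) =
      vj Q J m (Q.U 1 GF.one (-x) (Wop Q G A c y X)) +
      vj Q J m (Q.U 1 GF.one (-x) (Wop Q G A c z X)) := by
  have h := c7_span hc hc (L := fun m => vj Q J m (Q.U 1 GF.one (-x)
      (Wop Q G A c (y + z) X - Wop Q G A c y X - Wop Q G A c z X)))
      (fun b hb hcb _ => c7_Sa1c N Gg R hJ hX hc hb hcb x y z) m
  simp only [H246.U_sub' one_pos isLor_one, c7_vj_sub N hJ] at h
  linear_combination h

/-- linearity -/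
lemma c7_lin {X : D} (hX : InJ Q J X) {c : V} (hc : IsNull c) (m : Ix) (x y : V) :
    vj Q J m (Q.U 1 GF.one (-x) (Wop Q G A c y X)) = (GF.mdot c y : ℂ) *
      ((((c 0)⁻¹ : ℝ) : ℂ) * vj Q J m (Q.U 1 GF.one (-x) (Wop Q G A c (bas o 1) X))) := by
  have hc0 : 0 < c 0 := hc.2
  have hbas : ∀ s t : ℝ, bas o (s + t) = bas o s + bas o t := by
    intro s t
    funext n
    simp only [bas, Pi.add_apply]
    split_ifs <;> simp
  have hmb : ∀ t : ℝ, GF.mdot c (bas o t) = c 0 * t := by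
    intro t
    rw [gf_mdot]
    simp [bas, o]
  set g : ℝ → ℂ := fun t => vj Q J m (Q.U 1 GF.one (-x) (Wop Q G A c (bas o t) X)) with hg
  have hadd : ∀ s t, g (s + t) = g s + g t := by
    intro s t
    simp only [hg]
    rw [hbas, c7_add N Gg R hJ hX hc]
  have g0 : g 0 = 0 := by
    have := hadd 0 0
    rw [add_zero] at this
    linear_combination -this
  have gneg : ∀ t, g (-t) = -g t := by
    intro t
    have := hadd t (-t)
    rw [add_neg_cancel, g0] at this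
    linear_combination -this
  obtain ⟨C, n, hC, hb⟩ := c7_vj_bd N hJ m
  obtain ⟨C', hC'⟩ := lip_W N Gg R hc n 1 X
  have hbd : ∀ τ : ℝ, 0 < τ → τ ≤ 1 → ‖g τ‖ ≤ C * |C'| * τ := by
    intro τ h0 h1
    refine (hb _ _).trans ?_
    have h2 := hC' τ h0 h1
    rw [mul_one] at h2
    calc C * ‖pw1 H n (Wop Q G A c (bas o τ) X)‖ ≤ C * (|C'| * τ) := by
          refine mul_le_mul_of_nonneg_left (h2.trans ?_) hC
          exact mul_le_mul_of_nonneg_right (le_abs_self _) h0.le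
      _ = _ := by ring
  have hbd' : ∀ τ : ℝ, |τ| ≤ 1 → ‖g τ‖ ≤ C * |C'| * |τ| := by
    intro τ h1
    rcases lt_trichotomy τ 0 with h | h | h
    · have h2 := hbd (-τ) (neg_pos.2 h) (by rw [← abs_of_neg h]; exact h1)
      rw [gneg, norm_neg] at h2
      rwa [abs_of_neg h]
    · rw [h, g0]; simp
    · rw [abs_of_pos h] at h1 ⊢
      exact hbd τ h h1
  set G' : ℝ →+ ℂ := ⟨⟨g, g0⟩, hadd⟩ with hG'
  have hcont : Continuous G' := by
    apply continuous_of_continuousAt_zero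
    have h1 : Tendsto (fun τ : ℝ => C * |C'| * |τ|) (𝓝 0) (𝓝 0) := by
      have : Continuous fun τ : ℝ => C * |C'| * |τ| := by fun_prop
      simpa using this.tendsto 0
    have h2 : Tendsto G' (𝓝 0) (𝓝 0) := by
      refine squeeze_zero_norm' ?_ h1
      have h3 : ∀ᶠ τ : ℝ in 𝓝 0, |τ| ≤ 1 := by
        have : Tendsto (fun τ : ℝ => |τ|) (𝓝 0) (𝓝 0) := by
          simpa using (continuous_abs (G := ℝ)).tendsto 0
        exact (this.eventually (gt_mem_nhds one_pos)).mono fun τ h => h.le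
      filter_upwards [h3] with τ hτ
      exact hbd' τ hτ
    show Tendsto G' (𝓝 0) (𝓝 (G' 0))
    rwa [map_zero]
  have hlin : ∀ t, g t = t * g 1 := by
    intro t
    have h1 := map_real_smul G' hcont t (1 : ℝ)
    rw [smul_eq_mul, mul_one] at h1
    have h2 : g t = t • g 1 := h1
    rw [h2, real_smul]
  have h1 : GF.mdot c y = GF.mdot c (bas o (GF.mdot c y * (c 0)⁻¹)) := by
    rw [hmb]
    field_simp
  rw [W_dep N Gg R hc h1]
  show g (GF.mdot c y * (c 0)⁻¹) = _ * (_ * g 1)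
  rw [hlin]
  push_cast
  ring

/-- the values along an orbit -/
lemma c7_tr {X : D} (hX : InJ Q J X) {c : V} (hc : IsNull c) (m : Ix) (x z : V) :
    vj Q J m (Q.U 1 GF.one (-x) (Wop Q G A c z X)) =
      vj Q J m (Wop Q G A c z (Q.U 1 GF.one (-x) X)) := by
  have h1 := W_cocycle N Gg R hc z (-x) X
  have h2 := c7_add N Gg R hJ hX hc m x z (-x)
  rw [h1, U_add one_pos isLor_one, c7_vj_add N hJ, c7_UU, neg_neg, neg_add_cancel, c7_U0] at h2
  linear_combination -h2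

/-- independence of the null direction in general frames -/
lemma c7_Sa2b {X : D} (hX : InJ Q J X) {c c' b : V} (hc : IsNull c) (hc' : IsNull c')
    (hb : IsNull b) (hcb : GF.mdot c b = 1) (hcb' : GF.mdot c' b = 1) :
    vc Q J b (Wop Q G A c b X) = vc Q J b (Wop Q G A c' b X) := by
  have hb0 : 0 < b 0 := hb.2
  obtain ⟨θ, ψ, hrot⟩ := exists_rot hb
  have hL := isLor_Rt θ ψ
  set L := Rt θ ψ with hLd
  have key : ∀ d : V, IsNull d → GF.mdot d b = 1 →
      vc Q J b (Wop Q G A d b X) = vc Q J (nu (-1)) (Wop Q G A (b 0 • sim 1 (linv L) 0 d)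
        (b 0 • nu (-1)) (Q.U 1 (linv L) 0 X)) ∧ IsNull (b 0 • sim 1 (linv L) 0 d) ∧
        GF.mdot (b 0 • sim 1 (linv L) 0 d) (nu (-1)) = 1 := by
    intro d hd hdb
    have hn : IsNull (b 0 • sim 1 (linv L) 0 d) := c7_null_smul hb0 (isNull_lor (isLor_linv hL) hd)
    have h1 : sim 1 L 0 (b 0 • sim 1 (linv L) 0 d) = b 0 • d := by
      rw [simL_smul, sim_linv hL]
    have h2 : b = sim 1 L 0 (b 0 • nu (-1)) := by
      rw [simL_smul, hrot, smul_smul, mul_inv_cancel₀ hb0.ne', one_smul]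
    refine ⟨?_, hn, ?_⟩
    · rw [c7_W N Gg R hL hd hn hb0 h1 (x := b) (y := b 0 • nu (-1)) (by rw [← h2]),
        c7_vc_smul N hJ, c7_vc_rot N hJ hL (inv_pos.2 hb0).ne' hrot, ← mul_assoc, inv_inv,
        ← ofReal_mul, inv_mul_cancel₀ hb0.ne', ofReal_one, one_mul]
    · rw [md_smul_l, ← md_LL hL, sim_linv hL, hrot, md_smul, hdb]
      field_simp
  obtain ⟨h1, h2, h3⟩ := key c hc hcb
  obtain ⟨h1', h2', h3'⟩ := key c' hc' hcb'
  rw [h1, h1']
  exact Sa2 N Gg R hJ (InJ_U N hJ hX one_pos (isLor_linv hL) 0) h2 h3 h2' h3' (b 0)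

/-- the component of the values in a null direction, normalised -/
lemma c7_norm {X : D} (hX : InJ Q J X) {c b : V} (hc : IsNull c) (hb : IsNull b)
    (hcb : 0 < GF.mdot c b) : vc Q J b (Wop Q G A ((GF.mdot c b)⁻¹ • c) b X) =
      ∑ m, ((GF.eta m * b m : ℝ) : ℂ) *
        ((((c 0)⁻¹ : ℝ) : ℂ) * vj Q J m (Wop Q G A c (bas o 1) X)) := by
  rw [W_scale N Gg R hc (inv_pos.2 hcb), c7_vc_smul N hJ]
  unfold vc
  rw [Finset.mul_sum]
  refine Finset.sum_congr rfl fun m _ => ?_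
  have h1 := c7_lin N Gg R hJ hX hc m 0 b
  rw [neg_zero, c7_U0, c7_U0] at h1
  rw [h1]
  have h2 : (((GF.mdot c b)⁻¹ : ℝ) : ℂ) * (GF.mdot c b : ℂ) = 1 := by
    rw [← ofReal_mul, inv_mul_cancel₀ hcb.ne', ofReal_one]
  linear_combination (((GF.eta m * b m : ℝ) : ℂ) *
        ((((c 0)⁻¹ : ℝ) : ℂ) * vj Q J m (Wop Q G A c (bas o 1) X))) * h2

/-- independence of the null direction -/
lemma c7_ind {X : D} (hX : InJ Q J X) {c : V} (hc : IsNull c) (m : Ix) :
    (((c 0)⁻¹ : ℝ) : ℂ) * vj Q J m (Wop Q G A c (bas o 1) X) = zj Q J G A m X := by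
  have hn : IsNull (nu (-1)) := isNull_nu (Or.inr rfl)
  have h := c7_span hc hn (L := fun m => (((c 0)⁻¹ : ℝ) : ℂ) *
      vj Q J m (Wop Q G A c (bas o 1) X) - (((nu (-1) 0)⁻¹ : ℝ) : ℂ) *
      vj Q J m (Wop Q G A (nu (-1)) (bas o 1) X)) (fun b hb hcb hnb => by
    have h1 := c7_norm N Gg R hJ hX hc hb hcb
    have h2 := c7_norm N Gg R hJ hX hn hb hnb
    have h3 := c7_Sa2b N Gg R hJ hX (c7_null_smul (inv_pos.2 hcb) hc)
      (c7_null_smul (inv_pos.2 hnb) hn) hb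
      (by rw [md_smul_l, inv_mul_cancel₀ hcb.ne']) (by rw [md_smul_l, inv_mul_cancel₀ hnb.ne'])
    rw [h1, h2] at h3
    simp only [mul_sub, Finset.sum_sub_distrib]
    rw [h3, sub_self]) m
  have e : nu (-1) 0 = 1 := by simp [nu]
  simp only [e, inv_one, ofReal_one, one_mul] at h
  unfold zj
  linear_combination h

theorem S1 {X : D} (hX : InJ Q J X) {c : V} (hc : IsNull c) (y x : V) (m : Ix) :
    vj Q J m (Q.U 1 GF.one (-x) (Wop Q G A c y X)) =
      (GF.mdot c y : ℂ) * zj Q J G A m (Q.U 1 GF.one (-x) X) := by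
  have hX' : InJ Q J (Q.U 1 GF.one (-x) X) := InJ_U N hJ hX one_pos isLor_one (-x)
  have h1 := c7_lin N Gg R hJ hX' hc m 0 y
  rw [neg_zero, c7_U0, c7_U0] at h1
  rw [c7_tr N Gg R hJ hX hc, h1, c7_ind N Gg R hJ hX' hc]

end

end Vale.Agent.P352.N86

end
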