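import Vale.Agent.P352.N86.K.C1
import Vale.Agent.P352.N86.K.C2
import Vale.Agent.P352.N86.K.C7
import Vale.Agent.P352.N86.K.C12

/-!
# P352, block C8 (a): the key bound
-/

set_option linter.all false

noncomputable section

open MeasureTheory Filter Topology SchwartzMap Complex
open scoped SchwartzMap ComplexConjugate ContDiff LineDeriv

namespace Vale.Agent.P352.N86

open GF (Ix V Fn Fld Theory Sch IsLor bas eta o sim pd tr ev bar)
open H246 H496 H755 H15 H846 H246R H746
open UniformSpace (Completion)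

variable {D : Type*} [NormedAddCommGroup D] [InnerProductSpace ℂ D]
variable {Q : GF.Theory D} {T : Ix → Ix → GF.Fld D} {J : Ix → GF.Fld D}
variable {H : D → D} {alg : Set V → Set (D → D)} {S : V → ℝ → D → D} {G : V → D → D}
variable {A : (V → V) → D → D} {l : Fn → Completion D}

/-! ### Affine vector fields -/

lemma c8_isSim_add {r r' : ℝ} {X X' : V → V} (hX : IsSim r X) (hX' : IsSim r' X') (c : ℝ) :
    IsSim (r + c * r') (fun z => X z + c • X' z) := by
  obtain ⟨d, w, hw, hz⟩ := hX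
  obtain ⟨d', w', hw', hz'⟩ := hX'
  refine ⟨d + c • d', fun m n => w m n + c * w' m n, fun m n => ?_, fun z n => ?_⟩
  · linear_combination hw m n + c * hw' m n
  · simp only [Pi.add_apply, Pi.smul_apply, smul_eq_mul, hz, hz', Fin.sum_univ_four]
    ring

lemma c8_A_sum (R : H15.Rep Q A) {ι : Type*} (s : Finset ι) (c : ι → ℝ) (X : ι → V → V)
    (r : ι → ℝ) (hX : ∀ i, IsSim (r i) (X i)) (v : D) :
    (∃ r', IsSim r' fun z => ∑ i ∈ s, c i • X i z) ∧
      A (fun z => ∑ i ∈ s, c i • X i z) v = ∑ i ∈ s, (c i : ℂ) • A (X i) v := by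
  classical
  induction s using Finset.induction_on with
  | empty =>
    simp only [Finset.sum_empty]
    exact ⟨⟨0, const_sim 0⟩, A_zero' R v⟩
  | insert i s hi ih =>
    obtain ⟨⟨r', h1⟩, h2⟩ := ih
    have e : (fun z => ∑ j ∈ insert i s, c j • X j z) =
        fun z => (∑ j ∈ s, c j • X j z) + c i • X i z := by
      funext z
      rw [Finset.sum_insert hi, add_comm]
    rw [e]
    refine ⟨⟨_, c8_isSim_add h1 (hX i) (c i)⟩, ?_⟩
    rw [R.add r' (r i) (c i) _ _ v h1 (hX i), h2, Finset.sum_insert hi, add_comm]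

/-- infinitesimal null rotations and boosts -/
def c8_E (a : V) (n : Ix) (z : V) : V := (2 * GF.mdot a z) • GF.one n - (2 * GF.eta n * z n) • a

/-- quadratic coefficients -/
def c8_q (a : V) (n : Ix) (x : V) : ℝ := -(2 * GF.mdot a x) * x n + GF.mdot x x * a n

lemma c8_isSim_E (a : V) (n : Ix) : IsSim 0 (c8_E a n) := by
  refine ⟨0, fun m k => 2 * (GF.eta m * a m) * GF.one n k - 2 * GF.eta n * GF.one n m * a k,
    fun m k => ?_, fun z k => ?_⟩
  · fin_cases n <;> fin_cases m <;> fin_cases k <;> simp [GF.one, bas, GF.eta, o] <;> ring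
  · unfold c8_E
    simp only [GF.mdot, Fin.sum_univ_four, Pi.sub_apply, Pi.smul_apply, smul_eq_mul, Pi.zero_apply]
    fin_cases n <;> fin_cases k <;> simp [GF.one, bas] <;> ring

lemma c8_isSim_id : IsSim 1 (fun z => z) := by
  refine ⟨0, fun _ _ => 0, fun m n => by ring, fun z n => by simp⟩

lemma c8_dec (a x z : V) : Yx a x (z - x) = (2 * GF.mdot a x) • z + ∑ n, x n • c8_E a n z +
    ∑ n, c8_q a n x • GF.one n := by
  funext k
  simp only [Yx, cK, c8_E, c8_q, GF.mdot, Fin.sum_univ_four, Pi.sub_apply, Pi.smul_apply,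
    smul_eq_mul, Pi.add_apply]
  fin_cases k <;> simp [GF.one, bas, GF.eta, o] <;> ring

/-- the index set of the terms -/
abbrev c8_ι : Type := Unit ⊕ (Ix ⊕ Ix)

/-- the fields -/
def c8_X (a : V) : c8_ι → V → V
  | Sum.inl _ => fun z => z
  | Sum.inr (Sum.inl n) => c8_E a n
  | Sum.inr (Sum.inr n) => fun _ => GF.one n

/-- the coefficients -/
def c8_c (a : V) : c8_ι → V → ℝ
  | Sum.inl _ => fun x => 2 * GF.mdot a x
  | Sum.inr (Sum.inl n) => fun x => x n
  | Sum.inr (Sum.inr n) => c8_q a n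

/-- the rates of expansion -/
def c8_r : c8_ι → ℝ
  | Sum.inl _ => 1
  | Sum.inr _ => 0

lemma c8_isSim (a : V) (i : c8_ι) : IsSim (c8_r i) (c8_X a i) := by
  rcases i with i | i | i
  · exact c8_isSim_id
  · exact c8_isSim_E a i
  · exact const_sim _

lemma c8_mq (a : V) (i : c8_ι) : Mq (c8_c a i) := by
  rcases i with i | i | i
  · exact (Mq.const 2).mul (Mq.mdot a)
  · exact Mq.coord i
  · refine (((Mq.const (-1)).mul ((Mq.const 2).mul (Mq.mdot a))).mul (Mq.coord i)).add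
      (Mq.mdots.mul (Mq.const (a i))) |>.congr fun x => ?_
    show c8_q a i x = _
    unfold c8_q
    ring

lemma c8_sum (a x z : V) : Yx a x (z - x) = ∑ i, c8_c a i x • c8_X a i z := by
  rw [c8_dec, Fintype.sum_sum_type, Fintype.sum_sum_type]
  simp only [Finset.univ_unique, Finset.sum_singleton, c8_c, c8_X]
  rw [add_assoc]

/-- the generator with the field `Yx` on translated vectors -/
lemma c8_A (R : H15.Rep Q A) (a x : V) (v : D) : A (Yx a x) (Q.U 1 GF.one (-x) v) =
    Q.U 1 GF.one (-x) (∑ i, (c8_c a i x : ℂ) • A (c8_X a i) v) := by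
  have h1 := A_tra R (isSim_Yx a x) (-x) v
  have h2 := congrArg (Q.U 1 GF.one (-x)) h1
  rw [Uadd1, neg_neg, neg_add_cancel, Uone] at h2
  rw [h2]
  congr 1
  rw [← (c8_A_sum R Finset.univ (fun i => c8_c a i x) (c8_X a) c8_r (c8_isSim a) v).2]
  congr 1
  funext z
  rw [← c8_sum, sub_eq_add_neg]

/-! ### The bound -/

section

variable (N : CNet Q H alg S) (hJ : IsVirial Q T J)
include N hJ

lemma c8_bound {ι : Type*} [Fintype ι] (B : ι → D → D)
    (hB : ∀ j v w, inner ℂ (B j v) w = inner ℂ v (B j w)) (p : ι → V → ℝ) (hp : ∀ j, Mq (p j))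
    (i : Ix) (F : 𝓢(Mink, ℂ)) : ∃ C : ℝ, ∀ (X : D) (f : Mink → ℂ),
      (∀ x : Mink, f x = ∑ j, (p j x.ofLp : ℂ) * vj Q J i (U1 Q (-x) (B j X))) →
      ‖∫ x : Mink, conj (F x) * f x‖ ≤ C * ‖X‖ := by
  have hf : ∀ m, Q.fld (J m) := fun m => Q.bose_fld _ (hJ.bose m)
  choose h0 M hM using hp
  refine ⟨∑ j, ‖B j (J i (fl (M j F)) Q.vac)‖, fun X f hfx => ?_⟩
  have hMx : ∀ j (x : Mink), conj (M j F x) = (p j x.ofLp : ℂ) * conj (F x) := by
    intro j x
    have h1 : M j F x = (p j x.ofLp : ℂ) * F x := congrFun (hM j F) x.ofLp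
    rw [h1, map_mul, conj_ofReal]
  have hint : ∀ j, Integrable fun x : Mink =>
      conj (M j F x) * vj Q J i (U1 Q (-x) (B j X)) := by
    intro j
    obtain ⟨C, hC⟩ := bdd_vj N.toNet hf i (B j X)
    have h1 : Integrable fun x : Mink => conj (M j F x) :=
      Complex.conjCLE.toContinuousLinearMap.integrable_comp (M j F).integrable
    exact h1.mul_bdd (c := C) (cont_vj N.toNet hf i (B j X)).aestronglyMeasurable
      (Eventually.of_forall fun x => hC (-x))
  have h2 : ∫ x : Mink, conj (F x) * f x =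
      ∑ j, inner ℂ (B j (J i (fl (M j F)) Q.vac)) X := by
    have h3 : ∀ x : Mink, conj (F x) * f x =
        ∑ j, conj (M j F x) * vj Q J i (U1 Q (-x) (B j X)) := by
      intro x
      rw [hfx x, Finset.mul_sum]
      refine Finset.sum_congr rfl fun j _ => ?_
      rw [hMx]
      ring
    simp only [h3]
    rw [integral_finset_sum _ fun j _ => hint j]
    refine Finset.sum_congr rfl fun j _ => ?_
    rw [hB, ← Completion.inner_coe, vj_rep N.toNet hf]
  rw [h2, Finset.sum_mul]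
  refine (norm_sum_le _ _).trans (Finset.sum_le_sum fun j _ => ?_)
  exact norm_inner_le_norm _ _

lemma c8_vj_sum {ι : Type*} (s : Finset ι) (c : ι → ℂ) (w : ι → D) (m : Ix) :
    vj Q J m (∑ i ∈ s, c i • w i) = ∑ i ∈ s, c i * vj Q J m (w i) := by
  have hf : ∀ m, Q.fld (J m) := fun m => Q.bose_fld _ (hJ.bose m)
  obtain ⟨μ, K, z, n, hrep⟩ := exists_kc N.toNet hf (bas m 1)
  have hB := pw1_mem N.toNet n
  simp only [vj_eq N.toNet hf hB hrep]
  set ℓ : D →ₗ[ℂ] ℂ :=
    { toFun := fun v => pt (K.J z) (pw1 H n) v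
      map_add' := fun v w => pt_add' N hB _ _ _
      map_smul' := fun c v => pt_smul' N hB _ _ _ } with hℓ
  have h := map_sum ℓ (fun i => c i • w i) s
  simp only [map_smul, smul_eq_mul] at h
  exact h

lemma c8_vj_sub (m : Ix) (v w : D) : vj Q J m (v - w) = vj Q J m v - vj Q J m w := by
  have h := c8_vj_sum N hJ (Finset.univ : Finset (Fin 2)) ![1, -1] ![v, w] m
  simp only [Fin.sum_univ_two, Matrix.cons_val_zero, Matrix.cons_val_one, one_smul, neg_smul,
    one_mul, neg_mul, ← sub_eq_add_neg] at h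
  exact h

lemma c8_U_sum {ι : Type*} (s : Finset ι) (c : ι → ℂ) (w : ι → D) (x : V) :
    Q.U 1 GF.one x (∑ i ∈ s, c i • w i) = ∑ i ∈ s, c i • Q.U 1 GF.one x (w i) := by
  have h := map_sum (UL (Q := Q) one_pos isLor_one x) (fun i => c i • w i) s
  simp only [map_smul] at h
  exact h

end

/-- the operators in the key bound -/
def c8_B (Q : Theory D) (G : V → D → D) (A : (V → V) → D → D) (a : V) : Bool ⊕ c8_ι → D → D
  | Sum.inl true => G a
  | Sum.inl false => Wop Q G A a (bas o 1)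
  | Sum.inr i => A (c8_X a i)

/-- the coefficients in the key bound -/
def c8_p (a : V) : Bool ⊕ c8_ι → V → ℝ
  | Sum.inl true => fun _ => 1
  | Sum.inl false => fun x => -1 * GF.mdot a x
  | Sum.inr i => fun x => -1 * c8_c a i x

/-- the response on translated vectors -/
theorem c8_point (N : CNet Q H alg S) (Gg : Gnr Q alg S G) (R : H15.Rep Q A) (hJ : IsVirial Q T J)
    {X : D} (hX : InJ Q J X) (i : Ix) (x : Mink) :
    vj Q J i (G (nu (-1)) (U1 Q (-x) X)) =
      ∑ j, (c8_p (nu (-1)) j x.ofLp : ℂ) * vj Q J i (U1 Q (-x) (c8_B Q G A (nu (-1)) j X)) := by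
  have ha : IsNull (nu (-1)) := isNull_nu (Or.inr rfl)
  set a := nu (-1) with had
  set y : V := x.ofLp with hy
  have eU : ∀ v, U1 Q (-x) v = Q.U 1 GF.one (-y) v := fun v => rfl
  simp only [eU]
  have hXx : InJ Q J (Q.U 1 GF.one (-y) X) := InJ_U N hJ hX one_pos isLor_one (-y)
  have h1 : Wop Q G A a y (Q.U 1 GF.one (-y) X) =
      Q.U 1 GF.one (-y) (G a X) - G a (Q.U 1 GF.one (-y) X) -
        A (Yx a y) (Q.U 1 GF.one (-y) X) := by
    unfold Wop
    rw [Uadd1, add_neg_cancel, Uone]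
  have h2 : G a (Q.U 1 GF.one (-y) X) = Q.U 1 GF.one (-y) (G a X) -
      A (Yx a y) (Q.U 1 GF.one (-y) X) - Wop Q G A a y (Q.U 1 GF.one (-y) X) := by
    rw [h1]; abel
  have s1 := S1 N Gg R hJ hXx ha y 0 i
  have s2 := S1 N Gg R hJ hX ha (bas o 1) y i
  rw [neg_zero, Uone, Uone] at s1
  have hm : GF.mdot a (bas o 1) = 1 := by
    simp [had, GF.mdot, Fin.sum_univ_four, nu, GF.eta, bas, o]
  rw [hm, ofReal_one, one_mul] at s2
  rw [h2, c8_vj_sub N hJ, c8_vj_sub N hJ, s1, ← s2, c8_A R, c8_U_sum N hJ, c8_vj_sum N hJ]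
  conv_rhs => rw [Fintype.sum_sum_type, Fintype.sum_bool]
  simp only [c8_p, c8_B]
  have e : ∀ i' : c8_ι, ((-1 * c8_c a i' y : ℝ) : ℂ) *
      vj Q J i (Q.U 1 GF.one (-y) (A (c8_X a i') X)) =
      -((c8_c a i' y : ℂ) * vj Q J i (Q.U 1 GF.one (-y) (A (c8_X a i') X))) := by
    intro i'
    push_cast
    ring
  simp only [e, Finset.sum_neg_distrib]
  push_cast
  ring

/-- **The key bound.** -/
theorem c8_key (N : CNet Q H alg S) (Gg : Gnr Q alg S G) (R : H15.Rep Q A) (hJ : IsVirial Q T J)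
    (i : Ix) (F : 𝓢(Mink, ℂ)) : ∃ C : ℝ, ∀ X, InJ Q J X →
      ‖∫ x : Mink, conj (F x) * vj Q J i (G (nu (-1)) (U1 Q (-x) X))‖ ≤ C * ‖X‖ := by
  have ha : IsNull (nu (-1)) := isNull_nu (Or.inr rfl)
  obtain ⟨C, hC⟩ := c8_bound N hJ (c8_B Q G A (nu (-1))) (fun j v w => by
      rcases j with (_ | _) | j
      · exact W_symm N Gg R ha _ v w
      · exact G_adj N Gg ha v w
      · exact A_symm R (c8_isSim _ j) v w)
    (c8_p (nu (-1))) (fun j => by
      rcases j with (_ | _) | j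
      · exact (Mq.const (-1)).mul (Mq.mdot _)
      · exact Mq.const 1
      · exact (Mq.const (-1)).mul (c8_mq _ j)) i F
  exact ⟨C, fun X hX => hC X _ fun x => c8_point N Gg R hJ hX i x⟩

end Vale.Agent.P352.N86

end
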