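import Vale.Agent.P352.N86.K.C8b
import Vale.Agent.P352.N86.K.C8c

/-!
# P352, block C8: the transverse response of the virial current vanishes
-/

set_option linter.all false

noncomputable section

open MeasureTheory Filter Topology SchwartzMap Complex
open scoped SchwartzMap ComplexConjugate ContDiff LineDeriv

namespace Vale.Agent.P352.N86

open GF (Ix V Fn Fld Theory Sch IsLor bas eta o sim pd tr ev bar)
open H246 H496 H755 H15 H846 H246R H746
open UniformSpace (Completion)

variable {D : Type*} [NormedAddCommGroup D] [InnerProductSpace ℂ D]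
variable {Q : GF.Theory D} {T : Ix → Ix → GF.Fld D} {J : Ix → GF.Fld D}
variable {H : D → D} {alg : Set V → Set (D → D)} {S : V → ℝ → D → D} {G : V → D → D}
variable {A : (V → V) → D → D} {l : Fn → Completion D}

theorem Aj (N : CNet Q H alg S) (Gg : Gnr Q alg S G) (R : H15.Rep Q A) (hJ : IsVirial Q T J)
    {X : D} (hX : InJ Q J X) {a e : V} (ha : IsNull a) (he : GF.mdot a e = 0) :
    vc Q J e (G a X) = 0 :=
  Aj_of_key N Gg hJ (fun i _ F => c8_key N Gg R hJ i F) hX ha he

end Vale.Agent.P352.N86

end
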