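import Vale.Agent.P352.N86.K.C5
import Vale.Agent.P352.N86.K.C8
import Vale.Agent.P352.N86.K.C12

/-!
# P352: the values of the virial current on the vectors `G c X`
-/

set_option linter.all false

noncomputable section

open MeasureTheory Filter Topology SchwartzMap Complex
open scoped SchwartzMap ComplexConjugate ContDiff LineDeriv

namespace Vale.Agent.P352.N86

open GF (Ix V Fn Fld Theory Sch IsLor bas eta o sim pd tr ev bar)
open H246 H496 H755 H15 H846 H246R H746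
open UniformSpace (Completion)

variable {D : Type*} [NormedAddCommGroup D] [InnerProductSpace ℂ D]
variable {Q : GF.Theory D} {T : Ix → Ix → GF.Fld D} {J : Ix → GF.Fld D}
variable {H : D → D} {alg : Set V → Set (D → D)} {S : V → ℝ → D → D} {G : V → D → D}
variable {A : (V → V) → D → D} {l : Fn → Completion D}

/-- the value of `c·J(0)` on `G c X` divided by the square of `c` -/
def c9_xi (Q : GF.Theory D) (J : Ix → GF.Fld D) (G : V → D → D) (a : V) (X : D) : ℂ :=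
  (((a 0)⁻¹ : ℝ) : ℂ) * vj Q J o (G a X)

/-- the null vector of the frame -/
def c9_a0 : V := (1 / 2 : ℝ) • nu 1

lemma c9_null_smul {r : ℝ} (hr : 0 < r) {a : V} (ha : IsNull a) : IsNull (r • a) :=
  ⟨by rw [md_smul, md_smul_l, ha.1, mul_zero, mul_zero], mul_pos hr ha.2⟩

lemma c9_null_a0 : IsNull c9_a0 := c9_null_smul (by norm_num) (isNull_nu (Or.inl rfl))

lemma c9_null_m : IsNull (nu (-1)) := isNull_nu (Or.inr rfl)

lemma c9_m0 : nu (-1) 0 = 1 := by simp [nu]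

lemma c9_md (c : V) : GF.mdot c (nu (-1)) = c 0 + c 1 := by
  rw [gf_mdot]
  simp [nu]

/-- the null vectors `c` with `c·nu (-1) = 1` -/
lemma c9_frame {c : V} (hc : IsNull c) (h : GF.mdot c (nu (-1)) = 1) :
    sim 1 (nr (c 2, c 3)) 0 c9_a0 = c := by
  rw [c9_md] at h
  have h1 := hc.1
  rw [gf_mdot] at h1
  have e : c 2 ^ 2 + c 3 ^ 2 = c 0 - c 1 := by
    have : (c 0 + c 1) * (c 0 - c 1) = c 2 ^ 2 + c 3 ^ 2 := by linarith
    rw [h, one_mul] at this
    exact this.symm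
  funext n
  fin_cases n
  · show sim 1 (nr (c 2, c 3)) 0 c9_a0 0 = c 0
    simp [sim, nr, c9_a0, nu, Fin.sum_univ_four, e]
    linarith
  · show sim 1 (nr (c 2, c 3)) 0 c9_a0 1 = c 1
    simp [sim, nr, c9_a0, nu, Fin.sum_univ_four, e]
    linarith
  · show sim 1 (nr (c 2, c 3)) 0 c9_a0 2 = c 2
    simp [sim, nr, c9_a0, nu, Fin.sum_univ_four]
    ring
  · show sim 1 (nr (c 2, c 3)) 0 c9_a0 3 = c 3
    simp [sim, nr, c9_a0, nu, Fin.sum_univ_four]
    ring

lemma c9_boost (t : ℝ) : sim 1 (mBoost t) 0 c9_a0 = Real.exp t • c9_a0 := by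
  have h := Real.cosh_add_sinh t
  funext n
  fin_cases n <;> simp [sim, mBoost, c9_a0, nu, Fin.sum_univ_four] <;> linarith

section

variable (N : CNet Q H alg S) (Gg : Gnr Q alg S G)
include N Gg

lemma c9_G_smul {a : V} (ha : IsNull a) {r : ℝ} (hr : 0 < r) (v : D) :
    G (r • a) v = ((r : ℝ) : ℂ) • G a v := by
  have h : sim 1 GF.one 0 (r • a) = r • a := by
    rw [H755.sim_one', add_zero]
  have h1 := H246R.G_cov N Gg.der one_pos hr isLor_one (c9_null_smul hr ha) ha h v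
  have e : ∀ w : D, Q.U 1 GF.one 0 w = w := fun w => U1_zero_all (Q := Q) w
  rw [e, e, div_one] at h1
  exact h1

lemma c9_G_U {L : Ix → V} (hL : IsLor L) {a : V} (ha : IsNull a) (v : D) :
    G (sim 1 L 0 a) (Q.U 1 L 0 v) = Q.U 1 L 0 (G a v) := by
  have h1 := H246R.G_cov N Gg.der one_pos one_pos hL ha (isNull_lor hL ha)
    (one_smul ℝ (sim 1 L 0 a)).symm v
  rw [h1, div_one, ofReal_one, one_smul]

lemma c9_Wd (t : ℝ) (v : D) : G c9_a0 (H496.Wd Q t v) = H496.Wd Q t (G c9_a0 v) := by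
  have h1 := H246R.G_cov N Gg.der (Real.exp_pos t) (Real.exp_pos t) (isLor_boost t) c9_null_a0
    c9_null_a0 (c9_boost t) v
  rw [div_self (Real.exp_pos t).ne', ofReal_one, one_smul] at h1
  exact h1.symm

variable (R : H15.Rep Q A) (hJ : IsVirial Q T J)
include R hJ

/-- the values on `G a X` are proportional to `a` -/
lemma c9_prop {X : D} (hX : InJ Q J X) {a : V} (ha : IsNull a) (m : Ix) :
    vj Q J m (G a X) = (a m : ℂ) * c9_xi Q J G a X := by
  have ha0 : 0 < a 0 := ha.2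
  have ha0' : (a 0 : ℂ) ≠ 0 := by exact_mod_cast ha0.ne'
  unfold c9_xi
  have ho : vj Q J o (G a X) = vj Q J 0 (G a X) := rfl
  rw [ho, ofReal_inv]
  have key : ∀ e : V, GF.mdot a e = 0 → (e 0 : ℂ) * vj Q J 0 (G a X) - (e 1 : ℂ) *
      vj Q J 1 (G a X) - (e 2 : ℂ) * vj Q J 2 (G a X) - (e 3 : ℂ) * vj Q J 3 (G a X) = 0 := by
    intro e he
    have h := Aj N Gg R hJ hX ha he
    unfold vc at h
    rw [Fin.sum_univ_four, eta_0, eta_1, eta_2, eta_3] at h
    push_cast at h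
    linear_combination h
  fin_cases m
  · show vj Q J 0 (G a X) = (a 0 : ℂ) * (((a 0 : ℝ) : ℂ)⁻¹ * vj Q J 0 (G a X))
    field_simp
  · show vj Q J 1 (G a X) = (a 1 : ℂ) * (((a 0 : ℝ) : ℂ)⁻¹ * vj Q J 0 (G a X))
    have h := key ![a 1, a 0, 0, 0] (by rw [gf_mdot]; simp; ring)
    simp at h
    field_simp
    linear_combination -h
  · show vj Q J 2 (G a X) = (a 2 : ℂ) * (((a 0 : ℝ) : ℂ)⁻¹ * vj Q J 0 (G a X))
    have h := key ![a 2, 0, a 0, 0] (by rw [gf_mdot]; simp; ring)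
    simp at h
    field_simp
    linear_combination -h
  · show vj Q J 3 (G a X) = (a 3 : ℂ) * (((a 0 : ℝ) : ℂ)⁻¹ * vj Q J 0 (G a X))
    have h := key ![a 3, 0, 0, a 0] (by rw [gf_mdot]; simp; ring)
    simp at h
    field_simp
    linear_combination -h

lemma c9_scale (X : D) {a : V} (ha : IsNull a) {r : ℝ} (hr : 0 < r) :
    c9_xi Q J G (r • a) X = c9_xi Q J G a X := by
  unfold c9_xi
  rw [c9_G_smul N Gg ha hr, vj_smul N hJ]
  have e : (r • a) 0 = r * a 0 := rfl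
  have ha0 : 0 < a 0 := ha.2
  have ha0' : (a 0 : ℂ) ≠ 0 := by exact_mod_cast ha0.ne'
  have hr' : (r : ℂ) ≠ 0 := by exact_mod_cast hr.ne'
  rw [e]
  push_cast
  field_simp

lemma c9_lor {X : D} (hX : InJ Q J X) {a : V} (ha : IsNull a) {L : Ix → V} (hL : IsLor L) :
    c9_xi Q J G (sim 1 L 0 a) (Q.U 1 L 0 X) = c9_xi Q J G a X := by
  have hn : 0 < sim 1 L 0 a 0 := (isNull_lor hL ha).2
  have h1 : vj Q J o (G (sim 1 L 0 a) (Q.U 1 L 0 X)) =
      ((sim 1 L 0 a 0 : ℝ) : ℂ) * c9_xi Q J G a X := by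
    rw [c9_G_U N Gg hL ha, vj_cov N hJ one_pos hL, one_pow, inv_one, ofReal_one, one_mul]
    have e : sim 1 L 0 a 0 = ∑ k, a k * L k 0 := by simp [sim]
    rw [e]
    push_cast
    rw [Finset.sum_mul]
    refine Finset.sum_congr rfl fun k _ => ?_
    rw [c9_prop N Gg R hJ hX ha]
    show (L k 0 : ℂ) * _ = _
    ring
  have hn' : ((sim 1 L 0 a 0 : ℝ) : ℂ) ≠ 0 := by exact_mod_cast hn.ne'
  have h2 : c9_xi Q J G (sim 1 L 0 a) (Q.U 1 L 0 X) =
      (((sim 1 L 0 a 0)⁻¹ : ℝ) : ℂ) * vj Q J o (G (sim 1 L 0 a) (Q.U 1 L 0 X)) := rfl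
  rw [h2, h1, ofReal_inv, ← mul_assoc, inv_mul_cancel₀ hn', one_mul]

lemma c9_vc {X : D} (hX : InJ Q J X) {a : V} (ha : IsNull a) (b : V) :
    vc Q J b (G a X) = (GF.mdot b a : ℂ) * c9_xi Q J G a X := by
  unfold vc GF.mdot
  push_cast
  rw [Finset.sum_mul]
  refine Finset.sum_congr rfl fun m _ => ?_
  rw [c9_prop N Gg R hJ hX ha]
  ring

/-- the values are bounded in the direction -/
lemma c9_bdd {X : D} (hX : InJ Q J X) : ∃ C, ∀ a, IsNull a → ‖c9_xi Q J G a X‖ ≤ C := by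
  obtain ⟨g, hg, rfl⟩ := id hX
  have hf : ∀ m, Q.fld (J m) := fun m => Q.bose_fld _ (hJ.bose m)
  obtain ⟨μ, K, w, n, hrep⟩ := exists_kc N.toNet hf (bas o 1)
  have hpt : ∀ v, vj Q J o v = pt (K.J w) (pw1 H n) v :=
    fun v => vj_eq N.toNet hf (pw1_mem N.toNet n) hrep v
  obtain ⟨C, hC⟩ := bdd_rot (Q := Q) (J := J) (ι := Unit) N hJ
    (B := fun _ v => pw1 H n (G (nu (-1)) v)) (fun _ => by
      obtain ⟨Y, -, hY⟩ := N.adj _ _ (N.mul _ _ (pw1_mem N.toNet n) _ (Gg.mem _ c9_null_m))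
      exact ⟨Y, hY⟩) (fun v => ⟨‖pw1 H n (G (nu (-1)) v)‖, fun _ => le_rfl⟩) g
  refine ⟨‖K.J w‖ * C, fun a ha => ?_⟩
  obtain ⟨θ, ψ, hrot⟩ := exists_rot ha
  have hL := isLor_Rt θ ψ
  have ha0 : 0 < a 0 := ha.2
  have h1 : c9_xi Q J G a (jv Q J g) = c9_xi Q J G ((a 0)⁻¹ • a) (jv Q J g) :=
    (c9_scale N Gg R hJ _ ha (inv_pos.2 ha0)).symm
  have h2 := c9_lor N Gg R hJ (InJ_U N hJ hX one_pos (isLor_linv hL) 0) c9_null_m hL
  rw [hrot, U_linv N hL] at h2
  rw [h1, h2]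
  unfold c9_xi
  rw [c9_m0, inv_one, ofReal_one, one_mul, hpt, pt]
  refine (norm_inner_le_norm _ _).trans ?_
  rw [Completion.norm_coe]
  exact mul_le_mul_of_nonneg_left (hC () θ ψ) (norm_nonneg _)

/-- independence of the direction away from one ray -/
lemma c9_ray {X : D} (hX : InJ Q J X) {c : V} (hc : IsNull c) (h : 0 < GF.mdot c (nu (-1))) :
    c9_xi Q J G c X = c9_xi Q J G c9_a0 X := by
  set F : ℝ × ℝ → ℂ := fun p => vc Q J (nu (-1)) (G c9_a0 (Rn Q p X)) with hF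
  -- the values in the frame
  have hfr : ∀ p : ℝ × ℝ, c9_xi Q J G (sim 1 (nr p) 0 c9_a0) X = F (-p) := by
    intro p
    have hn := isNull_lor (isLor_nr p) c9_null_a0
    have h1 := c9_vc N Gg R hJ hX hn (nu (-1))
    have h2 : GF.mdot (nu (-1)) (sim 1 (nr p) 0 c9_a0) = 1 := by
      have h3 := md_LL (isLor_nr p) (nu (-1)) c9_a0
      rw [nr_nu, one_smul] at h3
      rw [h3, gf_mdot]
      simp [nu, c9_a0]
      norm_num
    rw [h2, ofReal_one, one_mul] at h1
    rw [← h1]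
    have h4 := c9_G_U N Gg (isLor_nr p) c9_null_a0 (Rn Q (-p) X)
    have h5 : Q.U 1 (nr p) 0 (Rn Q (-p) X) = X := by
      have := Rn_Rn N p (-p) X
      rw [add_neg_cancel, Rn_zero N] at this
      exact this
    rw [h5] at h4
    rw [h4]
    exact vc_Rn N hJ p _
  -- second differences
  have h2d : ∀ p q : ℝ × ℝ, F (q + (2 : ℝ) • p) - 2 * F (q + p) + F q = 0 := by
    intro p q
    have h1 := lemW N Gg R hJ (B := G c9_a0) ⟨G c9_a0, H496.G_adj N Gg c9_null_a0⟩
      (fun t v => c9_Wd N Gg t v) p 0 (Rn Q q X)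
    have e0 : -((0 : ℝ) • nu (-1)) = (0 : V) := by simp
    have e : ∀ w : D, Q.U 1 GF.one 0 w = w := fun w => U1_zero_all (Q := Q) w
    have hG := H496.G_add N Gg c9_null_a0
    have hGs := H496.G_smul N Gg c9_null_a0
    have e1 : Rn Q ((2 : ℝ) • p) (Rn Q q X) - (2 : ℂ) • Rn Q p (Rn Q q X) + Rn Q q X =
        Rn Q (q + (2 : ℝ) • p) X + (-2 : ℂ) • Rn Q (q + p) X + Rn Q q X := by
      rw [Rn_Rn N, Rn_Rn N, add_comm _ q, add_comm p q, neg_smul, sub_eq_add_neg]
    rw [e0, e, e1, hG, hG, hGs, vc_add N hJ, vc_add N hJ, vc_smul N hJ] at h1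
    simp only [hF]
    linear_combination h1
  -- boundedness
  obtain ⟨C, hC⟩ := c9_bdd N Gg R hJ hX
  have hb : ∀ p, ‖F p‖ ≤ C := by
    intro p
    have h1 := hC _ (isNull_lor (isLor_nr (-p)) c9_null_a0)
    rwa [hfr, neg_neg] at h1
  -- constancy
  have hconst : ∀ p, F p = F 0 := by
    intro p
    have hlin : ∀ n : ℕ, F ((n : ℝ) • p) = F 0 + n * (F p - F 0) ∧
        F (((n : ℝ) + 1) • p) = F 0 + (n + 1) * (F p - F 0) := by
      intro n
      induction n with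
      | zero => constructor <;> simp
      | succ n ih =>
        obtain ⟨i1, i2⟩ := ih
        refine ⟨?_, ?_⟩
        · push_cast
          exact i2
        · have h1 := h2d p ((n : ℝ) • p)
          have e1 : (n : ℝ) • p + (2 : ℝ) • p = (((n + 1 : ℕ) : ℝ) + 1) • p := by
            rw [← add_smul]; congr 1; push_cast; ring
          have e2 : (n : ℝ) • p + p = ((n : ℝ) + 1) • p := by
            rw [add_smul, one_smul]
          rw [e1, e2, i1, i2] at h1
          push_cast at h1 ⊢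
          linear_combination h1
    by_contra hne
    have hd : 0 < ‖F p - F 0‖ := norm_pos_iff.2 (sub_ne_zero.2 hne)
    obtain ⟨n, hn⟩ := exists_nat_gt (2 * C / ‖F p - F 0‖)
    have h1 : (n : ℂ) * (F p - F 0) = F ((n : ℝ) • p) - F 0 := by
      rw [(hlin n).1]; ring
    have h2 : ‖(n : ℂ) * (F p - F 0)‖ ≤ 2 * C := by
      rw [h1]
      refine (norm_sub_le _ _).trans ?_
      linarith [hb ((n : ℝ) • p), hb 0]
    rw [norm_mul, Complex.norm_natCast] at h2
    rw [div_lt_iff₀ hd] at hn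
    linarith
  -- conclusion
  set r : ℝ := (GF.mdot c (nu (-1)))⁻¹ with hr
  have hr0 : 0 < r := inv_pos.2 h
  have h1 : GF.mdot (r • c) (nu (-1)) = 1 := by
    rw [md_smul_l, hr, inv_mul_cancel₀ h.ne']
  have h2 := c9_frame (c9_null_smul hr0 hc) h1
  have h3 := hfr ((r • c) 2, (r • c) 3)
  rw [h2, hconst] at h3
  have h4 := hfr 0
  have h5 : sim 1 (nr 0) 0 c9_a0 = c9_a0 := by
    funext n
    fin_cases n <;> simp [sim, nr, c9_a0, nu, Fin.sum_univ_four]
  rw [h5, neg_zero] at h4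
  rw [← c9_scale N Gg R hJ X hc hr0, h3, h4]

/-- independence of the direction -/
lemma c9_all {X : D} (hX : InJ Q J X) {c : V} (hc : IsNull c) :
    c9_xi Q J G c X = c9_xi Q J G (nu (-1)) X := by
  have hL : IsLor mRot12 := isLor_rot12
  -- the ray of `nu (-1)`
  have h0 : c9_xi Q J G (nu (-1)) X = c9_xi Q J G c9_a0 X := by
    set d : V := ![1, 0, 1, 0] with hd
    set d' : V := ![1, 0, -1, 0] with hd'
    have hdn : IsNull d := ⟨by rw [gf_mdot]; simp [hd], zero_lt_one⟩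
    have hdn' : IsNull d' := ⟨by rw [gf_mdot]; simp [hd'], zero_lt_one⟩
    have hX' := InJ_U N hJ hX one_pos hL 0
    have e1 : sim 1 mRot12 0 (nu (-1)) = nu 1 := by rw [rot12_nu, one_smul]
    have e2 : sim 1 mRot12 0 d = d' := by
      funext n
      fin_cases n <;> simp [sim, mRot12, hd, hd', Fin.sum_univ_four]
    have h1 := c9_lor N Gg R hJ hX c9_null_m hL
    have h2 := c9_lor N Gg R hJ hX hdn hL
    rw [e1] at h1
    rw [e2] at h2
    have h3 := c9_ray N Gg R hJ hX' (isNull_nu (Or.inl rfl) : IsNull (nu 1))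
      (by rw [c9_md]; simp [nu])
    have h4 := c9_ray N Gg R hJ hX' hdn' (by rw [c9_md]; simp [hd'])
    have h5 := c9_ray N Gg R hJ hX hdn (by rw [c9_md]; simp [hd])
    rw [← h1, h3, ← h4, h2, h5]
  by_cases hcb : GF.mdot c (nu (-1)) = 0
  · -- proportional vectors
    have hc0 : 0 < c 0 := hc.2
    rw [c9_md] at hcb
    have h1 := hc.1
    rw [gf_mdot] at h1
    have e1 : c 1 = -c 0 := by linarith
    have e2 : c 2 * c 2 + c 3 * c 3 = 0 := by rw [e1] at h1; linarith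
    have e3 : c 2 = 0 := by nlinarith [mul_self_nonneg (c 2), mul_self_nonneg (c 3)]
    have e4 : c 3 = 0 := by nlinarith [mul_self_nonneg (c 2), mul_self_nonneg (c 3)]
    have h2 : c = c 0 • nu (-1) := by
      funext n
      fin_cases n <;> simp [nu, e1, e3, e4]
    rw [h2, c9_scale N Gg R hJ X c9_null_m hc0]
  · have hpos : 0 < GF.mdot c (nu (-1)) := by
      refine lt_of_le_of_ne ?_ (Ne.symm hcb)
      rw [c9_md]
      have hc0 : 0 < c 0 := hc.2
      have h1 := hc.1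
      rw [gf_mdot] at h1
      by_contra hneg
      push Not at hneg
      nlinarith [mul_self_nonneg (c 2), mul_self_nonneg (c 3)]
    rw [c9_ray N Gg R hJ hX hc hpos, h0]

end

theorem Bj (N : CNet Q H alg S) (Gg : Gnr Q alg S G) (R : H15.Rep Q A) (hJ : IsVirial Q T J)
    {X : D} (hX : InJ Q J X) {c : V} (hc : IsNull c) (m : Ix) :
    vj Q J m (G c X) = (c m : ℂ) * vj Q J o (G (nu (-1)) X) := by
  rw [c9_prop N Gg R hJ hX hc, c9_all N Gg R hJ hX hc]
  congr 1
  unfold c9_xi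
  rw [c9_m0, inv_one, ofReal_one, one_mul]

end Vale.Agent.P352.N86

end
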