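import Vale.Agent.P352.N86.K.C1
import Vale.Agent.P352.N86.K.C2
import Vale.Agent.P352.N86.K.C4
import Vale.Agent.P352.N86.K.C5
import Vale.Agent.P352.N86.K.C7
import Vale.Agent.P352.N86.K.C9
import Vale.Agent.P352.N86.K.C10
import Vale.Agent.P352.N86.K.C11
import Vale.Agent.P352.N86.K.C12

/-!
# P352, block C13: values of covariant functionals on the vectors of the virial current
-/

set_option linter.all false

noncomputable section

open MeasureTheory Filter Topology SchwartzMap Complex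
open scoped SchwartzMap ComplexConjugate ContDiff LineDeriv

namespace Vale.Agent.P352.N86

open GF (Ix V Fn Fld Theory Sch IsLor bas eta o sim pd tr ev bar)
open H246 H496 H755 H15 H846 H246R H746
open UniformSpace (Completion)

variable {D : Type*} [NormedAddCommGroup D] [InnerProductSpace ℂ D]
variable {Q : GF.Theory D} {T : Ix → Ix → GF.Fld D} {J : Ix → GF.Fld D}
variable {H : D → D} {alg : Set V → Set (D → D)} {S : V → ℝ → D → D} {G : V → D → D}
variable {A : (V → V) → D → D} {l : Fn → Completion D}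

/-! ### The potential -/

/-- the data of the point like functional of the potential -/
theorem c13_vl_data (N : CNet Q H alg S) (hl : IsPot Q T l) :
    ∃ (φ : Completion D) (n : ℕ), (∀ v, vl l v = pt φ (pw1 H n) v) ∧
      ∀ F (v : D), inner ℂ (l (fl F)) (v : Completion D) =
        ∫ x : Mink, conj (F x) * pt φ (pw1 H n) (U1 Q (-x) v) := by
  obtain ⟨κ, hκ⟩ := hl.exists_clm
  obtain ⟨φ, φ', φ'', n, h, d1, d2⟩ := exists_pdata N κ (pot_cov hl hκ) 0
  refine ⟨φ, n, fun v => vl_rep N hl hκ h v, fun F v => ?_⟩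
  rw [← hκ, h F v]

theorem c13_vl_rep (N : CNet Q H alg S) (hl : IsPot Q T l) (F : 𝓢(Mink, ℂ)) (v : D) :
    inner ℂ (l (fl F)) (v : Completion D) = ∫ x : Mink, conj (F x) * vl l (U1 Q (-x) v) := by
  obtain ⟨φ, n, h, hr⟩ := c13_vl_data N hl
  simp only [h]
  exact hr F v

theorem c13_vl_add (N : CNet Q H alg S) (hl : IsPot Q T l) (v w : D) :
    vl l (v + w) = vl l v + vl l w := by
  obtain ⟨φ, n, h, -⟩ := c13_vl_data N hl
  simp only [h]
  exact pt_add' N (pw1_mem N.toNet n) _ _ _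

theorem c13_vl_smul (N : CNet Q H alg S) (hl : IsPot Q T l) (c : ℂ) (v : D) :
    vl l (c • v) = c * vl l v := by
  obtain ⟨φ, n, h, -⟩ := c13_vl_data N hl
  simp only [h]
  exact pt_smul' N (pw1_mem N.toNet n) _ _ _

theorem c13_vl_cov (hT : Q.IsStress T) (N : CNet Q H alg S) (hl : IsPot Q T l) {σ : ℝ}
    (hσ : 0 < σ) {L : Ix → V} (hL : IsLor L) (v : D) :
    vl l (Q.U σ L 0 v) = ((σ ^ 2)⁻¹ : ℝ) * vl l v := by
  obtain ⟨φ, n, -, hvl, hq⟩ := exists_vl hT N hl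
  rw [hvl, hvl]
  exact hq σ L v hσ hL

/-! ### The operator `Wop` -/

lemma c13_mdot_e0 : GF.mdot (nu (-1)) (bas o 1) = 1 := by
  simp [GF.mdot, nu, bas, GF.eta, Fin.sum_univ_four, o]

theorem c13_UU (x : V) (v : D) : Q.U 1 GF.one x (Q.U 1 GF.one (-x) v) = v := by
  have h := U1_U1_all (Q := Q) (WithLp.toLp 2 x) (WithLp.toLp 2 (-x)) v
  have e : (WithLp.toLp 2 x : Mink) + WithLp.toLp 2 (-x) = 0 := by ext i; simp
  rw [e, U1_zero_all] at h
  exact h

/-- `S1` for the potential, at the origin -/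
theorem c13_S1l0 (hT : Q.IsStress T) (N : CNet Q H alg S) (Gg : Gnr Q alg S G)
    (R : H15.Rep Q A) (hJ : IsVirial Q T J) (hl : IsPot Q T l) {X : D} (hX : InJ Q J X)
    {c : V} (hc : IsNull c) (y : V) :
    vl l (Wop Q G A c y X) = (GF.mdot c y : ℂ) * zl Q l G A X := by
  have h := vl_zero_of hT N hJ hl (v := Wop Q G A c y X +
      (-(GF.mdot c y : ℂ)) • Wop Q G A (nu (-1)) (bas o 1) X) (fun m x => by
    rw [U_add one_pos isLor_one, U_smul one_pos isLor_one, vj_add N hJ, vj_smul N hJ,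
      S1 N Gg R hJ hX hc y x m, S1 N Gg R hJ hX null_m (bas o 1) x m, c13_mdot_e0]
    push_cast
    ring)
  rw [c13_vl_add N hl, c13_vl_smul N hl] at h
  show _ = _ * vl l (Wop Q G A (nu (-1)) (bas o 1) X)
  linear_combination h

/-- `S1` for the potential -/
theorem c13_S1l (hT : Q.IsStress T) (N : CNet Q H alg S) (Gg : Gnr Q alg S G)
    (R : H15.Rep Q A) (hJ : IsVirial Q T J) (hl : IsPot Q T l) {X : D} (hX : InJ Q J X)
    {c : V} (hc : IsNull c) (y x : V) :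
    vl l (Q.U 1 GF.one (-x) (Wop Q G A c y X)) =
      (GF.mdot c y : ℂ) * zl Q l G A (Q.U 1 GF.one (-x) X) := by
  have hX' : InJ Q J (Q.U 1 GF.one (-x) X) := InJ_U N hJ hX one_pos isLor_one (-x)
  have h1 := W_cocycle N Gg R hc y x (Q.U 1 GF.one (-x) X)
  rw [c13_UU] at h1
  have h2 := congrArg (vl l) h1
  rw [c13_vl_add N hl, c13_S1l0 hT N Gg R hJ hl hX' hc, c13_S1l0 hT N Gg R hJ hl hX' hc,
    gm_add] at h2
  push_cast at h2
  linear_combination -h2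

/-- covariance of `zl` -/
theorem c13_zl_cov (hT : Q.IsStress T) (N : CNet Q H alg S) (Gg : Gnr Q alg S G)
    (R : H15.Rep Q A) (hJ : IsVirial Q T J) (hl : IsPot Q T l) {X : D} (hX : InJ Q J X)
    {σ : ℝ} (hσ : 0 < σ) {L : Ix → V} (hL : IsLor L) :
    zl Q l G A (Q.U σ L 0 X) = ((σ ^ 2)⁻¹ : ℝ) * zl Q l G A X := by
  have hX' : InJ Q J (Q.U σ L 0 X) := InJ_U N hJ hX hσ hL 0
  have hb := isNull_lor hL null_m
  have h1 := W_cov N Gg R hσ one_pos hL null_m hb (one_smul ℝ _).symm (bas o 1) X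
  have h2 := congrArg (vl l) h1
  rw [c13_vl_cov hT N hl hσ hL, c13_vl_smul N hl, c13_S1l0 hT N Gg R hJ hl hX' hb] at h2
  have h3 : GF.mdot (sim 1 L 0 (nu (-1))) (sim σ L 0 (bas o 1)) = σ := by
    have e : sim σ L 0 (bas o 1) = σ • sim 1 L 0 (bas o 1) := by
      funext n
      simp [sim]
    rw [e, gm_smul, mdot_sim hL, c13_mdot_e0, mul_one]
  rw [h3] at h2
  have hσ' : (σ : ℂ) ≠ 0 := by exact_mod_cast hσ.ne'
  have h4 : ((1 / σ : ℝ) : ℂ) * ((σ : ℂ) * zl Q l G A (Q.U σ L 0 X)) = zl Q l G A (Q.U σ L 0 X) := by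
    push_cast
    field_simp
  rw [h4] at h2
  exact h2.symm

/-- covariance of the values of the deformed virial current -/
theorem c13_xi_cov (N : CNet Q H alg S) (Gg : Gnr Q alg S G) (R : H15.Rep Q A)
    (hJ : IsVirial Q T J) {X : D} (hX : InJ Q J X) {σ : ℝ} (hσ : 0 < σ) {L : Ix → V}
    (hL : IsLor L) : vj Q J o (G (nu (-1)) (Q.U σ L 0 X)) =
      ((σ ^ 2)⁻¹ : ℝ) * vj Q J o (G (nu (-1)) X) := by
  have hX' : InJ Q J (Q.U σ L 0 X) := InJ_U N hJ hX hσ hL 0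
  have hb := isNull_lor hL null_m
  have h1 := H246R.G_cov N Gg.der hσ one_pos hL null_m hb (one_smul ℝ _).symm X
  have h2 := congrArg (vj Q J o) h1
  rw [vj_smul N hJ, Bj N Gg R hJ hX' hb o, vj_cov N hJ hσ hL] at h2
  have h3 : ∑ k, (L k o : ℂ) * vj Q J k (G (nu (-1)) X) =
      (sim 1 L 0 (nu (-1)) o : ℂ) * vj Q J o (G (nu (-1)) X) := by
    have e : ∀ k, vj Q J k (G (nu (-1)) X) = (nu (-1) k : ℂ) * vj Q J o (G (nu (-1)) X) :=
      fun k => Bj N Gg R hJ hX null_m k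
    rw [Finset.sum_congr rfl fun k _ => by rw [e k]]
    simp only [sim, Pi.zero_apply, zero_add, one_mul]
    push_cast
    rw [Finset.sum_mul]
    exact Finset.sum_congr rfl fun k _ => by ring
  rw [h3] at h2
  have hσ' : (σ : ℂ) ≠ 0 := by exact_mod_cast hσ.ne'
  have hb' : (sim 1 L 0 (nu (-1)) o : ℂ) ≠ 0 := by exact_mod_cast hb.2.ne'
  have h4 : (sim 1 L 0 (nu (-1)) o : ℂ) * vj Q J o (G (nu (-1)) (Q.U σ L 0 X)) =
      (sim 1 L 0 (nu (-1)) o : ℂ) * (((σ ^ 2)⁻¹ : ℝ) * vj Q J o (G (nu (-1)) X)) := by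
    push_cast at h2 ⊢
    field_simp at h2 ⊢
    linear_combination -h2
  exact mul_left_cancel₀ hb' h4

/-! ### Continuity -/

/-- point like functionals on the vectors of the virial current -/
theorem c13_hcont (hJ : IsVirial Q T J) {φ : Completion D} {B : D → D} (hB : HasAdj B)
    {ξ : D → ℂ} (h : ∀ v, ξ v = pt φ B v) (m : Ix) :
    ∃ K : 𝓢(Mink, ℂ) →L[ℂ] ℂ, ∀ F, K F = ξ (J m (fl F) Q.vac) := by
  obtain ⟨K, hK⟩ := exists_adjL (Q := Q) hB (Q.bose_fld _ (hJ.bose m))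
  refine ⟨(innerSL ℂ φ).comp K, fun F => ?_⟩
  rw [h, ContinuousLinearMap.comp_apply, hK]
  rfl

theorem c13_adj_pw (N : CNet Q H alg S) (n : ℕ) : HasAdj (pw1 H n) := by
  obtain ⟨Y, -, hY⟩ := N.adj _ _ (pw1_mem N.toNet n)
  exact ⟨Y, hY⟩

theorem c13_adj_comp {B C : D → D} (hB : HasAdj B) (hC : HasAdj C) :
    HasAdj fun v => B (C v) := by
  obtain ⟨B', hB⟩ := hB
  obtain ⟨C', hC⟩ := hC
  exact ⟨fun v => C' (B' v), fun v w => by rw [hB, hC]⟩

theorem c13_adj_W (N : CNet Q H alg S) (Gg : Gnr Q alg S G) (R : H15.Rep Q A) {a : V}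
    (ha : IsNull a) (x : V) : HasAdj (Wop Q G A a x) :=
  ⟨Wop Q G A a x, W_symm N Gg R ha x⟩

theorem c13_adj_G (N : CNet Q H alg S) (Gg : Gnr Q alg S G) {a : V}
    (ha : IsNull a) : HasAdj (G a) := ⟨G a, G_adj N Gg ha⟩

/-! ### The constants -/

theorem c13_cvl (hT : Q.IsStress T) (N : CNet Q H alg S) (hJ : IsVirial Q T J)
    (hl : IsPot Q T l) : ∃ c : ℂ, ∀ g, PCv g → vl l (jv Q J g) = c * dv g 0 := by
  obtain ⟨φ, n, h, -⟩ := c13_vl_data N hl
  exact cls_inv N hJ (fun v w => c13_vl_add N hl v w)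
    (fun m => c13_hcont hJ (c13_adj_pw N n) h m)
    (fun σ L X hσ hL _ => c13_vl_cov hT N hl hσ hL X)

theorem c13_czl (hT : Q.IsStress T) (N : CNet Q H alg S) (Gg : Gnr Q alg S G)
    (R : H15.Rep Q A) (hJ : IsVirial Q T J) (hl : IsPot Q T l) :
    ∃ c : ℂ, ∀ g, PCv g → zl Q l G A (jv Q J g) = c * dv g 0 := by
  obtain ⟨φ, n, h, -⟩ := c13_vl_data N hl
  refine cls_inv N hJ (fun v w => ?_) (fun m => ?_)
    (fun σ L X hσ hL hX => c13_zl_cov hT N Gg R hJ hl hX hσ hL)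
  · show vl l _ = vl l _ + vl l _
    rw [W_add N Gg R null_m, c13_vl_add N hl]
  · exact c13_hcont hJ (c13_adj_comp (c13_adj_pw N n) (c13_adj_W N Gg R null_m (bas o 1)))
      (φ := φ) (fun v => h _) m

theorem c13_cxi (N : CNet Q H alg S) (Gg : Gnr Q alg S G)
    (R : H15.Rep Q A) (hJ : IsVirial Q T J) :
    ∃ c : ℂ, ∀ g, PCv g → vj Q J o (G (nu (-1)) (jv Q J g)) = c * dv g 0 := by
  have hf : ∀ m, Q.fld (J m) := fun m => Q.bose_fld _ (hJ.bose m)
  obtain ⟨μ, K, w, n, h⟩ := exists_kc N.toNet hf (bas o 1)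
  have hB := pw1_mem N.toNet n
  refine cls_inv N hJ (ξ := fun v => vj Q J o (G (nu (-1)) v)) (fun v w => ?_) (fun m => ?_)
    (fun σ L X hσ hL hX => c13_xi_cov N Gg R hJ hX hσ hL)
  · rw [(c13_adj_G N Gg null_m).add, vj_add N hJ]
  · exact c13_hcont hJ (c13_adj_comp (c13_adj_pw N n) (c13_adj_G N Gg null_m))
      (φ := K.J w) (fun v => vj_eq N.toNet hf hB h _) m

/-! ### Translations -/

theorem c13_jv_U (hJ : IsVirial Q T J) (g : Ix → 𝓢(Mink, ℂ)) (x : Mink) :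
    U1 Q (-x) (jv Q J g) = jv Q J fun m => tauS (-x) (g m) := by
  unfold jv
  have h : U1 Q (-x) (∑ m, J m (fl (g m)) Q.vac) = ∑ m, U1 Q (-x) (J m (fl (g m)) Q.vac) :=
    U1_sum (-x).ofLp _
  rw [h]
  exact Finset.sum_congr rfl fun m _ => U1_J hJ.vfld x m (g m)

theorem c13_PCv_tau {g : Ix → 𝓢(Mink, ℂ)} (hg : PCv g) (a : Mink) :
    PCv fun m => tauS a (g m) := fun m => PC_tauS (hg m) a

theorem c13_dv_tau (g : Ix → 𝓢(Mink, ℂ)) (a : Mink) :
    dv (fun m => tauS a (g m)) = tauS a (dv g) := by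
  have h : ∀ (f : 𝓢(Mink, ℂ)) (v : Mink), (∂_{v} (tauS a f) : 𝓢(Mink, ℂ)) =
      tauS a (∂_{v} f : 𝓢(Mink, ℂ)) := by
    intro f v
    ext x
    rw [tauS_apply, lineDerivOp_apply_eq_fderiv, lineDerivOp_apply_eq_fderiv]
    have e : (tauS a f : Mink → ℂ) = fun x => f (x - a) := by
      funext x
      rw [tauS_apply]
    rw [e, fderiv_comp_sub]
  ext x
  simp only [dv, h, tauS_apply, SchwartzMap.sum_apply, SchwartzMap.smul_apply]

/-- the values vanish along the orbit if the divergence vanishes -/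
theorem c13_val0 (hJ : IsVirial Q T J) {ξ : D → ℂ} (h : ∃ c : ℂ, ∀ g, PCv g →
    ξ (jv Q J g) = c * dv g 0) {g : Ix → 𝓢(Mink, ℂ)} (hg : PCv g) (hd : dv g = 0) (x : Mink) :
    ξ (U1 Q (-x) (jv Q J g)) = 0 := by
  obtain ⟨c, h⟩ := h
  rw [c13_jv_U hJ, h _ (c13_PCv_tau hg _), c13_dv_tau, hd, tauS_apply]
  simp

end Vale.Agent.P352.N86

end
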