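import Vale.Agent.P352.N86.K.C2
import Vale.Agent.P352.N86.K.C7
import Vale.Agent.P352.N86.K.C13

/-!
# P352: the constant is real
-/

set_option linter.all false

noncomputable section

open MeasureTheory Filter Topology SchwartzMap Complex
open scoped SchwartzMap ComplexConjugate ContDiff LineDeriv

namespace Vale.Agent.P352.N86

open GF (Ix V Fn Fld Theory Sch IsLor bas eta o sim pd tr ev bar)
open H246 H496 H755 H15 H846 H246R H746
open UniformSpace (Completion)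

variable {D : Type*} [NormedAddCommGroup D] [InnerProductSpace ℂ D]
variable {Q : GF.Theory D} {T : Ix → Ix → GF.Fld D} {J : Ix → GF.Fld D}
variable {H : D → D} {alg : Set V → Set (D → D)} {S : V → ℝ → D → D} {G : V → D → D}
variable {A : (V → V) → D → D} {l : Fn → Completion D}

/-! ### Integration by parts -/

lemma c14_int_conj (f g : 𝓢(Mink, ℂ)) :
    ∫ x : Mink, conj (conj (f x) * g x) = ∫ x : Mink, conj (g x) * f x := by
  congr 1
  ext x
  rw [map_mul, Complex.conj_conj, mul_comm]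

lemma c14_integrable (f g : 𝓢(Mink, ℂ)) : Integrable fun x : Mink => conj (f x) * g x := by
  have h := (f.memLp 2 (volume : Measure Mink)).star.integrable_mul (g.memLp 2 (volume : Measure Mink))
  exact h

lemma c14_parts (f g : 𝓢(Mink, ℂ)) (v : Mink) :
    ∫ x : Mink, conj ((∂_{v} f : 𝓢(Mink, ℂ)) x) * g x =
      -∫ x : Mink, conj (f x) * (∂_{v} g : 𝓢(Mink, ℂ)) x := by
  have h := integral_mul_lineDerivOp_right_eq_neg_left (μ := (volume : Measure Mink)) g (conjS f) v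
  rw [← conjS_lineDeriv] at h
  have e1 : ∀ x : Mink, conj ((∂_{v} f : 𝓢(Mink, ℂ)) x) * g x =
      g x * conjS (∂_{v} f : 𝓢(Mink, ℂ)) x := fun x => by rw [conjS_apply, mul_comm]
  have e2 : ∀ x : Mink, conj (f x) * (∂_{v} g : 𝓢(Mink, ℂ)) x =
      (∂_{v} g : 𝓢(Mink, ℂ)) x * conjS f x := fun x => by rw [conjS_apply, mul_comm]
  simp only [e1, e2]
  exact h

lemma c14_box (f g : 𝓢(Mink, ℂ)) :
    ∫ x : Mink, conj (boxS f x) * g x = ∫ x : Mink, conj (f x) * boxS g x := by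
  have e1 : ∀ x : Mink, conj (boxS f x) * g x = ∑ k, (GF.eta k : ℂ) *
      (conj ((∂_{eb k} (∂_{eb k} f : 𝓢(Mink, ℂ)) : 𝓢(Mink, ℂ)) x) * g x) := fun x => by
    unfold boxS
    rw [SchwartzMap.sum_apply, map_sum, Finset.sum_mul]
    refine Finset.sum_congr rfl fun k _ => ?_
    rw [SchwartzMap.smul_apply, smul_eq_mul, map_mul, Complex.conj_ofReal, mul_assoc]
  have e2 : ∀ x : Mink, conj (f x) * boxS g x = ∑ k, (GF.eta k : ℂ) *
      (conj (f x) * (∂_{eb k} (∂_{eb k} g : 𝓢(Mink, ℂ)) : 𝓢(Mink, ℂ)) x) := fun x => by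
    unfold boxS
    rw [SchwartzMap.sum_apply, Finset.mul_sum]
    refine Finset.sum_congr rfl fun k _ => ?_
    rw [SchwartzMap.smul_apply, smul_eq_mul]
    ring
  simp only [e1, e2]
  rw [integral_finset_sum _ fun k _ => (c14_integrable _ _).const_mul _,
    integral_finset_sum _ fun k _ => (c14_integrable _ _).const_mul _]
  refine Finset.sum_congr rfl fun k _ => ?_
  rw [integral_const_mul, integral_const_mul, c14_parts, c14_parts, neg_neg]

/-! ### The matrix elements of `Z` -/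

/-- the matrix elements of `Z = Wop (nu (-1)) (bas o 1)` between transversal vectors -/
lemma c14_Z (hT : Q.IsStress T) (N : CNet Q H alg S) (Gg : Gnr Q alg S G) (R : H15.Rep Q A)
    (hJ : IsVirial Q T J) (hl : IsPot Q T l) {κ : ℂ} (hκ : ∀ a, IsNull a → ∀ g : 𝓢(Mink, ℂ),
      H246R.PC (mftS g) → ∀ (m : Ix) (y : V),
      vl l (G a (Q.U 1 GF.one (-y) (J m (fl g) Q.vac))) = κ * (a m : ℂ) * toSchL g y)
    {g g' : Ix → 𝓢(Mink, ℂ)} (hg : PCv g) (hdg : dv g = 0) (hg' : PCv g') :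
    inner ℂ (jv Q J g') (Wop Q G A (nu (-1)) (bas o 1) (jv Q J g)) =
      3 * κ * ∑ m, (GF.eta m : ℂ) * ∫ x : Mink, conj (boxS (g' m) x) * g m x := by
  have hf : ∀ m, Q.fld (J m) := fun m => Q.bose_fld _ (hJ.bose m)
  have hX : InJ Q J (jv Q J g) := ⟨g, hg, rfl⟩
  have hm : GF.mdot (nu (-1)) (bas o 1) = 1 := by
    rw [gf_mdot]
    simp [nu, bas, GF.o]
  have h1 : ∀ m, inner ℂ (J m (fl (g' m)) Q.vac) (Wop Q G A (nu (-1)) (bas o 1) (jv Q J g)) =
      3 * κ * ((GF.eta m : ℂ) * ∫ x : Mink, conj (boxS (g' m) x) * g m x) := by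
    intro m
    have h2 := vj_rep N.toNet hf m (g' m) (Wop Q G A (nu (-1)) (bas o 1) (jv Q J g))
    rw [Completion.inner_coe] at h2
    rw [h2]
    have h3 : ∀ x : Mink, vj Q J m (U1 Q (-x) (Wop Q G A (nu (-1)) (bas o 1) (jv Q J g))) =
        zj Q J G A m (U1 Q (-x) (jv Q J g)) := by
      intro x
      have h4 := S1 N Gg R hJ hX (isNull_nu (Or.inr rfl)) (bas o 1) x.ofLp m
      rw [hm, Complex.ofReal_one, one_mul] at h4
      exact h4
    simp only [h3]
    have h5 := Dp hT N Gg R hJ hl hκ hg hdg (hg' m) m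
    have h6 : (GF.eta m : ℂ) * (GF.eta m : ℂ) = 1 := by exact_mod_cast eta_sq m
    calc ∫ x : Mink, conj (g' m x) * zj Q J G A m (U1 Q (-x) (jv Q J g)) =
        ((GF.eta m : ℂ) * (GF.eta m : ℂ)) *
          ∫ x : Mink, conj (g' m x) * zj Q J G A m (U1 Q (-x) (jv Q J g)) := by rw [h6, one_mul]
      _ = (GF.eta m : ℂ) * (3 * κ * ∫ x : Mink, conj (boxS (g' m) x) * g m x) := by
        rw [mul_assoc, ← h5]
      _ = _ := by ring
  rw [jv, sum_inner, Finset.mul_sum]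
  exact Finset.sum_congr rfl fun m _ => h1 m

lemma c14_box_sum (c : Ix → ℂ) (f : Ix → 𝓢(Mink, ℂ)) :
    boxS (∑ m, c m • f m) = ∑ m, c m • boxS (f m) := by
  unfold boxS
  simp only [LineDeriv.lineDerivOp_sum, LineDeriv.lineDerivOp_smul, Finset.smul_sum]
  rw [Finset.sum_comm]
  refine Finset.sum_congr rfl fun m _ => Finset.sum_congr rfl fun k _ => ?_
  rw [smul_comm]

lemma c14_dv_box (g : Ix → 𝓢(Mink, ℂ)) : dv (fun m => boxS (g m)) = boxS (dv g) := by
  unfold dv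
  rw [c14_box_sum]
  refine Finset.sum_congr rfl fun m _ => ?_
  rw [lineDeriv_boxS]

lemma c14_PC_box {g : 𝓢(Mink, ℂ)} (hg : H246R.PC (mftS g)) : H246R.PC (mftS (boxS g)) := by
  have h : tsupport (mftS (boxS g)) ⊆ tsupport (mftS g) := by
    apply closure_mono
    intro p hp h0
    apply hp
    rw [mftS_apply, mft_boxS, ← mftS_apply, h0, mul_zero]
  exact ⟨IsCompact.of_isClosed_subset hg.1 (isClosed_tsupport _) h, h.trans hg.2⟩

lemma c14_PC_zero : H246R.PC (mftS (0 : 𝓢(Mink, ℂ))) := by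
  have h : tsupport (mftS (0 : 𝓢(Mink, ℂ))) = ∅ := by
    rw [map_zero, tsupport_eq_empty_iff]
    rfl
  exact ⟨by rw [HasCompactSupport, h]; exact isCompact_empty, by rw [h]; exact Set.empty_subset _⟩

lemma c14_PC_neg {g : 𝓢(Mink, ℂ)} (hg : H246R.PC (mftS g)) : H246R.PC (mftS (-g)) := by
  have h : tsupport (mftS (-g)) = tsupport (mftS g) := by
    rw [map_neg]
    have e : ((-(mftS g) : 𝓢(Mink, ℂ)) : Mink → ℂ) = -(mftS g : Mink → ℂ) := rfl
    rw [e, tsupport, tsupport, Function.support_neg]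
  exact ⟨by rw [HasCompactSupport, h]; exact hg.1, by rw [h]; exact hg.2⟩

lemma c14_sq (h : 𝓢(Mink, ℂ)) : ∫ x : Mink, conj (h x) * h x = ((∫ x : Mink, ‖h x‖ ^ 2 : ℝ) : ℂ) := by
  rw [← integral_complex_ofReal]
  congr 1
  ext x
  rw [Complex.conj_mul']
  push_cast
  rfl

lemma c14_sq_pos {h : 𝓢(Mink, ℂ)} (hh : h ≠ 0) : 0 < ∫ x : Mink, ‖h x‖ ^ 2 := by
  have hc : Continuous fun x : Mink => ‖h x‖ ^ 2 := by fun_prop
  have hi : Integrable fun x : Mink => ‖h x‖ ^ 2 := (h.memLp 2 (volume : Measure Mink)).integrable_norm_pow (by norm_num)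
  obtain ⟨x, hx⟩ : ∃ x, h x ≠ 0 := by
    by_contra hcon
    push Not at hcon
    exact hh (by ext x; exact hcon x)
  rw [integral_pos_iff_support_of_nonneg (fun x => by positivity) hi]
  refine hc.isOpen_support.measure_pos volume ⟨x, ?_⟩
  rw [Function.mem_support]
  have : 0 < ‖h x‖ := norm_pos_iff.2 hx
  positivity

/-- a transversal test field whose symmetric form is positive -/
lemma c14_exists : ∃ g : Ix → 𝓢(Mink, ℂ), PCv g ∧ dv g = 0 ∧
    ∑ m, (GF.eta m : ℂ) * ∫ x : Mink, conj (boxS (boxS (g m)) x) * g m x ≠ 0 := by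
  obtain ⟨F, hF, -, hF0, -⟩ := exists_bumpPC
  obtain ⟨f, hf⟩ := mftS_surj F
  have hfP : H246R.PC (mftS f) := by rw [hf]; exact hF
  have h3 : boxS (∂_{eb 3} f : 𝓢(Mink, ℂ)) ≠ 0 := by
    intro h0
    have hm0 : mass2 (eb 0) ≠ 0 := by
      simp [mass2, mdot, eb]
    have hopen : ∀ᶠ p in 𝓝 (eb 0 : Mink), F p ≠ 0 ∧ mass2 p ≠ 0 :=
      (F.continuous.continuousAt.eventually_ne hF0).and
        (continuous_mass2.continuousAt.eventually_ne hm0)
    have hc : Tendsto (fun t : ℝ => (eb 0 + t • eb 3 : Mink)) (𝓝[>] 0) (𝓝 (eb 0)) := by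
      have h1 : Continuous fun t : ℝ => (eb 0 + t • eb 3 : Mink) := by fun_prop
      have h2 := h1.tendsto 0
      simp only [zero_smul, add_zero] at h2
      exact h2.mono_left nhdsWithin_le_nhds
    obtain ⟨t, ⟨ht, ht1⟩, ht0⟩ := ((hc.eventually hopen).and self_mem_nhdsWithin).exists
    have h4 : mft (boxS (∂_{eb 3} f : 𝓢(Mink, ℂ))) (eb 0 + t • eb 3) = 0 := by
      rw [h0, mft_zero]
    rw [mft_boxS, mft_lineDeriv, ← mftS_apply, hf] at h4
    have h5 : mdot (eb 0 + t • eb 3) (eb 3) = -t := by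
      simp [mdot, eb]
    rw [h5] at h4
    have ht0' : (t : ℂ) ≠ 0 := by
      have : (0 : ℝ) < t := ht0
      exact_mod_cast this.ne'
    have hm' : (mass2 (eb 0 + t • eb 3) : ℂ) ≠ 0 := by exact_mod_cast ht1
    simp [ht, ht0', hm'] at h4
  refine ⟨![0, 0, (∂_{eb 3} f : 𝓢(Mink, ℂ)), -(∂_{eb 2} f : 𝓢(Mink, ℂ))], ?_, ?_, ?_⟩
  · intro m
    fin_cases m
    · exact c14_PC_zero
    · exact c14_PC_zero
    · exact PC_deriv hfP _
    · exact c14_PC_neg (PC_deriv hfP _)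
  · unfold dv
    rw [Fin.sum_univ_four]
    simp only [eta_0, eta_1, eta_2, eta_3, Matrix.cons_val_zero, Matrix.cons_val_one,
      Matrix.cons_val]
    rw [LineDeriv.lineDerivOp_neg, lineDeriv_comm' 3 2 f]
    simp [LineDeriv.lineDerivOp_zero]
  · have e : ∀ g : 𝓢(Mink, ℂ), ∫ x : Mink, conj (boxS (boxS g) x) * g x =
        ((∫ x : Mink, ‖boxS g x‖ ^ 2 : ℝ) : ℂ) := fun g => by rw [c14_box, c14_sq]
    rw [Fin.sum_univ_four]
    simp only [e, eta_0, eta_1, eta_2, eta_3, Matrix.cons_val_zero, Matrix.cons_val_one,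
      Matrix.cons_val]
    have hb0 : boxS (0 : 𝓢(Mink, ℂ)) = 0 := by
      unfold boxS
      simp [LineDeriv.lineDerivOp_zero]
    rw [hb0]
    have hpos := c14_sq_pos h3
    have hpos2 : 0 ≤ ∫ x : Mink, ‖boxS (-(∂_{eb 2} f : 𝓢(Mink, ℂ))) x‖ ^ 2 :=
      integral_nonneg fun x => by positivity
    intro h0
    have h1 : (-(∫ x : Mink, ‖boxS (∂_{eb 3} f : 𝓢(Mink, ℂ)) x‖ ^ 2) -
        ∫ x : Mink, ‖boxS (-(∂_{eb 2} f : 𝓢(Mink, ℂ))) x‖ ^ 2 : ℝ) = 0 := by
      have h2 : ((-(∫ x : Mink, ‖boxS (∂_{eb 3} f : 𝓢(Mink, ℂ)) x‖ ^ 2) -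
        ∫ x : Mink, ‖boxS (-(∂_{eb 2} f : 𝓢(Mink, ℂ))) x‖ ^ 2 : ℝ) : ℂ) = 0 := by
        rw [← h0]
        push_cast
        simp
        ring
      exact_mod_cast h2
    linarith

theorem H1 (hT : Q.IsStress T) (N : CNet Q H alg S) (Gg : Gnr Q alg S G) (R : H15.Rep Q A)
    (hJ : IsVirial Q T J) (hl : IsPot Q T l) {κ : ℂ} (hκ : ∀ a, IsNull a → ∀ g : 𝓢(Mink, ℂ),
      H246R.PC (mftS g) → ∀ (m : Ix) (y : V),
      vl l (G a (Q.U 1 GF.one (-y) (J m (fl g) Q.vac))) = κ * (a m : ℂ) * toSchL g y) :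
    conj κ = κ := by
  obtain ⟨g, hg, hdg, hne⟩ := c14_exists
  set g' : Ix → 𝓢(Mink, ℂ) := fun m => boxS (g m) with hg'def
  have hg' : PCv g' := fun m => c14_PC_box (hg m)
  have hdg' : dv g' = 0 := by
    rw [hg'def, c14_dv_box, hdg]
    unfold boxS
    simp [LineDeriv.lineDerivOp_zero]
  have h1 := c14_Z hT N Gg R hJ hl hκ hg hdg hg'
  have h2 := c14_Z hT N Gg R hJ hl hκ hg' hdg' hg
  have h3 := W_symm N Gg R (isNull_nu (Or.inr rfl)) (bas o 1) (jv Q J g') (jv Q J g)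
  rw [← h3, ← inner_conj_symm, h2, map_mul, map_mul, map_sum] at h1
  have h4 : ∀ m, conj ((GF.eta m : ℂ) * ∫ x : Mink, conj (boxS (g m) x) * g' m x) =
      (GF.eta m : ℂ) * ∫ x : Mink, conj (boxS (g' m) x) * g m x := by
    intro m
    rw [map_mul, Complex.conj_ofReal, ← integral_conj, c14_int_conj, c14_box (g' m) (g m)]
  simp only [h4] at h1
  have h5 : (conj (3 : ℂ)) = 3 := Complex.conj_ofNat 3
  rw [h5] at h1
  have h6 : (∑ m, (GF.eta m : ℂ) * ∫ x : Mink, conj (boxS (g' m) x) * g m x) ≠ 0 := hne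
  have h7 := mul_right_cancel₀ h6 h1
  exact mul_left_cancel₀ (by norm_num : (3 : ℂ) ≠ 0) h7

end Vale.Agent.P352.N86

end
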