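import Vale.Agent.P352.N86.K.C15b

/-!
# P352: the second relation between the values of the deformed potential
-/

set_option linter.all false

noncomputable section

open MeasureTheory Filter Topology SchwartzMap Complex
open scoped SchwartzMap ComplexConjugate ContDiff LineDeriv

namespace Vale.Agent.P352.N86.C15

open GF (Ix V Fn Fld Theory Sch IsLor bas eta o sim pd tr ev bar)
open H246 H496 H755 H15 H846 H246R H746
open H993 (dS axS xxS kdS dS_apply axS_apply xxS_apply fl_kdS ld_tauS dS_tauS)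
open UniformSpace (Completion)

variable {D : Type*} [NormedAddCommGroup D] [InnerProductSpace ℂ D]
variable {Q : GF.Theory D} {T : Ix → Ix → GF.Fld D} {J : Ix → GF.Fld D}
variable {H : D → D} {alg : Set V → Set (D → D)} {S : V → ℝ → D → D} {G : V → D → D}
variable {A : (V → V) → D → D} {l : Fn → Completion D}

/-- gradients -/
def grd (ψ : 𝓢(Mink, ℂ)) : Ix → 𝓢(Mink, ℂ) := fun m => ∂_{eb m} ψ

lemma PCv_grd {ψ : 𝓢(Mink, ℂ)} (h : H246R.PC (mftS ψ)) : PCv (grd ψ) := fun m => PC_deriv h (eb m)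

lemma dv_grd (ψ : 𝓢(Mink, ℂ)) : dv (grd ψ) = boxS ψ := rfl

lemma dS_grd (a : V) (ψ : 𝓢(Mink, ℂ)) (x : Mink) : ∑ m, (a m : ℂ) * grd ψ m x = dS a ψ x := by
  rw [dS_apply]
  rfl

/-- gradients couple to the potential -/
lemma inner_grd (N : CNet Q H alg S) (hJ : IsVirial Q T J) (hl : IsPot Q T l)
    (ψ : 𝓢(Mink, ℂ)) (v : D) : inner ℂ (jv Q J (grd ψ)) v =
      -3 * ∫ x : Mink, conj (boxS ψ x) * vl l (U1 Q (-x) v) := by
  have h1 : jv Q J (grd ψ) = -GF.tr T (fl ψ) Q.vac := by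
    rw [hJ.div', neg_neg]
    rfl
  rw [h1, inner_neg_left, ← Completion.inner_coe, ← hl.trace _ (isTest_fl ψ), inner_smul_left,
    box_fl, vl_int N hl]
  have h2 : conj (3 : ℂ) = 3 := by
    have := conj_ofReal 3
    simpa using this
  rw [h2]
  ring

lemma ip_ne {F : 𝓢(Mink, ℂ)} {x : Mink} (h : F x ≠ 0) : ip F F ≠ 0 := by
  have h1 : ip F F = ((∫ y : Mink, ‖F y‖ ^ 2 : ℝ) : ℂ) := by
    unfold ip
    rw [← integral_complex_ofReal]
    congr 1
    ext y
    rw [← Complex.normSq_eq_conj_mul_self, Complex.normSq_eq_norm_sq]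
  have hc : Continuous fun y : Mink => ‖F y‖ ^ 2 := (F.continuous.norm).pow 2
  have hi : Integrable fun y : Mink => ‖F y‖ ^ 2 := by
    have h2 := (int_cs F F).norm
    refine h2.congr (Eventually.of_forall fun y => ?_)
    simp only [norm_mul, RCLike.norm_conj]
    ring
  have h2 : 0 < ∫ y : Mink, ‖F y‖ ^ 2 := by
    rw [integral_pos_iff_support_of_nonneg (fun y => by positivity) hi]
    refine IsOpen.measure_pos _ (hc.isOpen_support) ⟨x, ?_⟩
    rw [Function.mem_support]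
    exact pow_ne_zero 2 (norm_ne_zero_iff.2 h)
  rw [h1]
  exact_mod_cast h2.ne'

/-- derivatives commute -/
lemma ld_comm (v w : Mink) (F : 𝓢(Mink, ℂ)) :
    (∂_{v} (∂_{w} F : 𝓢(Mink, ℂ)) : 𝓢(Mink, ℂ)) = ∂_{w} (∂_{v} F : 𝓢(Mink, ℂ)) := by
  have h : mftS (∂_{v} (∂_{w} F : 𝓢(Mink, ℂ)) : 𝓢(Mink, ℂ)) =
      mftS (∂_{w} (∂_{v} F : 𝓢(Mink, ℂ)) : 𝓢(Mink, ℂ)) := by
    ext p
    rw [mftS_apply, mftS_apply, mft_lineDeriv, mft_lineDeriv, mft_lineDeriv, mft_lineDeriv]
    ring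
  have h2 := congrArg imf h
  rwa [imf_mftS, imf_mftS] at h2

lemma mft_dS (a : V) (F : 𝓢(Mink, ℂ)) (p : Mink) :
    mft (dS a F) p = -(I * (GF.mdot a p.ofLp : ℂ)) * mft F p := by
  unfold dS
  rw [mft_sum]
  simp only [mft_smul, mft_lineDeriv, mdot_eb]
  unfold GF.mdot
  push_cast
  rw [Finset.mul_sum, ← Finset.sum_neg_distrib, Finset.sum_mul]
  refine Finset.sum_congr rfl fun m _ => ?_
  ring

lemma dS_box (a : V) (F : 𝓢(Mink, ℂ)) : dS a (boxS F) = boxS (dS a F) := by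
  have h : mftS (dS a (boxS F)) = mftS (boxS (dS a F)) := by
    ext p
    rw [mftS_apply, mftS_apply, mft_dS, mft_boxS, mft_boxS, mft_dS]
    ring
  have h2 := congrArg imf h
  rwa [imf_mftS, imf_mftS] at h2

lemma PC_box {F : 𝓢(Mink, ℂ)} (hF : H246R.PC (mftS F)) (a : V) :
    H246R.PC (mftS (boxS (dS a F))) := by
  have h : tsupport (mftS (boxS (dS a F))) ⊆ tsupport (mftS F) := by
    apply closure_mono
    intro p hp h0
    apply hp
    rw [mftS_apply, mft_boxS, mft_dS, ← mftS_apply, h0, mul_zero, mul_zero]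
  exact ⟨IsCompact.of_isClosed_subset hF.1 (isClosed_tsupport _) h, h.trans hF.2⟩

lemma exists_ne {F : 𝓢(Mink, ℂ)} {p : Mink} (h : mft F p ≠ 0) : ∃ x, F x ≠ 0 := by
  by_contra hcon
  push Not at hcon
  have h0 : F = 0 := by
    ext x
    exact hcon x
  exact h (by rw [h0, mft_zero])

end Vale.Agent.P352.N86.C15

namespace Vale.Agent.P352.N86

open GF (Ix V Fn Fld Theory Sch IsLor bas eta o sim pd tr ev bar)
open H246 H496 H755 H15 H846 H246R H746
open H993 (dS axS xxS kdS dS_apply axS_apply xxS_apply fl_kdS ld_tauS dS_tauS)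
open UniformSpace (Completion)
open C15

variable {D : Type*} [NormedAddCommGroup D] [InnerProductSpace ℂ D]
variable {Q : GF.Theory D} {T : Ix → Ix → GF.Fld D} {J : Ix → GF.Fld D}
variable {H : D → D} {alg : Set V → Set (D → D)} {S : V → ℝ → D → D} {G : V → D → D}
variable {A : (V → V) → D → D} {l : Fn → Completion D}

theorem H2 (hT : Q.IsStress T) (N : CNet Q H alg S) (Gg : Gnr Q alg S G) (R : H15.Rep Q A)
    (hJ : IsVirial Q T J) (hl : IsPot Q T l) {κ : ℂ} (hκ : ∀ a, IsNull a → ∀ g : 𝓢(Mink, ℂ),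
      H246R.PC (mftS g) → ∀ (m : Ix) (y : V),
      vl l (G a (Q.U 1 GF.one (-y) (J m (fl g) Q.vac))) = κ * (a m : ℂ) * toSchL g y) :
    conj κ = -κ := by
  obtain ⟨cl, hcl⟩ := exists_cl hT N Gg R hJ hl (G := G) (A := A)
  obtain ⟨cz, hcz⟩ := exists_cz hT N Gg R hJ hl (G := G) (A := A)
  have hb : IsNull (nu (-1)) := isNull_nu (Or.inr rfl)
  obtain ⟨F0, hF0, -, hF1, -⟩ := exists_bumpPC
  set ψ : 𝓢(Mink, ℂ) := imf F0 with hψ
  have hpψ : H246R.PC (mftS ψ) := by rw [hψ, mftS_imf]; exact hF0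
  have hmψ : mft ψ (eb 0) ≠ 0 := by
    rw [← mftS_apply, hψ, mftS_imf]
    exact hF1
  set a : V := nu (-1) with ha
  set ψ' : 𝓢(Mink, ℂ) := boxS (dS a ψ) with hψ'
  have hpψ' : H246R.PC (mftS ψ') := PC_box hpψ a
  have hmass : mass2 (eb 0) = 1 := by
    simp [mass2, mdot, eb]
  have hae : GF.mdot a (eb 0 : Mink).ofLp = 1 := by
    rw [gf_mdot, ha]
    simp [nu, eb]
  obtain ⟨x0, hx0⟩ : ∃ x, boxS ψ x ≠ 0 := by
    refine exists_ne (p := eb 0) ?_
    rw [mft_boxS, hmass]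
    simpa using hmψ
  obtain ⟨x1, hx1⟩ : ∃ x, ψ' x ≠ 0 := by
    refine exists_ne (p := eb 0) ?_
    rw [hψ', mft_boxS, hmass, mft_dS, hae]
    simpa using hmψ
  have hne0 := ip_ne hx0
  have hne1 := ip_ne hx1
  -- the values on the vectors of the virial current
  have v1 : ∀ g, PCv g → ∀ x : Mink, vl l (U1 Q (-x) (jv Q J g)) = cl * dv g x := by
    intro g hg x
    rw [U1_jv hJ, hcl _ (PCv_sh hg x), dv_sh_zero]
  have v2 : ∀ g, PCv g → ∀ x : Mink,
      vl l (U1 Q (-x) (Wop Q G A a (bas o 1) (jv Q J g))) = cz * dv g x := by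
    intro g hg x
    obtain ⟨vadd, vsmul, -⟩ := vl_lin hT N hl
    set X := U1 Q (-x) (jv Q J g) with hX
    have hXJ : InJ Q J X := ⟨sh x g, PCv_sh hg x, U1_jv hJ x g⟩
    have h0 : U1 Q x X = jv Q J g := by
      rw [hX, U1_U1_all, add_neg_cancel, U1_zero_all]
    have h1 := W_cocycle N Gg R hb (bas o 1) x.ofLp X
    have h2 : U1 Q (-x) (Wop Q G A a (bas o 1) (U1 Q x X)) =
        Wop Q G A a (bas o 1 + x.ofLp) X + (-1 : ℂ) • Wop Q G A a x.ofLp X := by
      have h3 : Wop Q G A a (bas o 1 + x.ofLp) X = U1 Q (-x) (Wop Q G A a (bas o 1) (U1 Q x X)) +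
          Wop Q G A a x.ofLp X := h1
      rw [h3, neg_one_smul]
      abel
    rw [h0] at h2
    rw [h2, vadd, vsmul, vl_W hT N Gg R hJ hl hXJ hb, vl_W hT N Gg R hJ hl hXJ hb, gm_add, mdot_b]
    have h4 : zl Q l G A X = cz * dv g x := by
      rw [hX, U1_jv hJ, hcz _ (PCv_sh hg x), dv_sh_zero]
    rw [h4]
    push_cast
    ring
  -- reality
  have i1 : ∀ (c : ℂ) (F G : 𝓢(Mink, ℂ)), ∫ x : Mink, conj (F x) * (c * G x) = c * ip F G := by
    intro c F G
    unfold ip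
    rw [← integral_const_mul]
    congr 1
    ext x
    ring
  have rcl : conj cl = cl := by
    have h1 := inner_grd N hJ hl ψ (jv Q J (grd ψ))
    simp only [v1 _ (PCv_grd hpψ), dv_grd, i1] at h1
    have h2 : conj (inner ℂ (jv Q J (grd ψ)) (jv Q J (grd ψ))) =
        inner ℂ (jv Q J (grd ψ)) (jv Q J (grd ψ)) := inner_conj_symm _ _
    rw [h1, map_mul, map_mul, ip_conj] at h2
    have h3 : conj (-3 : ℂ) = -3 := by
      have := conj_ofReal (-3)
      simpa using this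
    rw [h3] at h2
    have h4 : (-3 * ip (boxS ψ) (boxS ψ)) * conj cl = (-3 * ip (boxS ψ) (boxS ψ)) * cl := by
      linear_combination h2
    exact mul_left_cancel₀ (mul_ne_zero (by norm_num) hne0) h4
  have rcz : conj cz = cz := by
    have h1 := inner_grd N hJ hl ψ (Wop Q G A a (bas o 1) (jv Q J (grd ψ)))
    simp only [v2 _ (PCv_grd hpψ), dv_grd, i1] at h1
    have h2 : conj (inner ℂ (jv Q J (grd ψ)) (Wop Q G A a (bas o 1) (jv Q J (grd ψ)))) =
        inner ℂ (jv Q J (grd ψ)) (Wop Q G A a (bas o 1) (jv Q J (grd ψ))) := by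
      rw [inner_conj_symm, W_symm N Gg R hb]
    rw [h1, map_mul, map_mul, ip_conj] at h2
    have h3 : conj (-3 : ℂ) = -3 := by
      have := conj_ofReal (-3)
      simpa using this
    rw [h3] at h2
    have h4 : (-3 * ip (boxS ψ) (boxS ψ)) * conj cz = (-3 * ip (boxS ψ) (boxS ψ)) * cz := by
      linear_combination h2
    exact mul_left_cancel₀ (mul_ne_zero (by norm_num) hne0) h4
  -- the form of the generator
  have hE : ∀ f f' : 𝓢(Mink, ℂ), H246R.PC (mftS f) → 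
      inner ℂ (jv Q J (grd f')) (G a (jv Q J (grd f))) =
        -3 * (κ * ip (boxS f') (dS a f) + cz * ip (boxS f') (axS a (boxS f)) -
          cl * I * ip (boxS f') (kdS a 2 (boxS f))) := by
    intro f f' hf
    rw [inner_grd N hJ hl]
    congr 1
    simp only [vl_G hT N Gg R hJ hl hκ hcl hcz hb (PCv_grd hf), dS_grd, dv_grd]
    have h1 : ∀ x : Mink, conj (boxS f' x) * (κ * dS a f x +
        (GF.mdot a x.ofLp : ℂ) * (cz * boxS f x) + cl * (I * (-(kdS a 2 (boxS f) x)))) =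
        conj (boxS f' x) * (κ • dS a f + cz • axS a (boxS f) -
          (cl * I) • kdS a 2 (boxS f) : 𝓢(Mink, ℂ)) x := by
      intro x
      rw [SchwartzMap.sub_apply, SchwartzMap.add_apply, SchwartzMap.smul_apply,
        SchwartzMap.smul_apply, SchwartzMap.smul_apply, axS_apply]
      simp only [smul_eq_mul]
      ring
    simp only [h1]
    have h2 : ip (boxS f') (κ • dS a f + cz • axS a (boxS f) - (cl * I) • kdS a 2 (boxS f)) =
        κ * ip (boxS f') (dS a f) + cz * ip (boxS f') (axS a (boxS f)) -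
          cl * I * ip (boxS f') (kdS a 2 (boxS f)) := by
      rw [ip_sub, ip_add, ip_smul, ip_smul, ip_smul]
    exact h2
  have hs : inner ℂ (jv Q J (grd ψ')) (G a (jv Q J (grd ψ))) =
      conj (inner ℂ (jv Q J (grd ψ)) (G a (jv Q J (grd ψ')))) := by
    rw [inner_conj_symm, H496.G_adj N Gg hb]
  rw [hE ψ ψ' hpψ, hE ψ' ψ hpψ'] at hs
  have h3 : conj (-3 : ℂ) = -3 := by
    have := conj_ofReal (-3)
    simpa using this
  simp only [map_mul, map_sub, map_add, ip_conj, rcl, rcz, h3, conj_I] at hs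
  rw [← ip_ax, ← neg_eq_iff_eq_neg.2 (ip_kd a (boxS ψ') (boxS ψ))] at hs
  have e1 : ip (boxS ψ') (dS a ψ) = ip ψ' ψ' := by
    rw [← ip_box, ← hψ']
  have e2 : ip (dS a ψ') (boxS ψ) = -ip ψ' ψ' := by
    have h5 := ip_dS a ψ' (boxS ψ)
    rw [dS_box, ← hψ'] at h5
    rw [h5, neg_neg]
  rw [e1, e2] at hs
  have h6 : ip ψ' ψ' * conj κ = ip ψ' ψ' * (-κ) := by
    linear_combination (-1 / 3 : ℂ) * hs
  exact mul_left_cancel₀ hne1 h6

end Vale.Agent.P352.N86

end
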