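import Vale.Agent.P352.N86.K.Defs

/-!
# P352: integrations by parts for the block C15
-/

set_option linter.all false

noncomputable section

open MeasureTheory Filter Topology SchwartzMap Complex
open scoped SchwartzMap ComplexConjugate ContDiff LineDeriv

namespace Vale.Agent.P352.N86.C15

open GF (Ix V Fn Fld Theory Sch IsLor bas eta o sim pd tr ev bar)
open H246 H496 H755 H15 H846 H246R H746
open H993 (dS axS xxS kdS dS_apply axS_apply xxS_apply fl_kdS ld_tauS dS_tauS)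
open UniformSpace (Completion)

lemma int_ss (F G : 𝓢(Mink, ℂ)) : Integrable fun x : Mink => F x * G x :=
  (bilinLeftCLM (𝕜 := ℝ) (ContinuousLinearMap.mul ℝ ℂ) G.hasTemperateGrowth F).integrable

lemma int_cs (F G : 𝓢(Mink, ℂ)) : Integrable fun x : Mink => conj (F x) * G x := by
  have h := int_ss (conjS F) G
  simpa only [conjS_apply] using h

/-- the `L²` inner product of Schwartz functions -/
def ip (F G : 𝓢(Mink, ℂ)) : ℂ := ∫ x : Mink, conj (F x) * G x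

lemma ip_conj (F G : 𝓢(Mink, ℂ)) : conj (ip F G) = ip G F := by
  unfold ip
  rw [← integral_conj]
  congr 1
  ext x
  rw [map_mul, conj_conj, mul_comm]

/-- the inner product as a linear map -/
def ipL (F : 𝓢(Mink, ℂ)) : 𝓢(Mink, ℂ) →ₗ[ℂ] ℂ where
  toFun G := ip F G
  map_add' G G' := by
    unfold ip
    rw [← integral_add (int_cs F G) (int_cs F G')]
    congr 1
    ext x
    rw [SchwartzMap.add_apply]
    ring
  map_smul' c G := by
    unfold ip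
    rw [RingHom.id_apply, smul_eq_mul, ← integral_const_mul]
    congr 1
    ext x
    rw [SchwartzMap.smul_apply, smul_eq_mul]
    ring

lemma ip_add (F G G' : 𝓢(Mink, ℂ)) : ip F (G + G') = ip F G + ip F G' := (ipL F).map_add G G'

lemma ip_sub (F G G' : 𝓢(Mink, ℂ)) : ip F (G - G') = ip F G - ip F G' := (ipL F).map_sub G G'

lemma ip_neg (F G : 𝓢(Mink, ℂ)) : ip F (-G) = -ip F G := (ipL F).map_neg G

lemma ip_smul (c : ℂ) (F G : 𝓢(Mink, ℂ)) : ip F (c • G) = c * ip F G := (ipL F).map_smul c G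

lemma ip_sum {ι : Type*} (s : Finset ι) (F : 𝓢(Mink, ℂ)) (G : ι → 𝓢(Mink, ℂ)) :
    ip F (∑ i ∈ s, G i) = ∑ i ∈ s, ip F (G i) := map_sum (ipL F) G s

lemma ip_add_left (F F' G : 𝓢(Mink, ℂ)) : ip (F + F') G = ip F G + ip F' G := by
  rw [← ip_conj G, ip_add, map_add, ip_conj, ip_conj]

lemma ip_neg_left (F G : 𝓢(Mink, ℂ)) : ip (-F) G = -ip F G := by
  rw [← ip_conj G, ip_neg, map_neg, ip_conj]

lemma ip_smul_left (c : ℂ) (F G : 𝓢(Mink, ℂ)) : ip (c • F) G = conj c * ip F G := by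
  rw [← ip_conj G, ip_smul, map_mul, ip_conj]

lemma ip_sum_left {ι : Type*} (s : Finset ι) (F : ι → 𝓢(Mink, ℂ)) (G : 𝓢(Mink, ℂ)) :
    ip (∑ i ∈ s, F i) G = ∑ i ∈ s, ip (F i) G := by
  rw [← ip_conj G, ip_sum, map_sum]
  exact Finset.sum_congr rfl fun i _ => ip_conj _ _

lemma conj_ld (F : 𝓢(Mink, ℂ)) (v : Mink) :
    (∂_{v} (conjS F) : 𝓢(Mink, ℂ)) = conjS (∂_{v} F : 𝓢(Mink, ℂ)) := by
  ext x
  rw [conjS_apply]
  apply lineDeriv_eq_of_hasDerivAt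
  have h1 := hasDerivAt_line F x v
  have h2 := (Complex.conjCLE.toContinuousLinearMap.hasFDerivAt).comp_hasDerivAt (0 : ℝ) h1
  exact h2

/-- integration by parts -/
lemma ip_d (F G : 𝓢(Mink, ℂ)) (v : Mink) :
    ip F (∂_{v} G : 𝓢(Mink, ℂ)) = -ip (∂_{v} F : 𝓢(Mink, ℂ)) G := by
  have h := integral_mul_lineDerivOp_right_eq_neg_left (μ := (volume : Measure Mink))
    (conjS F) G v
  rw [conj_ld] at h
  simp only [conjS_apply] at h
  exact h

lemma ip_real {A B : 𝓢(Mink, ℂ) → 𝓢(Mink, ℂ)} {k : Mink → ℝ} (hA : ∀ F x, A F x = (k x : ℂ) * F x)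
    (F G : 𝓢(Mink, ℂ)) : ip F (A G) = ip (A F) G := by
  unfold ip
  congr 1
  ext x
  rw [hA, hA, map_mul, conj_ofReal]
  ring

lemma ip_ax (a : V) (F G : 𝓢(Mink, ℂ)) : ip F (axS a G) = ip (axS a F) G :=
  ip_real (B := axS a) (k := fun x => GF.mdot a x.ofLp) (fun F x => axS_apply a F x) F G

lemma ip_dS (a : V) (F G : 𝓢(Mink, ℂ)) : ip F (dS a G) = -ip (dS a F) G := by
  unfold dS
  rw [ip_sum, ip_sum_left, ← Finset.sum_neg_distrib]
  refine Finset.sum_congr rfl fun m _ => ?_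
  rw [ip_smul, ip_smul_left, ip_d, conj_ofReal]
  ring

lemma ip_box (F G : 𝓢(Mink, ℂ)) : ip F (boxS G) = ip (boxS F) G := by
  unfold boxS
  rw [ip_sum, ip_sum_left]
  refine Finset.sum_congr rfl fun m _ => ?_
  rw [ip_smul, ip_smul_left, ip_d, ip_d, conj_ofReal]
  ring

/-- multiplication by a component of the conformal Killing field -/
def Kn (a : V) (n : Ix) (G : 𝓢(Mink, ℂ)) : 𝓢(Mink, ℂ) :=
  (2 : ℂ) • axS a (Xm n G) - (a n : ℂ) • xxS G

lemma Kn_apply (a : V) (n : Ix) (G : 𝓢(Mink, ℂ)) (x : Mink) :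
    Kn a n G x = (cK a x.ofLp n : ℂ) * G x := by
  unfold Kn cK
  rw [SchwartzMap.sub_apply, SchwartzMap.smul_apply, SchwartzMap.smul_apply, axS_apply, Xm_apply,
    xxS_apply]
  simp only [Pi.sub_apply, Pi.smul_apply, smul_eq_mul]
  push_cast
  ring

lemma Kn_sum (a : V) (F : 𝓢(Mink, ℂ)) :
    ∑ n, Kn a n (∂_{eb n} F : 𝓢(Mink, ℂ)) = -kdS a 2 F - (4 : ℂ) • axS a F := by
  ext x
  have h := congrFun (fl_kdS a 2 F) x.ofLp
  have h1 : fl (kdS a 2 F) x.ofLp = kdS a 2 F x := rfl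
  rw [h1] at h
  rw [SchwartzMap.sum_apply, SchwartzMap.sub_apply, SchwartzMap.neg_apply,
    SchwartzMap.smul_apply, axS_apply, h]
  unfold kd ky
  simp only [Kn_apply, pd_fl]
  have h2 : ∀ f : 𝓢(Mink, ℂ), fl f x.ofLp = f x := fun _ => rfl
  simp only [h2, smul_eq_mul]
  push_cast
  ring

lemma ld_axS (a : V) (n : Ix) (G : 𝓢(Mink, ℂ)) : (∂_{eb n} (axS a G) : 𝓢(Mink, ℂ)) =
    ((GF.eta n * a n : ℝ) : ℂ) • G + axS a (∂_{eb n} G : 𝓢(Mink, ℂ)) := by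
  unfold axS
  have h := map_sum (LineDeriv.lineDerivOpCLM ℂ 𝓢(Mink, ℂ) (eb n))
    (fun m => ((GF.eta m * a m : ℝ) : ℂ) • Xm m G) Finset.univ
  have h2 : (∂_{eb n} (∑ m, ((GF.eta m * a m : ℝ) : ℂ) • Xm m G) : 𝓢(Mink, ℂ)) =
      ∑ m, ((GF.eta m * a m : ℝ) : ℂ) • (∂_{eb n} (Xm m G) : 𝓢(Mink, ℂ)) := by
    refine h.trans (Finset.sum_congr rfl fun m _ => ?_)
    exact (LineDeriv.lineDerivOpCLM ℂ 𝓢(Mink, ℂ) (eb n)).map_smul _ _
  rw [h2]
  simp only [H121.wd_ld_Xm, smul_add, Finset.sum_add_distrib]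
  congr 1
  rw [Finset.sum_eq_single n]
  · simp
  · intro m _ hm
    rw [if_neg (Ne.symm hm), zero_smul, smul_zero]
  · intro h
    exact absurd (Finset.mem_univ n) h

lemma ld_xxS (n : Ix) (G : 𝓢(Mink, ℂ)) : (∂_{eb n} (xxS G) : 𝓢(Mink, ℂ)) =
    ((2 * GF.eta n : ℝ) : ℂ) • Xm n G + xxS (∂_{eb n} G : 𝓢(Mink, ℂ)) := by
  unfold xxS
  have h := map_sum (LineDeriv.lineDerivOpCLM ℂ 𝓢(Mink, ℂ) (eb n))
    (fun m => (GF.eta m : ℂ) • Xm m (Xm m G)) Finset.univ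
  have h2 : (∂_{eb n} (∑ m, (GF.eta m : ℂ) • Xm m (Xm m G)) : 𝓢(Mink, ℂ)) =
      ∑ m, (GF.eta m : ℂ) • (∂_{eb n} (Xm m (Xm m G)) : 𝓢(Mink, ℂ)) := by
    refine h.trans (Finset.sum_congr rfl fun m _ => ?_)
    exact (LineDeriv.lineDerivOpCLM ℂ 𝓢(Mink, ℂ) (eb n)).map_smul _ _
  rw [h2]
  simp only [H121.wd_ld_Xm, map_add, smul_add, Finset.sum_add_distrib]
  rw [← add_assoc]
  congr 1
  rw [Finset.sum_eq_single n, Finset.sum_eq_single n]
  · simp only [if_true, one_smul]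
    rw [← add_smul]
    congr 1
    push_cast
    ring
  · intro m _ hm
    rw [if_neg (Ne.symm hm), zero_smul, map_zero, smul_zero]
  · intro h
    exact absurd (Finset.mem_univ n) h
  · intro m _ hm
    rw [if_neg (Ne.symm hm), zero_smul, smul_zero]
  · intro h
    exact absurd (Finset.mem_univ n) h

lemma ld_Kn (a : V) (n : Ix) (G : 𝓢(Mink, ℂ)) (x : Mink) :
    (∂_{eb n} (Kn a n G) : 𝓢(Mink, ℂ)) x =
      (2 * (GF.eta n * a n) * x n + 2 * GF.mdot a x.ofLp - 2 * GF.eta n * a n * x n : ℝ) * G x +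
      Kn a n (∂_{eb n} G : 𝓢(Mink, ℂ)) x := by
  have h1 : (∂_{eb n} (Kn a n G) : 𝓢(Mink, ℂ)) =
      (2 : ℂ) • (∂_{eb n} (axS a (Xm n G)) : 𝓢(Mink, ℂ)) -
        (a n : ℂ) • (∂_{eb n} (xxS G) : 𝓢(Mink, ℂ)) := by
    have h := (LineDeriv.lineDerivOpCLM ℂ 𝓢(Mink, ℂ) (eb n)).map_sub
      ((2 : ℂ) • axS a (Xm n G)) ((a n : ℂ) • xxS G)
    refine h.trans ?_
    rw [ContinuousLinearMap.map_smul, ContinuousLinearMap.map_smul]
    rfl
  rw [h1, ld_axS, ld_xxS, H121.wd_ld_Xm, if_pos rfl, one_smul]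
  rw [Kn_apply]
  simp only [SchwartzMap.sub_apply, SchwartzMap.add_apply, SchwartzMap.smul_apply, axS_apply,
    xxS_apply, Xm_apply, smul_eq_mul]
  unfold cK
  simp only [Pi.sub_apply, Pi.smul_apply, smul_eq_mul]
  push_cast
  ring

lemma ld_Kn_sum (a : V) (G : 𝓢(Mink, ℂ)) :
    ∑ n, (∂_{eb n} (Kn a n G) : 𝓢(Mink, ℂ)) = -kdS a 2 G + (4 : ℂ) • axS a G := by
  have h : ∑ n, (∂_{eb n} (Kn a n G) : 𝓢(Mink, ℂ)) =
      (8 : ℂ) • axS a G + ∑ n, Kn a n (∂_{eb n} G : 𝓢(Mink, ℂ)) := by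
    ext x
    rw [SchwartzMap.add_apply, SchwartzMap.sum_apply, SchwartzMap.sum_apply,
      SchwartzMap.smul_apply, axS_apply]
    simp only [ld_Kn, Finset.sum_add_distrib, smul_eq_mul]
    congr 1
    simp only [Fin.sum_univ_four]
    push_cast
    ring
  rw [h, Kn_sum]
  module

/-- the conformal transformations of a field of dimension two are antisymmetric -/
theorem ip_kd (a : V) (F G : 𝓢(Mink, ℂ)) : ip F (kdS a 2 G) = -ip (kdS a 2 F) G := by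
  have h1 : ip F (∑ n, (∂_{eb n} (Kn a n G) : 𝓢(Mink, ℂ))) =
      -ip (∑ n, Kn a n (∂_{eb n} F : 𝓢(Mink, ℂ))) G := by
    rw [ip_sum, ip_sum_left, ← Finset.sum_neg_distrib]
    refine Finset.sum_congr rfl fun n _ => ?_
    rw [ip_d, ip_real (B := Kn a n) (k := fun x => cK a x.ofLp n) (fun F x => Kn_apply a n F x)]
  rw [ld_Kn_sum, Kn_sum, ip_add, ip_neg, ip_smul, sub_eq_add_neg, ip_add_left, ip_neg_left,
    ip_neg_left, ip_smul_left, ip_ax] at h1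
  have h2 : conj (4 : ℂ) = 4 := by
    have := conj_ofReal 4
    simpa using this
  rw [h2] at h1
  linear_combination -h1

end Vale.Agent.P352.N86.C15

end
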