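import Vale.Agent.P352.N86.K.C15a
import Vale.Agent.P352.N86.K.C2
import Vale.Agent.P352.N86.K.C5
import Vale.Agent.P352.N86.K.C7
import Vale.Agent.P352.N86.K.C10
import Vale.Agent.P352.N86.K.C11
import Vale.Agent.P352.N86.K.C12

/-!
# P352: the second relation between the values of the deformed potential
-/

set_option linter.all false

noncomputable section

open MeasureTheory Filter Topology SchwartzMap Complex
open scoped SchwartzMap ComplexConjugate ContDiff LineDeriv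

namespace Vale.Agent.P352.N86.C15

open GF (Ix V Fn Fld Theory Sch IsLor bas eta o sim pd tr ev bar)
open H246 H496 H755 H15 H846 H246R H746
open H993 (dS axS xxS kdS dS_apply axS_apply xxS_apply fl_kdS ld_tauS dS_tauS)
open UniformSpace (Completion)

variable {D : Type*} [NormedAddCommGroup D] [InnerProductSpace ℂ D]
variable {Q : GF.Theory D} {T : Ix → Ix → GF.Fld D} {J : Ix → GF.Fld D}
variable {H : D → D} {alg : Set V → Set (D → D)} {S : V → ℝ → D → D} {G : V → D → D}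
variable {A : (V → V) → D → D} {l : Fn → Completion D}

/-! ### Functionals -/

/-- the values of the potential: additivity, homogeneity, covariance -/
lemma vl_lin (hT : Q.IsStress T) (N : CNet Q H alg S) (hl : IsPot Q T l) :
    (∀ v w, vl l (v + w) = vl l v + vl l w) ∧ (∀ (c : ℂ) v, vl l (c • v) = c * vl l v) ∧
      ∀ σ L v, 0 < σ → IsLor L → vl l (Q.U σ L 0 v) = ((σ ^ 2)⁻¹ : ℝ) * vl l v := by
  obtain ⟨φ, n, hv, hvl, hq⟩ := exists_vl hT N hl
  refine ⟨fun v w => ?_, fun c v => ?_, fun σ L v hσ hL => ?_⟩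
  · rw [hvl, hvl, hvl, pt_add' N (pw1_mem N.toNet n)]
  · rw [hvl, hvl, pt_smul' N (pw1_mem N.toNet n)]
  · rw [hvl, hvl, hq σ L v hσ hL]

lemma vl_sum (hT : Q.IsStress T) (N : CNet Q H alg S) (hl : IsPot Q T l) {ι : Type*}
    (s : Finset ι) (w : ι → D) : vl l (∑ i ∈ s, w i) = ∑ i ∈ s, vl l (w i) := by
  set f : D →ₗ[ℂ] ℂ :=
    { toFun := vl l
      map_add' := (vl_lin hT N hl).1
      map_smul' := fun c v => by
        rw [(vl_lin hT N hl).2.1, RingHom.id_apply, smul_eq_mul] } with hf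
  exact map_sum f w s

lemma vl_int (N : CNet Q H alg S) (hl : IsPot Q T l) (F : 𝓢(Mink, ℂ)) (v : D) :
    inner ℂ (l (fl F)) (v : Completion D) = ∫ x : Mink, conj (F x) * vl l (U1 Q (-x) v) := by
  obtain ⟨κ, hκ⟩ := hl.exists_clm
  obtain ⟨φ, φ', φ'', n, h, -, -⟩ := exists_pdata N κ (pot_cov hl hκ) 0
  simp only [vl_rep N hl hκ h]
  rw [← hκ, h]

lemma vj_pt (N : CNet Q H alg S) (hJ : IsVirial Q T J) (m : Ix) :
    (∀ v w, vj Q J m (v + w) = vj Q J m v + vj Q J m w) ∧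
      ∀ (c : ℂ) v, vj Q J m (c • v) = c * vj Q J m v := by
  have hf : ∀ m, Q.fld (J m) := fun m => Q.bose_fld _ (hJ.bose m)
  obtain ⟨μ, K, w, n, h⟩ := exists_kc N.toNet hf (bas m 1)
  have hB := pw1_mem N.toNet n
  have e := fun v => vj_eq N.toNet hf hB h v
  exact ⟨fun v w => by rw [e, e, e, pt_add' N hB], fun c v => by rw [e, e, pt_smul' N hB]⟩

lemma U_sum {s : ℝ} (hs : 0 < s) {L : Ix → V} (hL : IsLor L) (a : V) {ι : Type*}
    (t : Finset ι) (w : ι → D) : Q.U s L a (∑ i ∈ t, w i) = ∑ i ∈ t, Q.U s L a (w i) := by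
  set f : D →ₗ[ℂ] D :=
    { toFun := Q.U s L a
      map_add' := U_add hs hL a
      map_smul' := U_smul hs hL a } with hf
  exact map_sum f w t

/-! ### Translations -/

/-- the translated components -/
def sh (x : Mink) (g : Ix → 𝓢(Mink, ℂ)) : Ix → 𝓢(Mink, ℂ) := fun m => tauS (-x) (g m)

lemma PCv_sh {g : Ix → 𝓢(Mink, ℂ)} (hg : PCv g) (x : Mink) : PCv (sh x g) :=
  fun m => PC_tauS (hg m) (-x)

lemma U1_jv (hJ : IsVirial Q T J) (x : Mink) (g : Ix → 𝓢(Mink, ℂ)) :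
    U1 Q (-x) (jv Q J g) = jv Q J (sh x g) := by
  have h : U1 Q (-x) (∑ m, J m (fl (g m)) Q.vac) = ∑ m, U1 Q (-x) (J m (fl (g m)) Q.vac) :=
    U_sum one_pos isLor_one _ _ _
  unfold jv
  rw [h]
  exact Finset.sum_congr rfl fun m _ => U1_J hJ.vfld x m (g m)

lemma dv_sh (x : Mink) (g : Ix → 𝓢(Mink, ℂ)) : dv (sh x g) = tauS (-x) (dv g) := by
  ext y
  unfold dv sh
  rw [tauS_apply, SchwartzMap.sum_apply, SchwartzMap.sum_apply]
  refine Finset.sum_congr rfl fun m _ => ?_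
  rw [SchwartzMap.smul_apply, SchwartzMap.smul_apply, ld_tauS, tauS_apply]

lemma dv_sh_zero (x : Mink) (g : Ix → 𝓢(Mink, ℂ)) : dv (sh x g) 0 = dv g x := by
  rw [dv_sh, tauS_neg_zero]

/-! ### The commutator term -/

lemma Yx_zero (a x : V) : Yx a x 0 = cK a x := by
  funext n
  simp [Yx, cK, GF.mdot]

lemma Yx_sim (a x : V) : ∃ w : Ix → V,
    (∀ m n, GF.eta n * w m n = -(GF.eta m * w n m)) ∧
    ∀ z n, Yx a x z n = cK a x n + (2 * GF.mdot a x) * z n + ∑ m, z m * w m n := by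
  refine ⟨fun m n => 2 * GF.eta m * a m * x n - 2 * GF.eta m * x m * a n, fun m n => ?_,
    fun z n => ?_⟩
  · ring
  · unfold Yx cK
    simp only [gf_mdot, Fin.sum_univ_four, Pi.add_apply, Pi.sub_apply, Pi.smul_apply,
      smul_eq_mul, eta_0, eta_1, eta_2, eta_3]
    ring

section

variable (hT : Q.IsStress T) (N : CNet Q H alg S) (R : H15.Rep Q A)
variable (hJ : IsVirial Q T J) (hl : IsPot Q T l)
include hT N R hJ hl

/-- the values of the potential on the image of the commutator -/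
lemma vl_comm {cl : ℂ} (hcl : ∀ g, PCv g → vl l (jv Q J g) = cl * dv g 0) (a : V)
    {g : Ix → 𝓢(Mink, ℂ)} (hg : PCv g) (x : Mink) :
    vl l (A (Yx a x.ofLp) (U1 Q (-x) (jv Q J g))) = cl * (I * (-(kdS a 2 (dv g) x))) := by
  obtain ⟨w, hw, hY⟩ := Yx_sim a x.ofLp
  rw [U1_jv hJ]
  obtain ⟨g', hg', e1, e2⟩ := A_jv R hJ hw hY (PCv_sh hg x)
  rw [e1, hcl g' hg', e2, dv_sh]
  congr 1
  rw [SchwartzMap.smul_apply, SchwartzMap.add_apply, SchwartzMap.smul_apply, smul_eq_mul,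
    smul_eq_mul, tauS_neg_zero]
  have h1 : vfS w (2 * GF.mdot a x.ofLp) (cK a x.ofLp) (tauS (-x) (dv g)) 0 =
      vf (Yx a x.ofLp) (fl (tauS (-x) (dv g))) 0 := by
    rw [← fl_vfS hY]
    rfl
  rw [h1]
  have h2 := congrFun (fl_kdS a 2 (dv g)) x.ofLp
  have h3 : fl (kdS a 2 (dv g)) x.ofLp = kdS a 2 (dv g) x := rfl
  rw [h3] at h2
  rw [h2]
  unfold vf kd ky
  rw [Yx_zero]
  have h4 : ∀ n, pd n (fl (tauS (-x) (dv g))) 0 = pd n (fl (dv g)) x.ofLp := by
    intro n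
    rw [pd_fl, pd_fl, ld_tauS]
    exact tauS_neg_zero x _
  have h5 : fl (dv g) x.ofLp = dv g x := rfl
  simp only [h4, h5]
  push_cast
  ring

end

section

variable (hT : Q.IsStress T) (N : CNet Q H alg S) (Gg : Gnr Q alg S G) (R : H15.Rep Q A)
variable (hJ : IsVirial Q T J) (hl : IsPot Q T l)
include hT N Gg R hJ hl

omit hT N Gg R hJ hl in
lemma mdot_sim {L : Ix → V} (hL : IsLor L) (y z : V) :
    GF.mdot (sim 1 L 0 y) (sim 1 L 0 z) = GF.mdot y z := by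
  have h1 := mdot_lam hL (WithLp.toLp 2 y) (WithLp.toLp 2 z)
  rw [← toLp_sim, ← toLp_sim] at h1
  rw [gf_mdot, gf_mdot]
  exact h1

omit hT N Gg R hJ hl in
lemma mdot_b : GF.mdot (nu (-1)) (bas o 1) = 1 := by
  rw [gf_mdot]
  simp [nu, bas, o]

/-- the version of `S1` for the potential -/
lemma vl_W {X : D} (hX : InJ Q J X) {a : V} (ha : IsNull a) (x : V) :
    vl l (Wop Q G A a x X) = (GF.mdot a x : ℂ) * zl Q l G A X := by
  obtain ⟨vadd, vsmul, -⟩ := vl_lin hT N hl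
  have hb : IsNull (nu (-1)) := isNull_nu (Or.inr rfl)
  have h := vl_zero_of hT N hJ hl (v := Wop Q G A a x X +
    (-(GF.mdot a x : ℂ)) • Wop Q G A (nu (-1)) (bas o 1) X) (fun m y => by
      obtain ⟨jadd, jsmul⟩ := vj_pt N hJ m
      rw [U_add one_pos isLor_one, U_smul one_pos isLor_one, jadd, jsmul,
        S1 N Gg R hJ hX ha x y m, S1 N Gg R hJ hX hb (bas o 1) y m, mdot_b]
      push_cast
      ring)
  rw [vadd, vsmul] at h
  show vl l (Wop Q G A a x X) = (GF.mdot a x : ℂ) * vl l (Wop Q G A (nu (-1)) (bas o 1) X)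
  linear_combination h

lemma zl_cov {X : D} (hX : InJ Q J X) {σ : ℝ} (hσ : 0 < σ) {L : Ix → V} (hL : IsLor L) :
    zl Q l G A (Q.U σ L 0 X) = ((σ ^ 2)⁻¹ : ℝ) * zl Q l G A X := by
  obtain ⟨vadd, vsmul, vcov⟩ := vl_lin hT N hl
  have hb : IsNull (nu (-1)) := isNull_nu (Or.inr rfl)
  have hsl : ∀ z : V, sim 1 L 0 (sim 1 (linv L) 0 z) = z := by
    intro z
    have h1 : (WithLp.toLp 2 (sim 1 L 0 (sim 1 (linv L) 0 z)) : Mink) = WithLp.toLp 2 z := by
      rw [toLp_sim, toLp_sim, lam_linv hL]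
    exact congrArg WithLp.ofLp h1
  set a' : V := sim 1 (linv L) 0 (nu (-1)) with ha'
  have hab : sim 1 L 0 a' = (1 : ℝ) • nu (-1) := by rw [ha', hsl, one_smul]
  have hnull : IsNull a' := isNull_lor (isLor_linv hL) hb
  set x' : V := σ⁻¹ • sim 1 (linv L) 0 (bas o 1) with hx'
  have hs1 : ∀ z : V, sim σ L 0 (σ⁻¹ • z) = sim 1 L 0 z := by
    intro z
    funext n
    simp only [sim, Pi.zero_apply, Pi.smul_apply, smul_eq_mul, zero_add, one_mul, mul_assoc]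
    rw [← Finset.mul_sum, ← mul_assoc, mul_inv_cancel₀ hσ.ne', one_mul]
  have hx1 : sim σ L 0 x' = bas o 1 := by rw [hx', hs1, hsl]
  have h1 := W_cov N Gg R hσ one_pos hL hnull hb hab x' X
  rw [hx1] at h1
  have h2 := congrArg (vl l) h1
  rw [vcov σ L _ hσ hL, vsmul, vl_W hT N Gg R hJ hl hX hnull] at h2
  have h3 : GF.mdot a' x' = σ⁻¹ := by
    rw [hx', ha', gm_smul, mdot_sim (isLor_linv hL), mdot_b, mul_one]
  rw [h3] at h2
  have hσ' : (σ : ℂ) ≠ 0 := by exact_mod_cast hσ.ne'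
  show vl l (Wop Q G A (nu (-1)) (bas o 1) (Q.U σ L 0 X)) = _
  have h4 : ((σ : ℝ) : ℂ) * (((1 / σ : ℝ) : ℂ) *
      vl l (Wop Q G A (nu (-1)) (bas o 1) (Q.U σ L 0 X))) =
      vl l (Wop Q G A (nu (-1)) (bas o 1) (Q.U σ L 0 X)) := by
    push_cast
    field_simp
  rw [← h4, ← h2]
  push_cast
  field_simp

/-- the two numbers -/
lemma exists_cl : ∃ cl : ℂ, ∀ g, PCv g → vl l (jv Q J g) = cl * dv g 0 := by
  obtain ⟨vadd, vsmul, vcov⟩ := vl_lin hT N hl
  obtain ⟨φ, n, -, hvl, -⟩ := exists_vl hT N hl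
  refine cls_inv N hJ vadd (fun m => ?_) (fun σ L X hσ hL _ => vcov σ L X hσ hL)
  obtain ⟨K, hK⟩ := exists_fun N φ (Q.bose_fld _ (hJ.bose m)) (pw1_mem N.toNet n)
  exact ⟨K, fun F => by rw [hK, hvl]; rfl⟩

lemma exists_cz : ∃ cz : ℂ, ∀ g, PCv g → zl Q l G A (jv Q J g) = cz * dv g 0 := by
  obtain ⟨vadd, vsmul, vcov⟩ := vl_lin hT N hl
  have hb : IsNull (nu (-1)) := isNull_nu (Or.inr rfl)
  obtain ⟨φ, n, -, hvl, -⟩ := exists_vl hT N hl
  refine cls_inv N hJ (fun v w => ?_) (fun m => ?_)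
    (fun σ L X hσ hL hX => zl_cov hT N Gg R hJ hl hX hσ hL)
  · show vl l (Wop Q G A (nu (-1)) (bas o 1) (v + w)) = _
    rw [W_add N Gg R hb, vadd]
    rfl
  · obtain ⟨Y, -, hY⟩ := N.adj _ _ (pw1_mem N.toNet n)
    obtain ⟨K, hK⟩ := exists_adjL (Q := Q)
      (B := fun v => pw1 H n (Wop Q G A (nu (-1)) (bas o 1) v))
      ⟨fun w => Wop Q G A (nu (-1)) (bas o 1) (Y w), fun v w => by
        rw [hY, W_symm N Gg R hb]⟩ (Q.bose_fld _ (hJ.bose m))
    refine ⟨(innerSL ℂ φ).comp K, fun F => ?_⟩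
    show inner ℂ φ (K F) = vl l (Wop Q G A (nu (-1)) (bas o 1) (J m (fl F) Q.vac))
    rw [hK, hvl]
    rfl

/-- the values of the deformed potential on the vectors of the virial current -/
lemma vl_G {κ cl cz : ℂ} (hκ : ∀ a, IsNull a → ∀ g : 𝓢(Mink, ℂ),
      H246R.PC (mftS g) → ∀ (m : Ix) (y : V),
      vl l (G a (Q.U 1 GF.one (-y) (J m (fl g) Q.vac))) = κ * (a m : ℂ) * toSchL g y)
    (hcl : ∀ g, PCv g → vl l (jv Q J g) = cl * dv g 0)
    (hcz : ∀ g, PCv g → zl Q l G A (jv Q J g) = cz * dv g 0) {a : V} (ha : IsNull a)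
    {g : Ix → 𝓢(Mink, ℂ)} (hg : PCv g) (x : Mink) :
    vl l (U1 Q (-x) (G a (jv Q J g))) = κ * ∑ m, (a m : ℂ) * g m x +
      (GF.mdot a x.ofLp : ℂ) * (cz * dv g x) + cl * (I * (-(kdS a 2 (dv g) x))) := by
  obtain ⟨vadd, vsmul, vcov⟩ := vl_lin hT N hl
  set X := U1 Q (-x) (jv Q J g) with hX
  have hXJ : InJ Q J X := ⟨sh x g, PCv_sh hg x, U1_jv hJ x g⟩
  have h0 : U1 Q x X = jv Q J g := by
    rw [hX, U1_U1_all, add_neg_cancel, U1_zero_all]
  have h1 : U1 Q (-x) (G a (jv Q J g)) = G a X + Wop Q G A a x.ofLp X + A (Yx a x.ofLp) X := by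
    have h2 : Wop Q G A a x.ofLp X = U1 Q (-x) (G a (U1 Q x X)) - G a X - A (Yx a x.ofLp) X := rfl
    rw [h2, h0]
    abel
  rw [h1, vadd, vadd, vl_W hT N Gg R hJ hl hXJ ha, vl_comm hT N R hJ hl hcl a hg x]
  have h3 : zl Q l G A X = cz * dv g x := by
    rw [hX, U1_jv hJ, hcz _ (PCv_sh hg x), dv_sh_zero]
  have h4 : vl l (G a X) = κ * ∑ m, (a m : ℂ) * g m x := by
    have h5 : X = ∑ m, U1 Q (-x) (J m (fl (g m)) Q.vac) := U_sum one_pos isLor_one _ _ _
    have h6 : G a X = ∑ m, G a (U1 Q (-x) (J m (fl (g m)) Q.vac)) := by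
      set f : D →ₗ[ℂ] D :=
        { toFun := G a
          map_add' := H496.G_add N Gg ha
          map_smul' := H496.G_smul N Gg ha } with hf
      rw [h5]
      exact map_sum f _ _
    rw [h6, vl_sum hT N hl, Finset.mul_sum]
    refine Finset.sum_congr rfl fun m _ => ?_
    have h7 := hκ a ha (g m) (hg m) m x.ofLp
    have h8 : toSchL (g m) x.ofLp = g m x := rfl
    rw [h8] at h7
    rw [← mul_assoc]
    exact h7
  rw [h3, h4]

end

end Vale.Agent.P352.N86.C15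

end
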