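import Vale.Agent.P352.N86.K.Defs

set_option linter.all false

noncomputable section

open MeasureTheory Filter Topology SchwartzMap Complex
open scoped SchwartzMap ComplexConjugate ContDiff LineDeriv

namespace Vale.Agent.P352.N86.C6

open GF (Ix V Fn Fld Theory Sch IsLor bas eta o sim pd tr ev bar)
open H246 H496 H755 H15 H846 H246R H746
open UniformSpace (Completion)

/-! ### The null vectors with `c·b = 1` -/

/-- the null vectors `c` with `c · nu (-1) = 1` -/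
def cV (v : ℝ × ℝ) : V := sim 1 (nr v) 0 ((1 / 2 : ℝ) • nu 1)

lemma cV_apply (v : ℝ × ℝ) : cV v =
    ![(1 + (v.1 ^ 2 + v.2 ^ 2)) / 2, (1 - (v.1 ^ 2 + v.2 ^ 2)) / 2, v.1, v.2] := by
  unfold cV
  funext n
  fin_cases n <;> simp [sim, nr, nu, Fin.sum_univ_four] <;> ring

lemma isNull_a0' : IsNull ((1 / 2 : ℝ) • nu 1) := by
  refine ⟨?_, ?_⟩
  · rw [gf_mdot]; simp [nu]
  · show 0 < (1 / 2 : ℝ) * nu 1 0
    simp [nu]

lemma isNull_cV (v : ℝ × ℝ) : IsNull (cV v) := by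
  rw [cV_apply]
  refine ⟨?_, ?_⟩
  · rw [gf_mdot]; simp; ring
  · show 0 < (1 + (v.1 ^ 2 + v.2 ^ 2)) / 2
    positivity

lemma mdot_cV (v : ℝ × ℝ) : GF.mdot (cV v) (nu (-1)) = 1 := by
  rw [cV_apply, gf_mdot]; simp [nu]; ring

lemma eq_cV {c : V} (hc : IsNull c) (hcb : GF.mdot c (nu (-1)) = 1) : c = cV (c 2, c 3) := by
  have h1 := hc.1
  rw [gf_mdot] at h1 hcb
  have h2 : c 0 + c 1 = 1 := by
    simp [nu] at hcb
    linarith
  have h3 : c 0 = (1 + (c 2 ^ 2 + c 3 ^ 2)) / 2 := by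
    have : c 1 = 1 - c 0 := by linarith
    rw [this] at h1
    linarith
  rw [cV_apply]
  funext n
  fin_cases n
  · simpa using h3
  · simp; linarith
  · simp
  · simp

lemma cV_zero_apply (v : ℝ × ℝ) : cV v o = (1 + (v.1 ^ 2 + v.2 ^ 2)) / 2 := by
  rw [cV_apply]; rfl

lemma nr_smul_nu (v : ℝ × ℝ) (u : ℝ) : sim 1 (nr v) 0 (u • nu (-1)) = u • nu (-1) := by
  funext n
  fin_cases n <;> simp [sim, nu, nr, Fin.sum_univ_four] <;> ring

lemma boost_smul_nu (t u : ℝ) : sim (Real.exp t) (mBoost t) 0 (u • nu (-1)) = u • nu (-1) := by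
  have h := Real.cosh_sub_sinh t
  have h2 : Real.exp t * Real.exp (-t) = 1 := by rw [← Real.exp_add]; simp
  rw [← h] at h2
  funext n
  fin_cases n
  · simp [sim, nu, mBoost, Fin.sum_univ_four]
    linear_combination u * h2
  · simp [sim, nu, mBoost, Fin.sum_univ_four]
    linear_combination (-u) * h2
  · simp [sim, nu, mBoost, Fin.sum_univ_four]
  · simp [sim, nu, mBoost, Fin.sum_univ_four]

lemma boost_a0' (t : ℝ) : sim 1 (mBoost t) 0 ((1 / 2 : ℝ) • nu 1) =
    Real.exp t • ((1 / 2 : ℝ) • nu 1) := by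
  have h := Real.cosh_add_sinh t
  funext n
  fin_cases n
  · simp [sim, nu, mBoost, Fin.sum_univ_four]
    linear_combination (1 / 2) * h
  · simp [sim, nu, mBoost, Fin.sum_univ_four]
    linear_combination (1 / 2) * h
  · simp [sim, nu, mBoost, Fin.sum_univ_four]
  · simp [sim, nu, mBoost, Fin.sum_univ_four]

/-- functions that are affine along lines and bounded are constant -/
lemma const_of_affine {f : ℝ × ℝ → ℂ}
    (h : ∀ v w : ℝ × ℝ, f (v + (2 : ℝ) • w) - 2 * f (v + w) + f v = 0)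
    {C : ℝ} (hC : ∀ v, ‖f v‖ ≤ C) (v w : ℝ × ℝ) : f (v + w) = f v := by
  have h1 : ∀ n : ℕ, f (v + (n : ℝ) • w) = f v + n * (f (v + w) - f v) ∧
      f (v + ((n + 1 : ℕ) : ℝ) • w) = f v + ((n + 1 : ℕ) : ℂ) * (f (v + w) - f v) := by
    intro n
    induction n with
    | zero => simp
    | succ n ih =>
      refine ⟨ih.2, ?_⟩
      have h2 := h (v + (n : ℝ) • w) w
      have e1 : v + (n : ℝ) • w + (2 : ℝ) • w = v + ((n + 1 + 1 : ℕ) : ℝ) • w := by
        rw [add_assoc, ← add_smul]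
        congr 2
        push_cast
        ring
      have e2 : v + (n : ℝ) • w + w = v + ((n + 1 : ℕ) : ℝ) • w := by
        nth_rewrite 2 [← one_smul ℝ w]
        rw [add_assoc, ← add_smul]
        congr 2
        push_cast
        ring
      rw [e1, e2, ih.1, ih.2] at h2
      push_cast at h2 ⊢
      linear_combination h2
  obtain ⟨δ, hδ⟩ : ∃ δ, δ = f (v + w) - f v := ⟨_, rfl⟩
  have h2 : ∀ n : ℕ, (n : ℝ) * ‖δ‖ ≤ 2 * C := by
    intro n
    have h3 := (h1 n).1
    have h4 : (n : ℂ) * δ = f (v + (n : ℝ) • w) - f v := by rw [h3, hδ]; ring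
    have h5 : ‖(n : ℂ) * δ‖ = (n : ℝ) * ‖δ‖ := by rw [norm_mul, Complex.norm_natCast]
    rw [← h5, h4]
    refine (norm_sub_le _ _).trans ?_
    linarith [hC (v + (n : ℝ) • w), hC v]
  have h3 : δ = 0 := by
    by_contra hne
    have hpos : 0 < ‖δ‖ := norm_pos_iff.2 hne
    obtain ⟨n, hn⟩ := exists_nat_gt (2 * C / ‖δ‖)
    have := h2 n
    rw [div_lt_iff₀ hpos] at hn
    linarith
  have h4 : f (v + w) - f v = 0 := by rw [← hδ]; exact h3
  exact sub_eq_zero.1 h4

variable {D : Type*} [NormedAddCommGroup D] [InnerProductSpace ℂ D]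
variable {Q : GF.Theory D} {T : Ix → Ix → GF.Fld D} {J : Ix → GF.Fld D}
variable {H : D → D} {alg : Set V → Set (D → D)} {S : V → ℝ → D → D} {G : V → D → D}
variable {A : (V → V) → D → D} {l : Fn → Completion D}

section

variable (N : CNet Q H alg S) (hJ : IsVirial Q T J)
include N hJ

/-- the components of the virial current as a point like functional -/
lemma exists_vc_pt (c : V) : ∃ (φ : Completion D) (n : ℕ), ∀ v, vc Q J c v = pt φ (pw1 H n) v := by
  have hf : ∀ m, Q.fld (J m) := fun m => Q.bose_fld _ (hJ.bose m)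
  obtain ⟨μ, K, w, n, h⟩ := exists_kc N.toNet hf (fun m => GF.eta m * c m)
  exact ⟨K.J w, n, fun v => sum_vj N.toNet hf (pw1_mem N.toNet n) h v⟩

lemma vc_add6 (c : V) (v w : D) : vc Q J c (v + w) = vc Q J c v + vc Q J c w := by
  obtain ⟨φ, n, h⟩ := exists_vc_pt N hJ c
  rw [h, h, h, pt_add' N (pw1_mem N.toNet n)]

lemma vc_smul6 (c : V) (z : ℂ) (v : D) : vc Q J c (z • v) = z * vc Q J c v := by
  obtain ⟨φ, n, h⟩ := exists_vc_pt N hJ c
  rw [h, h, pt_smul' N (pw1_mem N.toNet n)]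

lemma vc_sub6 (c : V) (v w : D) : vc Q J c (v - w) = vc Q J c v - vc Q J c w := by
  rw [sub_eq_add_neg, ← neg_one_smul ℂ w, vc_add6 N hJ, vc_smul6 N hJ]
  ring

/-- invariance under the null rotations -/
lemma vc_Rn (v : ℝ × ℝ) (w : D) : vc Q J (nu (-1)) (Rn Q v w) = vc Q J (nu (-1)) w := by
  have h := fun m => vj_cov N hJ one_pos (isLor_nr v) m w
  unfold vc Rn
  simp only [h, Fin.sum_univ_four]
  simp [nu, nr, eta_0, eta_1, eta_2, eta_3]
  ring

end

lemma Rn_U1nu (N : CNet Q H alg S) (v : ℝ × ℝ) (u : ℝ) (w : D) :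
    Q.U 1 GF.one (-(u • nu (-1))) (Rn Q v w) = Rn Q v (Q.U 1 GF.one (-(u • nu (-1))) w) := by
  have h := Rn_U1 N v (WithLp.toLp 2 (-(u • nu (-1)))) w
  have e : lam (nr v) (WithLp.toLp 2 (-(u • nu (-1)))) = WithLp.toLp 2 (-(u • nu (-1))) := by
    rw [← toLp_sim, ← neg_smul, nr_smul_nu]
  rw [e] at h
  exact h.symm

end Vale.Agent.P352.N86.C6

end
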