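import Vale.Agent.P352.N86.K.Defs

/-!
# P352: linear algebra of null vectors, linearity and rotation of the values of the virial current
-/

set_option linter.all false

noncomputable section

open MeasureTheory Filter Topology SchwartzMap Complex
open scoped SchwartzMap ComplexConjugate ContDiff LineDeriv

namespace Vale.Agent.P352.N86

open GF (Ix V Fn Fld Theory Sch IsLor bas eta o sim pd tr ev bar)
open H246 H496 H755 H15 H846 H246R H746
open UniformSpace (Completion)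

variable {D : Type*} [NormedAddCommGroup D] [InnerProductSpace ℂ D]
variable {Q : GF.Theory D} {T : Ix → Ix → GF.Fld D} {J : Ix → GF.Fld D}
variable {H : D → D} {alg : Set V → Set (D → D)} {S : V → ℝ → D → D} {G : V → D → D}
variable {A : (V → V) → D → D} {l : Fn → Completion D}

/-! ### Null vectors off two rays span -/

lemma c7_quad3 {a0 a1 a2 b0 b1 b2 : ℝ} {p0 p1 p2 : ℂ} (ha : a0 + a2 ≠ 0) (hb : b0 + b2 ≠ 0)
    (h : ∀ s : ℝ, a0 + a1 * s + a2 * s ^ 2 ≠ 0 → b0 + b1 * s + b2 * s ^ 2 ≠ 0 →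
      p0 + p1 * s + p2 * s ^ 2 = 0) : p0 = 0 ∧ p1 = 0 ∧ p2 = 0 := by
  classical
  let q : ℂ → ℂ → ℂ → Polynomial ℂ := fun x y z =>
    Polynomial.C x + Polynomial.C y * Polynomial.X + Polynomial.C z * Polynomial.X ^ 2
  have hc0 : ∀ x y z, (q x y z).coeff 0 = x := by
    intro x y z
    simp [q, Polynomial.coeff_X, Polynomial.coeff_X_pow]
  have hc1 : ∀ x y z, (q x y z).coeff 1 = y := by
    intro x y z
    simp [q, Polynomial.coeff_X, Polynomial.coeff_X_pow, Polynomial.coeff_C]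
  have hc2 : ∀ x y z, (q x y z).coeff 2 = z := by
    intro x y z
    simp [q, Polynomial.coeff_X, Polynomial.coeff_X_pow, Polynomial.coeff_C]
  have hev : ∀ x y z t, (q x y z).eval t = x + y * t + z * t ^ 2 := by
    intro x y z t
    simp [q]
  have hz : q a0 a1 a2 * q b0 b1 b2 * q p0 p1 p2 = 0 := by
    apply Polynomial.eq_zero_of_infinite_isRoot
    refine Set.Infinite.mono ?_ (Set.infinite_range_of_injective Complex.ofReal_injective)
    rintro _ ⟨s, rfl⟩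
    show Polynomial.IsRoot _ _
    rw [Polynomial.IsRoot, Polynomial.eval_mul, Polynomial.eval_mul, hev, hev, hev]
    by_cases h1 : a0 + a1 * s + a2 * s ^ 2 = 0
    · have : (a0 : ℂ) + a1 * s + a2 * s ^ 2 = 0 := by exact_mod_cast h1
      rw [this, zero_mul, zero_mul]
    by_cases h2 : b0 + b1 * s + b2 * s ^ 2 = 0
    · have : (b0 : ℂ) + b1 * s + b2 * s ^ 2 = 0 := by exact_mod_cast h2
      rw [this, mul_zero, zero_mul]
    rw [h s h1 h2, mul_zero]
  have hA : q a0 a1 a2 ≠ 0 := by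
    intro h0
    apply ha
    have e0 := hc0 (a0 : ℂ) a1 a2
    have e2 := hc2 (a0 : ℂ) a1 a2
    rw [h0, Polynomial.coeff_zero] at e0 e2
    have f0 : a0 = 0 := by exact_mod_cast e0.symm
    have f2 : a2 = 0 := by exact_mod_cast e2.symm
    rw [f0, f2, add_zero]
  have hB : q b0 b1 b2 ≠ 0 := by
    intro h0
    apply hb
    have e0 := hc0 (b0 : ℂ) b1 b2
    have e2 := hc2 (b0 : ℂ) b1 b2
    rw [h0, Polynomial.coeff_zero] at e0 e2
    have f0 : b0 = 0 := by exact_mod_cast e0.symm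
    have f2 : b2 = 0 := by exact_mod_cast e2.symm
    rw [f0, f2, add_zero]
  have hP : q p0 p1 p2 = 0 := by
    rcases mul_eq_zero.1 hz with h1 | h1
    · rcases mul_eq_zero.1 h1 with h2 | h2
      · exact absurd h2 hA
      · exact absurd h2 hB
    · exact h1
  refine ⟨?_, ?_, ?_⟩
  · rw [← hc0 p0 p1 p2, hP, Polynomial.coeff_zero]
  · rw [← hc1 p0 p1 p2, hP, Polynomial.coeff_zero]
  · rw [← hc2 p0 p1 p2, hP, Polynomial.coeff_zero]

/-- the product of future null vectors is nonnegative -/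
lemma c7_nonneg {a b : V} (ha : IsNull a) (hb : IsNull b) : 0 ≤ GF.mdot a b := by
  by_contra hneg
  push Not at hneg
  have h2 : 0 < a 0 := ha.2
  have h3 : 0 < b 0 := hb.2
  have h4 := ha.1
  have h5 := hb.1
  rw [gf_mdot] at h4 h5 hneg
  have hc : (a 1 * b 1 + a 2 * b 2 + a 3 * b 3) ^ 2 ≤
      (a 1 ^ 2 + a 2 ^ 2 + a 3 ^ 2) * (b 1 ^ 2 + b 2 ^ 2 + b 3 ^ 2) := by
    nlinarith [sq_nonneg (a 1 * b 2 - a 2 * b 1), sq_nonneg (a 1 * b 3 - a 3 * b 1),
      sq_nonneg (a 2 * b 3 - a 3 * b 2)]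
  have j : (a 1 ^ 2 + a 2 ^ 2 + a 3 ^ 2) = a 0 ^ 2 := by linarith
  have k : (b 1 ^ 2 + b 2 ^ 2 + b 3 ^ 2) = b 0 ^ 2 := by linarith
  rw [j, k, ← mul_pow] at hc
  have h6 : a 0 * b 0 < a 1 * b 1 + a 2 * b 2 + a 3 * b 3 := by linarith
  have h7 : 0 < a 0 * b 0 := mul_pos h2 h3
  nlinarith

/-- the null vectors that are not proportional to `c` or `c'` span -/
lemma c7_span {c c' : V} (hc : IsNull c) (hc' : IsNull c') {L : Ix → ℂ}
    (h : ∀ b, IsNull b → 0 < GF.mdot c b → 0 < GF.mdot c' b →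
      ∑ m, ((GF.eta m * b m : ℝ) : ℂ) * L m = 0) : ∀ m, L m = 0 := by
  have key : ∀ p q : ℝ, p ^ 2 + q ^ 2 = 1 → (L 0 - L 1) / 2 = 0 ∧ -(p * L 2 + q * L 3) = 0 ∧
      (L 0 + L 1) / 2 = 0 := by
    intro p q hpq
    have hc0 : 0 < c 0 := hc.2
    have hc0' : 0 < c' 0 := hc'.2
    refine c7_quad3 (a0 := (c 0 - c 1) / 2) (a1 := -(p * c 2 + q * c 3)) (a2 := (c 0 + c 1) / 2)
      (b0 := (c' 0 - c' 1) / 2) (b1 := -(p * c' 2 + q * c' 3)) (b2 := (c' 0 + c' 1) / 2)
      (by intro h0; apply hc0.ne'; linarith) (by intro h0; apply hc0'.ne'; linarith) ?_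
    intro s h1 h2
    set b : V := ![(1 + s ^ 2) / 2, (1 - s ^ 2) / 2, s * p, s * q] with hb
    have b0 : b 0 = (1 + s ^ 2) / 2 := rfl
    have b1 : b 1 = (1 - s ^ 2) / 2 := rfl
    have b2 : b 2 = s * p := rfl
    have b3 : b 3 = s * q := rfl
    have hbn : IsNull b := by
      refine ⟨?_, ?_⟩
      · rw [gf_mdot, b0, b1, b2, b3]
        linear_combination (-s ^ 2) * hpq
      · show 0 < b 0
        rw [b0]; positivity
    have e1 : GF.mdot c b = (c 0 - c 1) / 2 + -(p * c 2 + q * c 3) * s +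
        (c 0 + c 1) / 2 * s ^ 2 := by
      rw [gf_mdot, b0, b1, b2, b3]; ring
    have e2 : GF.mdot c' b = (c' 0 - c' 1) / 2 + -(p * c' 2 + q * c' 3) * s +
        (c' 0 + c' 1) / 2 * s ^ 2 := by
      rw [gf_mdot, b0, b1, b2, b3]; ring
    have h3 := h b hbn (lt_of_le_of_ne (c7_nonneg hc hbn) (by rw [e1]; exact h1.symm))
      (lt_of_le_of_ne (c7_nonneg hc' hbn) (by rw [e2]; exact h2.symm))
    rw [Fin.sum_univ_four, b0, b1, b2, b3, eta_0, eta_1, eta_2, eta_3] at h3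
    push_cast at h3
    linear_combination h3
  obtain ⟨h0, h1, h2⟩ := key 1 0 (by norm_num)
  obtain ⟨-, h3, -⟩ := key 0 1 (by norm_num)
  intro m
  fin_cases m
  · show L 0 = 0
    linear_combination h0 + h2
  · show L 1 = 0
    linear_combination h2 - h0
  · show L 2 = 0
    push_cast at h1
    linear_combination -h1
  · show L 3 = 0
    push_cast at h3
    linear_combination -h3

/-! ### Values of the virial current -/

section

variable (N : CNet Q H alg S) (hJ : IsVirial Q T J)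
include N hJ

lemma c7_vjd (m : Ix) : ∃ (φ : Completion D) (n : ℕ), ∀ v, vj Q J m v = pt φ (pw1 H n) v := by
  have hf : ∀ m, Q.fld (J m) := fun m => Q.bose_fld _ (hJ.bose m)
  obtain ⟨μ, K, w, n, h⟩ := exists_kc N.toNet hf (bas m 1)
  exact ⟨K.J w, n, fun v => vj_eq N.toNet hf (pw1_mem N.toNet n) h v⟩

lemma c7_vj_add (m : Ix) (v w : D) : vj Q J m (v + w) = vj Q J m v + vj Q J m w := by
  obtain ⟨φ, n, h⟩ := c7_vjd N hJ m
  rw [h, h, h, pt_add' N (pw1_mem N.toNet n)]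

lemma c7_vj_smul (m : Ix) (c : ℂ) (v : D) : vj Q J m (c • v) = c * vj Q J m v := by
  obtain ⟨φ, n, h⟩ := c7_vjd N hJ m
  rw [h, h, pt_smul' N (pw1_mem N.toNet n)]

lemma c7_vj_sub (m : Ix) (v w : D) : vj Q J m (v - w) = vj Q J m v - vj Q J m w := by
  have h : v - w = v + (-1 : ℂ) • w := by rw [neg_one_smul, sub_eq_add_neg]
  rw [h, c7_vj_add N hJ, c7_vj_smul N hJ]
  ring

lemma c7_vj_bd (m : Ix) : ∃ (C : ℝ) (n : ℕ), 0 ≤ C ∧ ∀ (x : V) (v : D),
    ‖vj Q J m (Q.U 1 GF.one x v)‖ ≤ C * ‖pw1 H n v‖ := by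
  obtain ⟨φ, n, h⟩ := c7_vjd N hJ m
  refine ⟨‖φ‖, n, norm_nonneg _, fun x v => ?_⟩
  rw [h, pt]
  refine (norm_inner_le_norm _ _).trans ?_
  have h1 := pw1_comm N.toNet n (WithLp.toLp 2 x) v
  have h2 : pw1 H n (Q.U 1 GF.one x v) = Q.U 1 GF.one x (pw1 H n v) := h1
  rw [Completion.norm_coe, h2, U_nrm0 one_pos isLor_one]

lemma c7_vc_add (a : V) (v w : D) : vc Q J a (v + w) = vc Q J a v + vc Q J a w := by
  unfold vc
  rw [← Finset.sum_add_distrib]
  refine Finset.sum_congr rfl fun m _ => ?_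
  rw [c7_vj_add N hJ]
  ring

lemma c7_vc_smul (a : V) (c : ℂ) (v : D) : vc Q J a (c • v) = c * vc Q J a v := by
  unfold vc
  rw [Finset.mul_sum]
  refine Finset.sum_congr rfl fun m _ => ?_
  rw [c7_vj_smul N hJ]
  ring

lemma c7_vc_sub (a : V) (v w : D) : vc Q J a (v - w) = vc Q J a v - vc Q J a w := by
  have h : v - w = v + (-1 : ℂ) • w := by rw [neg_one_smul, sub_eq_add_neg]
  rw [h, c7_vc_add N hJ, c7_vc_smul N hJ]
  ring

/-- transformation of the values of a component under Lorentz transformations -/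
lemma c7_vc_rot {L : Ix → V} (hL : IsLor L) {a b : V} {r : ℝ} (hr : r ≠ 0)
    (hab : sim 1 L 0 a = r • b) (v : D) :
    vc Q J b (Q.U 1 L 0 v) = ((r⁻¹ : ℝ) : ℂ) * vc Q J a v := by
  unfold vc
  simp only [vj_cov N hJ one_pos hL, one_pow, inv_one, ofReal_one, one_mul, Finset.mul_sum]
  rw [Finset.sum_comm]
  refine Finset.sum_congr rfl fun k _ => ?_
  have h4 := H246R.contr2 hL hab k
  have h5 : ∑ m, ((GF.eta m * b m : ℝ) : ℂ) * ((L k m : ℂ) * vj Q J k v) =
      ((∑ m, GF.eta m * b m * L k m : ℝ) : ℂ) * vj Q J k v := by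
    push_cast
    rw [Finset.sum_mul]
    exact Finset.sum_congr rfl fun m _ => by ring
  rw [h5]
  have h6 : ∑ m, GF.eta m * b m * L k m = r⁻¹ * (GF.eta k * a k) := by
    rw [← h4, ← mul_assoc, inv_mul_cancel₀ hr, one_mul]
  rw [h6]
  push_cast
  ring

omit hJ in
/-- translations and Lorentz transformations -/
lemma c7_UL {L : Ix → V} (hL : IsLor L) (y : V) (v : D) :
    Q.U 1 GF.one (-(sim 1 L 0 y)) (Q.U 1 L 0 v) = Q.U 1 L 0 (Q.U 1 GF.one (-y) v) := by
  have h := U_scale N one_pos hL (WithLp.toLp 2 y) v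
  rw [one_smul, ← toLp_sim] at h
  exact h

end

lemma c7_UU (x y : V) (v : D) :
    Q.U 1 GF.one x (Q.U 1 GF.one y v) = Q.U 1 GF.one (x + y) v :=
  U1_U1_all (Q := Q) (WithLp.toLp 2 x) (WithLp.toLp 2 y) v

lemma c7_U0 (v : D) : Q.U 1 GF.one 0 v = v := U1_zero_all (Q := Q) v

end Vale.Agent.P352.N86

end
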