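import Vale.Agent.P352.N86.K.Defs
import Vale.Agent.P352.N86.K.C12
import Vale.Agent.P352.H731.Ctc
import Vale.Agent.P352.H731.Cross
import Vale.Agent.P352.H746.One

/-!
# P352: a Hilbert space valued response of the current vanishes
-/

set_option linter.all false

noncomputable section

open MeasureTheory Filter Topology SchwartzMap Complex
open scoped SchwartzMap ComplexConjugate ContDiff LineDeriv ENNReal

namespace Vale.Agent.P352.N86

open GF (Ix V Fn Fld Theory Sch IsLor bas eta o sim pd tr ev bar)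
open H246 H496 H755 H15 H846 H246R H746 H731
open UniformSpace (Completion)

variable {D : Type*} [NormedAddCommGroup D] [InnerProductSpace ℂ D]
variable {Q : GF.Theory D} {T : Ix → Ix → GF.Fld D} {J : Ix → GF.Fld D}
variable {H : D → D} {alg : Set V → Set (D → D)} {S : V → ℝ → D → D} {G : V → D → D}
variable {A : (V → V) → D → D} {l : Fn → Completion D}

namespace C8b

/-! ### Closed subspaces of the Hilbert space -/

/-- the closure of a subspace of `D` in the completion -/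
def clo (E : Submodule ℂ D) : Submodule ℂ (Completion D) :=
  (E.map (Completion.toComplL (𝕜 := ℂ) (E := D) : D →ₗ[ℂ] Completion D)).topologicalClosure

lemma mem_clo_iff {E : Submodule ℂ D} {x : Completion D} :
    x ∈ clo E ↔ ∀ ε > 0, ∃ X ∈ E, ‖x - (X : Completion D)‖ < ε := by
  rw [clo, ← SetLike.mem_coe, Submodule.topologicalClosure_coe, Metric.mem_closure_iff]
  constructor
  · intro h ε hε
    obtain ⟨_, ⟨X, hX, rfl⟩, h2⟩ := h ε hε
    exact ⟨X, hX, by rw [← dist_eq_norm]; exact h2⟩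
  · intro h ε hε
    obtain ⟨X, hX, h2⟩ := h ε hε
    exact ⟨_, ⟨X, hX, rfl⟩, by rw [dist_eq_norm]; exact h2⟩

lemma coe_mem_clo {E : Submodule ℂ D} {X : D} (hX : X ∈ E) : (X : Completion D) ∈ clo E :=
  mem_clo_iff.2 fun ε hε => ⟨X, hX, by rw [sub_self, norm_zero]; exact hε⟩

lemma clo_zero {E : Submodule ℂ D} {x : Completion D} (hx : x ∈ clo E)
    (h : ∀ X ∈ E, inner ℂ (X : Completion D) x = 0) : x = 0 := by
  rw [mem_clo_iff] at hx
  by_contra hne
  have hpos : 0 < ‖x‖ := norm_pos_iff.2 hne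
  obtain ⟨X, hX, h2⟩ := hx (‖x‖) hpos
  have h3 : inner ℂ (x - (X : Completion D)) x = inner ℂ x x := by
    rw [inner_sub_left, h X hX, sub_zero]
  have h4 : ‖inner ℂ (x - (X : Completion D)) x‖ ≤ ‖x - (X : Completion D)‖ * ‖x‖ :=
    norm_inner_le_norm _ _
  rw [h3, inner_self_eq_norm_sq_to_K] at h4
  have h5 : ‖((‖x‖ : ℂ)) ^ 2‖ = ‖x‖ * ‖x‖ := by
    rw [norm_pow, norm_real, norm_norm]; ring
  have h6 : ‖x‖ * ‖x‖ ≤ ‖x - (X : Completion D)‖ * ‖x‖ := by
    rw [← h5]; exact h4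
  have h7 := le_of_mul_le_mul_right h6 hpos
  linarith

/-- weak relations on an invariant subspace extend to the whole domain -/
lemma ext_rel {E : Submodule ℂ D} {U U' : D → D} (hadd : ∀ v w, U (v + w) = U v + U w)
    (hsmul : ∀ (c : ℂ) v, U (c • v) = c • U v) (hU : ∀ v w, inner ℂ (U v) w = inner ℂ v (U' w))
    (hn : ∀ v, ‖U v‖ = ‖v‖) (hU' : ∀ X ∈ E, U' X ∈ E) {x y : Completion D} (hx : x ∈ clo E)
    (hy : y ∈ clo E) {c : ℂ} (h : ∀ X ∈ E, inner ℂ x ((U X : D) : Completion D) =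
      c * inner ℂ y (X : Completion D)) (v : D) :
    inner ℂ x ((U v : D) : Completion D) = c * inner ℂ y (v : Completion D) := by
  obtain ⟨z, hz⟩ := exists_riesz hadd hsmul x (C := ‖x‖) (fun v => by
    refine (norm_inner_le_norm _ _).trans ?_
    rw [Completion.norm_coe, hn]
    exact (mul_comm _ _).le)
  have hzc : z ∈ clo E := by
    rw [mem_clo_iff] at hx ⊢
    intro ε hε
    obtain ⟨X, hX, h2⟩ := hx ε hε
    refine ⟨U' X, hU' X hX, lt_of_le_of_lt ?_ h2⟩
    apply norm_le_of_inner (norm_nonneg _)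
    intro v
    have e : inner ℂ (v : Completion D) (z - ((U' X : D) : Completion D)) =
        inner ℂ ((U v : D) : Completion D) (x - (X : Completion D)) := by
      rw [inner_sub_right, inner_sub_right, hz, Completion.inner_coe, Completion.inner_coe, hU]
    rw [e]
    refine (norm_inner_le_norm _ _).trans ?_
    rw [Completion.norm_coe, hn]
    exact (mul_comm _ _).le
  have hw : z - conj c • y ∈ clo E := (clo E).sub_mem hzc ((clo E).smul_mem _ hy)
  have hw0 : z - conj c • y = 0 := by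
    refine clo_zero hw fun X hX => ?_
    rw [inner_sub_right, inner_smul_right, hz, ← inner_conj_symm, h X hX,
      ← inner_conj_symm (X : Completion D) y, map_mul, sub_self]
  have hzy : z = conj c • y := sub_eq_zero.1 hw0
  rw [← inner_conj_symm, ← hz v, hzy, inner_smul_right, map_mul, conj_conj, inner_conj_symm]

/-- bounded covariant families of functions on a subspace define vector valued distributions with
values in the closure of the subspace -/
theorem exists_kapE (E : Submodule ℂ D) (g : D → Mink → ℂ) (hc0 : ∀ v, Continuous (g v))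
    (hb0 : ∀ v, ∃ (C : ℝ) (m : ℕ), ∀ x, ‖g v x‖ ≤ C * (1 + ‖x‖) ^ m)
    (hadd : ∀ v w x, g (v + w) x = g v x + g w x) (hsmul : ∀ (c : ℂ) v x, g (c • v) x = c * g v x)
    (hbs : ∀ F : 𝓢(Mink, ℂ), ∃ C : ℝ, ∀ v ∈ E, ‖∫ x, conj (F x) * g v x‖ ≤ C * ‖v‖) :
    ∃ κ : 𝓢(Mink, ℂ) →L[ℂ] Completion D, (∀ F, κ F ∈ clo E) ∧
      ∀ F, ∀ v ∈ E, inner ℂ (v : Completion D) (κ F) = ∫ x, F x * conj (g v x) := by
  obtain ⟨κ, hκ⟩ := exists_kapg (D := E) (fun v x => g (v : D) x) (fun v => hc0 _)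
    (fun v => hb0 _) (fun v w x => hadd _ _ _) (fun c v x => hsmul _ _ _) (fun F => by
      obtain ⟨C, hC⟩ := hbs F
      exact ⟨C, fun v => hC v v.2⟩)
  set φ : E →L[ℂ] Completion D := (Completion.toComplL (𝕜 := ℂ) (E := D)).comp E.subtypeL with hφ
  set ι : Completion E →L[ℂ] Completion D :=
    φ.extend (Completion.toComplL (𝕜 := ℂ) (E := E)) with hι
  have hιz : ∀ z : E, ι (z : Completion E) = ((z : D) : Completion D) := fun z =>
    φ.extend_eq (Completion.denseRange_coe) (Completion.isUniformInducing_coe E) z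
  have hcl : ∀ z, ι z ∈ clo E := by
    intro z
    refine Completion.induction_on z ?_ ?_
    · exact (Submodule.isClosed_topologicalClosure _).preimage ι.continuous
    · intro a
      rw [hιz]
      exact coe_mem_clo a.2
  have hin : ∀ (v : E) (z : Completion E), inner ℂ ((v : D) : Completion D) (ι z) =
      inner ℂ (v : Completion E) z := by
    intro v z
    refine Completion.induction_on z ?_ ?_
    · exact isClosed_eq (continuous_const.inner ι.continuous)
        (innerSL ℂ ((v : E) : Completion E)).continuous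
    · intro a
      rw [hιz, Completion.inner_coe, Completion.inner_coe]
      rfl
  refine ⟨ι.comp κ, fun F => hcl _, fun F v hv => ?_⟩
  have := hin ⟨v, hv⟩ (κ F)
  show inner ℂ (v : Completion D) (ι (κ F)) = _
  rw [this, hκ]

/-! ### The spectral measure -/

theorem wk_zero {κ : 𝓢(Mink, ℂ) →L[ℂ] Completion D}
    (htau : ∀ g (a : Mink) (z : D), inner ℂ ((U1 Q a z : D) : Completion D) (κ (tauS a g)) =
      inner ℂ (z : Completion D) (κ g))
    (h2 : ∀ b f (v : D), inner ℂ (κ f) ((Q.U 1 (mNull b) 0 v : D) : Completion D) =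
      ((1 : ℝ) : ℂ) * inner ℂ (κ (simC one_pos (isLor_null b) f)) (v : Completion D))
    (h3 : ∀ b f (v : D), inner ℂ (κ f) ((Q.U 1 (mNull' b) 0 v : D) : Completion D) =
      ((1 : ℝ) : ℂ) * inner ℂ (κ (simC one_pos (isLor_null' b) f)) (v : Completion D))
    (hbo : ∀ {s : ℝ} (hs : 0 < s) (t : ℝ) f (v : D),
      inner ℂ (κ f) ((Q.U s (mBoost t) 0 v : D) : Completion D) =
      ((s ^ 2 * Real.exp t : ℝ) : ℂ) *
        inner ℂ (κ (simC hs (isLor_boost t) f)) (v : Completion D))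
    (f : 𝓢(Mink, ℂ)) (hf : H246R.PC (mftS f)) : κ f = 0 := by
  obtain ⟨ν, S⟩ := exists_data κ htau
  obtain ⟨μ, hcone, hμ⟩ := S.exists_KL
  obtain ⟨C, m, hC, hb⟩ := H746.exists_ball_bound κ S hμ
  have ht := H746.temp_of_ball hC hb
  have hfin := H746.fin_compact hb
  have two : ∀ f g, inner ℂ (κ f) (κ g) = ∫ p, conj (mft f p) * mft g p ∂μ :=
    SpecData.two (κ := (κ : 𝓢(Mink, ℂ) →ₗ[ℂ] Completion D)) S ht hμ
  have W : Wk μ 4 2 := by
    refine ⟨fun b => ?_, fun b => ?_, fun σ t hσ => ?_⟩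
    · have h1 := w_measure S hμ one_pos one_pos (isLor_null b)
        (w_inner one_pos one_pos one_pos (isLor_null b) (isLor_null (-b)) (h2 b)
          (fun f v => by rw [inv_one]; exact h2 (-b) f v) (fun f => by
            ext x
            rw [simC_apply, simC_apply, one_smul, one_smul]
            congr 1
            apply mink_ext <;> simp [Fin.sum_univ_four, mNull] <;> ring))
      simp only [inv_one, one_smul, one_pow, div_one, ENNReal.ofReal_one] at h1
      exact h1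
    · have h1 := w_measure S hμ one_pos one_pos (isLor_null' b)
        (w_inner one_pos one_pos one_pos (isLor_null' b) (isLor_null' (-b)) (h3 b)
          (fun f v => by rw [inv_one]; exact h3 (-b) f v) (fun f => by
            ext x
            rw [simC_apply, simC_apply, one_smul, one_smul]
            congr 1
            apply mink_ext <;> simp [Fin.sum_univ_four, mNull'] <;> ring))
      simp only [inv_one, one_smul, one_pow, div_one, ENNReal.ofReal_one] at h1
      exact h1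
    · have hw : 0 < σ ^ 2 * Real.exp t := by positivity
      have h1 := w_measure S hμ hw hσ (isLor_boost t)
        (w_inner hw hσ (inv_pos.2 hσ) (isLor_boost t) (isLor_boost (-t)) (hbo hσ t)
          (fun f v => by
            have h2 := hbo (inv_pos.2 hσ) (-t) f v
            have e : (σ ^ 2 * Real.exp t)⁻¹ = σ⁻¹ ^ 2 * Real.exp (-t) := by
              rw [Real.exp_neg, mul_inv, inv_pow]
            rw [e]
            exact h2)
          (fun f => by
            ext x
            rw [simC_apply, simC_apply]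
            congr 1
            have hc := Real.cosh_sq t
            have hsig : σ * σ⁻¹ = 1 := mul_inv_cancel₀ hσ.ne'
            apply mink_ext
            · simp [Fin.sum_univ_four, mBoost]
              field_simp
              linear_combination (x 0) * hc
            · simp [Fin.sum_univ_four, mBoost]
              field_simp
              linear_combination (x 1) * hc
            · simp [Fin.sum_univ_four, mBoost]
              field_simp
            · simp [Fin.sum_univ_four, mBoost]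
              field_simp))
      rw [h1]
      congr 2
      rw [Real.exp_neg]
      field_simp
  have hpos := W.pos hfin (by norm_num)
  have h0 : ∀ᵐ p ∂μ, mft f p = 0 := by
    have h1 : ∀ᵐ p ∂μ, ¬ (0 < p 0 + p 1 ∧ 0 < mass2 p) := by
      rw [ae_iff]
      simpa using hpos
    filter_upwards [h1] with p hp
    by_contra hne
    apply hp
    have : p ∈ tsupport (mftS f) := subset_tsupport _ (by
      rw [Function.mem_support, mftS_apply]; exact hne)
    exact hf.2 this
  have h1 : inner ℂ (κ f) (κ f) = (0 : ℂ) := by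
    rw [two, ← integral_zero Mink ℂ (μ := μ)]
    apply integral_congr_ae
    filter_upwards [h0] with p hp
    rw [hp, mul_zero]
  exact inner_self_eq_zero.1 h1

/-! ### The components of the current -/

section

variable (N : CNet Q H alg S) (hJ : IsVirial Q T J)
include N hJ

lemma exists_vjpt (m : Ix) : ∃ (φ : Completion D) (n : ℕ), ∀ v, vj Q J m v =
    pt φ (pw1 H n) v := by
  have hf : ∀ m, Q.fld (J m) := fun m => Q.bose_fld _ (hJ.bose m)
  obtain ⟨μ, K, w, n, h⟩ := exists_kc N.toNet hf (bas m 1)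
  exact ⟨K.J w, n, fun v => vj_eq N.toNet hf (pw1_mem N.toNet n) h v⟩

lemma vj_smulb (m : Ix) (c : ℂ) (v : D) : vj Q J m (c • v) = c * vj Q J m v := by
  obtain ⟨φ, n, h⟩ := exists_vjpt N hJ m
  rw [h, h]
  exact pt_smul' N (pw1_mem N.toNet n) φ c v

lemma vj_G_U (Gg : Gnr Q alg S G) {σ r : ℝ} (hσ : 0 < σ) (hr : 0 < r) {L : Ix → V}
    (hL : GF.IsLor L) {a b : V} (ha : IsNull a) (hb : IsNull b) (hab : sim 1 L 0 a = r • b)
    (m : Ix) (v : D) : vj Q J m (G b (Q.U σ L 0 v)) =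
      (((σ ^ 2 * r)⁻¹ : ℝ) : ℂ) * ∑ k, (L k m : ℂ) * vj Q J k (G a v) := by
  have h1 := G_cov N Gg.der hσ hr hL ha hb hab v
  have h2 := vj_cov N hJ hσ hL m (G a v)
  rw [h1, vj_smulb N hJ] at h2
  have hσ' : (σ : ℂ) ≠ 0 := by exact_mod_cast hσ.ne'
  have hr' : (r : ℂ) ≠ 0 := by exact_mod_cast hr.ne'
  have h3 : vj Q J m (G b (Q.U σ L 0 v)) = ((σ / r : ℝ) : ℂ) *
      (((r / σ : ℝ) : ℂ) * vj Q J m (G b (Q.U σ L 0 v))) := by
    push_cast
    field_simp
  rw [h3, h2]
  push_cast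
  field_simp

lemma vj01 (Gg : Gnr Q alg S G) (v : D) :
    vj Q J 0 (G (nu (-1)) v) + vj Q J 1 (G (nu (-1)) v) = 0 := by
  have h := n0_all N Gg hJ (isNull_nu (Or.inr rfl) : IsNull (nu (-1))) v
  generalize G (nu (-1)) v = w at h ⊢
  unfold vc at h
  simp [Fin.sum_univ_four, H496.nu, GF.eta, GF.o] at h
  linear_combination h

end

lemma jv_add (hJ : IsVirial Q T J) (g g' : Ix → 𝓢(Mink, ℂ)) :
    jv Q J (fun m => g m + g' m) = jv Q J g + jv Q J g' := by
  unfold jv
  rw [← Finset.sum_add_distrib]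
  refine Finset.sum_congr rfl fun m _ => ?_
  have h := fld_lin (Q.bose_fld _ (hJ.bose m)) (g m) (g' m) 1 Q.vac
  simpa using h

lemma jv_smul (hJ : IsVirial Q T J) (c : ℂ) (g : Ix → 𝓢(Mink, ℂ)) :
    jv Q J (fun m => c • g m) = c • jv Q J g := by
  unfold jv
  rw [Finset.smul_sum]
  refine Finset.sum_congr rfl fun m _ => ?_
  have h0 : J m (fl 0) Q.vac = 0 := by
    have h2 := fld_lin (Q.bose_fld _ (hJ.bose m)) 0 0 1 Q.vac
    simp only [smul_zero, add_zero, one_smul] at h2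
    simpa using h2
  have h := fld_lin (Q.bose_fld _ (hJ.bose m)) 0 (g m) c Q.vac
  rw [zero_add, h0, zero_add] at h
  exact h

lemma PC_addb {F F' : 𝓢(Mink, ℂ)} (h : H246R.PC F) (h' : H246R.PC F') : H246R.PC (F + F') := by
  refine ⟨?_, ?_⟩
  · have := h.1.add h'.1
    exact this
  · refine (tsupport_add (F : Mink → ℂ) (F' : Mink → ℂ)).trans ?_
    exact Set.union_subset h.2 h'.2

lemma PC_smulb {F : 𝓢(Mink, ℂ)} (c : ℂ) (h : H246R.PC F) : H246R.PC (c • F) := by
  have hs : tsupport (c • F : 𝓢(Mink, ℂ)) ⊆ tsupport F :=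
    tsupport_smul_subset_right (fun _ : Mink => c) (F : Mink → ℂ)
  exact ⟨IsCompact.of_isClosed_subset h.1 (isClosed_tsupport _) hs, hs.trans h.2⟩

lemma PC_zerob : H246R.PC (0 : 𝓢(Mink, ℂ)) := by
  refine ⟨HasCompactSupport.zero, ?_⟩
  have : tsupport ((0 : 𝓢(Mink, ℂ)) : Mink → ℂ) = ∅ := by
    rw [tsupport_eq_empty_iff]
    rfl
  rw [this]
  exact Set.empty_subset _

/-- the space of the vectors `∑ J^m(g_m) Ω` -/
def Ej (hJ : IsVirial Q T J) : Submodule ℂ D where
  carrier := {v | InJ Q J v}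
  add_mem' := by
    rintro _ _ ⟨g, hg, rfl⟩ ⟨g', hg', rfl⟩
    refine ⟨fun m => g m + g' m, fun m => ?_, (jv_add hJ g g').symm⟩
    rw [map_add]
    exact PC_addb (hg m) (hg' m)
  zero_mem' := by
    refine ⟨fun m => 0, fun m => ?_, ?_⟩
    · rw [map_zero]; exact PC_zerob
    · have h := jv_smul hJ 0 (fun _ => (0 : 𝓢(Mink, ℂ)))
      simp only [smul_zero, zero_smul] at h
      exact h.symm
  smul_mem' := by
    rintro c _ ⟨g, hg, rfl⟩
    refine ⟨fun m => c • g m, fun m => ?_, (jv_smul hJ c g).symm⟩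
    rw [map_smul]
    exact PC_smulb c (hg m)

lemma mem_Ej (hJ : IsVirial Q T J) {X : D} : X ∈ Ej hJ ↔ InJ Q J X := Iff.rfl

section

variable (N : CNet Q H alg S) (Gg : Gnr Q alg S G) (hJ : IsVirial Q T J)
include N Gg hJ

lemma cont_vjG (m : Ix) {a : V} (ha : IsNull a) (v : D) :
    Continuous fun x : Mink => vj Q J m (G a (U1 Q (-x) v)) := by
  obtain ⟨φ, n, h⟩ := exists_vjpt N hJ m
  simp only [h]
  exact cont_gr N Gg (pw1_mem N.toNet n) ha v

lemma bdd_vjG (m : Ix) {a : V} (ha : IsNull a) (v : D) : ∃ (C : ℝ) (k : ℕ), ∀ x : Mink,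
    ‖vj Q J m (G a (U1 Q (-x) v))‖ ≤ C * (1 + ‖x‖) ^ k := by
  obtain ⟨φ, n, h⟩ := exists_vjpt N hJ m
  simp only [h]
  exact bdd_gr N Gg (pw1_mem N.toNet n) ha v

lemma vjG_add (m : Ix) {a : V} (ha : IsNull a) (v w : D) (x : Mink) :
    vj Q J m (G a (U1 Q (-x) (v + w))) =
      vj Q J m (G a (U1 Q (-x) v)) + vj Q J m (G a (U1 Q (-x) w)) := by
  obtain ⟨φ, n, h⟩ := exists_vjpt N hJ m
  simp only [h]
  exact gr_add N Gg (pw1_mem N.toNet n) ha v w x

lemma vjG_smul (m : Ix) {a : V} (ha : IsNull a) (c : ℂ) (v : D) (x : Mink) :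
    vj Q J m (G a (U1 Q (-x) (c • v))) = c * vj Q J m (G a (U1 Q (-x) v)) := by
  obtain ⟨φ, n, h⟩ := exists_vjpt N hJ m
  simp only [h]
  exact gr_smul N Gg (pw1_mem N.toNet n) ha c v x

/-- covariance of the smeared response -/
lemma kap_cov {i : Ix} {κ : 𝓢(Mink, ℂ) →L[ℂ] Completion D} (hcl : ∀ F, κ F ∈ clo (Ej hJ))
    (hκ : ∀ F, ∀ v ∈ Ej hJ, inner ℂ (v : Completion D) (κ F) =
      ∫ x, F x * conj (vj Q J i (G (nu (-1)) (U1 Q (-x) v))))
    {σ r : ℝ} (hσ : 0 < σ) (hr : 0 < r) {L : Ix → V} (hL : GF.IsLor L)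
    (hLa : sim 1 L 0 (nu (-1)) = r • nu (-1))
    (hLi : ∀ v, ∑ k, (L k i : ℂ) * vj Q J k (G (nu (-1)) v) = vj Q J i (G (nu (-1)) v))
    (f : 𝓢(Mink, ℂ)) (v : D) : inner ℂ (κ f) ((Q.U σ L 0 v : D) : Completion D) =
      ((σ ^ 2 * r⁻¹ : ℝ) : ℂ) * inner ℂ (κ (simC hσ hL f)) (v : Completion D) := by
  have ha : IsNull (nu (-1)) := isNull_nu (Or.inr rfl)
  have hinvU : ∀ w, Q.U σ L 0 (Q.U σ⁻¹ (linv L) 0 w) = w := by
    intro w
    rw [N.U_mul σ L 0 σ⁻¹ (linv L) 0 w hσ (inv_pos.2 hσ) hL (isLor_linv hL), linv_id hL,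
      mul_inv_cancel₀ hσ.ne']
    have e : sim σ L 0 0 = 0 := by funext n; simp [sim]
    rw [e]
    exact Uone w
  refine ext_rel (E := Ej hJ) (U := Q.U σ L 0) (U' := Q.U σ⁻¹ (linv L) 0)
    (fun v w => U_add hσ hL 0 v w) (fun c v => U_smul hσ hL 0 c v)
    (fun v w => by
      conv_lhs => rw [← hinvU w]
      exact Q.U_inner _ _ _ _ _ hσ hL)
    (fun v => U_nrm0 hσ hL 0 v)
    (fun X hX => InJ_U N hJ hX (inv_pos.2 hσ) (isLor_linv hL) 0) (hcl _) (hcl _)
    (fun X hX => ?_) v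
  have hXU : Q.U σ L 0 X ∈ Ej hJ := InJ_U N hJ hX hσ hL 0
  rw [← inner_conj_symm, hκ _ _ hXU, ← inner_conj_symm, hκ _ _ hX]
  have h1 := int_sim hσ hL
    (fun x => f x * conj (vj Q J i (G (nu (-1)) (U1 Q (-x) (Q.U σ L 0 X)))))
  have h2 : ∀ y : Mink, f (σ • lam L y) *
      conj (vj Q J i (G (nu (-1)) (U1 Q (-(σ • lam L y)) (Q.U σ L 0 X)))) =
      (((σ ^ 2 * r)⁻¹ : ℝ) : ℂ) *
        (simC hσ hL f y * conj (vj Q J i (G (nu (-1)) (U1 Q (-y) X)))) := by
    intro y
    rw [U_scale N hσ hL, vj_G_U N hJ Gg hσ hr hL ha ha hLa, hLi, simC_apply, map_mul, conj_ofReal]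
    ring
  simp only [h2] at h1
  rw [integral_const_mul] at h1
  have hσ' : (σ : ℂ) ≠ 0 := by exact_mod_cast hσ.ne'
  have hr' : (r : ℂ) ≠ 0 := by exact_mod_cast hr.ne'
  have h3 : ∫ x, f x * conj (vj Q J i (G (nu (-1)) (U1 Q (-x) (Q.U σ L 0 X)))) =
      ((σ ^ 4 : ℝ) : ℂ) * (((σ ^ 4)⁻¹ : ℝ) *
        ∫ x, f x * conj (vj Q J i (G (nu (-1)) (U1 Q (-x) (Q.U σ L 0 X))))) := by
    push_cast
    field_simp
  rw [h3, ← h1, map_mul, map_mul, conj_ofReal, conj_ofReal, ← mul_assoc]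
  congr 1
  push_cast
  field_simp

lemma kap_tau {i : Ix} {κ : 𝓢(Mink, ℂ) →L[ℂ] Completion D} (hcl : ∀ F, κ F ∈ clo (Ej hJ))
    (hκ : ∀ F, ∀ v ∈ Ej hJ, inner ℂ (v : Completion D) (κ F) =
      ∫ x, F x * conj (vj Q J i (G (nu (-1)) (U1 Q (-x) v))))
    (g : 𝓢(Mink, ℂ)) (a : Mink) (z : D) :
    inner ℂ ((U1 Q a z : D) : Completion D) (κ (tauS a g)) =
      inner ℂ (z : Completion D) (κ g) := by
  have key : inner ℂ (κ (tauS a g)) ((U1 Q a z : D) : Completion D) =
      1 * inner ℂ (κ g) (z : Completion D) := by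
    refine ext_rel (E := Ej hJ) (U := U1 Q a) (U' := U1 Q (-a))
      (fun v w => U1_add _ _ _) (fun c v => U1_smul _ _ _)
      (fun v w => by
        have e : w = U1 Q a (U1 Q (-a) w) := by
          rw [U1_U1_all, add_neg_cancel, U1_zero_all]
        conv_lhs => rw [e]
        rw [U1_inner])
      (fun v => U1_norm _ _)
      (fun X hX => InJ_U N hJ hX one_pos isLor_one _) (hcl _) (hcl _)
      (fun X hX => ?_) z
    have hXU : U1 Q a X ∈ Ej hJ := InJ_U N hJ hX one_pos isLor_one _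
    rw [one_mul, ← inner_conj_symm, hκ _ _ hXU, ← inner_conj_symm, hκ _ _ hX]
    congr 1
    have h1 : ∀ x : Mink, tauS a g x *
        conj (vj Q J i (G (nu (-1)) (U1 Q (-x) (U1 Q a X)))) =
        (fun y => g y * conj (vj Q J i (G (nu (-1)) (U1 Q (-y) X)))) (x - a) := by
      intro x
      have e : -x + a = -(x - a) := by abel
      rw [tauS_apply, U1_U1_all, e]
    simp only [h1]
    exact integral_sub_right_eq_self (μ := (volume : Measure Mink))
      (fun y => g y * conj (vj Q J i (G (nu (-1)) (U1 Q (-y) X)))) a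
  rw [one_mul] at key
  rw [← inner_conj_symm, key, inner_conj_symm]

/-- the transversal components of the response vanish if they are Hilbert space valued -/
theorem vjG_zero {i : Ix} (hi : i = 2 ∨ i = 3)
    (hkey : ∀ F : 𝓢(Mink, ℂ), ∃ C : ℝ, ∀ X, InJ Q J X →
      ‖∫ x : Mink, conj (F x) * vj Q J i (G (nu (-1)) (U1 Q (-x) X))‖ ≤ C * ‖X‖)
    {X : D} (hX : InJ Q J X) : vj Q J i (G (nu (-1)) X) = 0 := by
  have ha : IsNull (nu (-1)) := isNull_nu (Or.inr rfl)
  obtain ⟨κ, hcl, hκ⟩ := exists_kapE (Ej hJ)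
    (fun v x => vj Q J i (G (nu (-1)) (U1 Q (-x) v))) (fun v => cont_vjG N Gg hJ i ha v)
    (fun v => bdd_vjG N Gg hJ i ha v) (fun v w x => vjG_add N Gg hJ i ha v w x)
    (fun c v x => vjG_smul N Gg hJ i ha c v x)
    (fun F => by
      obtain ⟨C, hC⟩ := hkey F
      exact ⟨C, fun v hv => hC v hv⟩)
  have h01 := vj01 N hJ Gg
  have hz := wk_zero (kap_tau N Gg hJ hcl hκ)
    (fun b f v => by
      have h := kap_cov N Gg hJ hcl hκ one_pos one_pos (isLor_null b) (null_nu b) (fun v => by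
        rcases hi with rfl | rfl
        · simp [Fin.sum_univ_four, mNull]
          linear_combination (b : ℂ) * h01 v
        · simp [Fin.sum_univ_four, mNull]) f v
      rw [one_pow, inv_one, mul_one] at h
      exact h)
    (fun b f v => by
      have h := kap_cov N Gg hJ hcl hκ one_pos one_pos (isLor_null' b) (null_nu' b) (fun v => by
        rcases hi with rfl | rfl
        · simp [Fin.sum_univ_four, mNull']
        · simp [Fin.sum_univ_four, mNull']
          linear_combination (b : ℂ) * h01 v) f v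
      rw [one_pow, inv_one, mul_one] at h
      exact h)
    (fun {s} hs t f v => by
      have h := kap_cov N Gg hJ hcl hκ hs (Real.exp_pos (-t)) (isLor_boost t) (boost_nu t)
        (fun v => by
          rcases hi with rfl | rfl
          · simp [Fin.sum_univ_four, mBoost]
          · simp [Fin.sum_univ_four, mBoost]) f v
      rw [Real.exp_neg, inv_inv] at h
      exact h)
  have hort : ∀ f, ∀ Y, InJ Q J Y → inner ℂ (κ f) (Y : Completion D) = 0 := by
    rintro f _ ⟨g, hg, rfl⟩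
    have h2 := map_sum (Completion.toComplL (𝕜 := ℂ) (E := D))
      (fun m => J m (fl (g m)) Q.vac) Finset.univ
    have h3 : ((jv Q J g : D) : Completion D) =
        ∑ m, ((J m (fl (g m)) Q.vac : D) : Completion D) := h2
    rw [h3, inner_sum]
    refine Finset.sum_eq_zero fun m _ => ?_
    exact cross (kap_tau N Gg hJ hcl hκ) hz (Q.bose_fld _ (hJ.bose m)) (g m) (hg m) f
  have hfun := fun_unique (h := fun x : Mink => vj Q J i (G (nu (-1)) (U1 Q (-x) X)))
    (h' := fun _ => 0) (cont_vjG N Gg hJ i ha X) continuous_const (fun F hF => by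
      have h1 := hort F X hX
      rw [← inner_conj_symm, hκ _ _ hX, ← integral_conj] at h1
      simp only [map_mul, conj_conj] at h1
      rw [h1]
      simp)
  have h4 := congrFun hfun 0
  simp only [neg_zero, U1_zero_all] at h4
  exact h4

end

end C8b

open C8b in
/-- C8 (b) -/
theorem Aj_of_key (N : CNet Q H alg S) (Gg : Gnr Q alg S G) (hJ : IsVirial Q T J)
    (hkey : ∀ i : Ix, (i = 2 ∨ i = 3) → ∀ F : 𝓢(Mink, ℂ), ∃ C : ℝ, ∀ X,
      InJ Q J X → ‖∫ x : Mink, conj (F x) * vj Q J i (G (nu (-1)) (U1 Q (-x) X))‖ ≤ C * ‖X‖)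
    {X : D} (hX : InJ Q J X) {a e : V} (ha : IsNull a) (he : GF.mdot a e = 0) :
    vc Q J e (G a X) = 0 := by
  obtain ⟨θ, ψ, hrot⟩ := exists_rot ha
  have hL := isLor_Rt θ ψ
  have hr : 0 < (a 0)⁻¹ := inv_pos.2 ha.2
  have ha0 : IsNull (nu (-1)) := isNull_nu (Or.inr rfl)
  set L := Rt θ ψ with hLd
  set r := (a 0)⁻¹ with hrd
  set w := Q.U 1 (linv L) 0 X with hw
  have hwJ : InJ Q J w := InJ_U N hJ hX one_pos (isLor_linv hL) 0
  have hvw : Q.U 1 L 0 w = X := U_linv N hL X
  have h1 : ∀ m, vj Q J m (G a X) = (((1 ^ 2 * r)⁻¹ : ℝ) : ℂ) *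
      ∑ k, (L k m : ℂ) * vj Q J k (G (nu (-1)) w) := by
    intro m
    rw [← hvw]
    exact vj_G_U N hJ Gg one_pos hr hL ha0 ha hrot m w
  have h2 := vjG_zero N Gg hJ (i := 2) (Or.inl rfl) (hkey 2 (Or.inl rfl)) hwJ
  have h3 := vjG_zero N Gg hJ (i := 3) (Or.inr rfl) (hkey 3 (Or.inr rfl)) hwJ
  have h01 := vj01 N hJ Gg w
  have hd : (∑ m, GF.eta m * e m * L 0 m) - ∑ m, GF.eta m * e m * L 1 m = 0 := by
    have h4 : GF.mdot (sim 1 L 0 (nu (-1))) e = 0 := by
      rw [hrot]
      have : GF.mdot (r • a) e = r * GF.mdot a e := by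
        simp only [GF.mdot, Pi.smul_apply, smul_eq_mul, Finset.mul_sum]
        exact Finset.sum_congr rfl fun k _ => by ring
      rw [this, he, mul_zero]
    simp [GF.mdot, sim, Fin.sum_univ_four, H496.nu] at h4
    simp [Fin.sum_univ_four]
    linear_combination h4
  unfold vc
  simp only [h1, Finset.mul_sum]
  simp only [Fin.sum_univ_four] at hd ⊢
  have h5 : vj Q J 2 (G (nu (-1)) w) = 0 := h2
  have h6 : vj Q J 3 (G (nu (-1)) w) = 0 := h3
  have h7 : vj Q J 1 (G (nu (-1)) w) = - vj Q J 0 (G (nu (-1)) w) := by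
    linear_combination h01
  have hdc : ((GF.eta 0 * e 0 * L 0 0 + GF.eta 1 * e 1 * L 0 1 + GF.eta 2 * e 2 * L 0 2 +
      GF.eta 3 * e 3 * L 0 3 - (GF.eta 0 * e 0 * L 1 0 + GF.eta 1 * e 1 * L 1 1 +
      GF.eta 2 * e 2 * L 1 2 + GF.eta 3 * e 3 * L 1 3) : ℝ) : ℂ) = 0 := by
    rw [hd]; rfl
  rw [h5, h6, h7]
  push_cast at hdc ⊢
  linear_combination (((1 ^ 2 * r)⁻¹ : ℂ) * vj Q J 0 (G (nu (-1)) w)) * hdc

end Vale.Agent.P352.N86

end
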