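import Vale.Agent.P352.N86.Main

/-!
# P352: null charges imply conformal invariance: definitions
-/

set_option linter.all false

noncomputable section

open MeasureTheory Filter Topology SchwartzMap
open scoped SchwartzMap ComplexConjugate ContDiff

namespace Vale.Agent.P352.N86

open GF (Ix V Fn Fld Theory Sch IsLor bas eta o sim pd tr ev bar)
open H246 H496 H755 H15 H846 H246R H746
open UniformSpace (Completion)

variable {D : Type*} [NormedAddCommGroup D] [InnerProductSpace ℂ D]

/-- the difference of the conformal Killing fields `cK a` centred at `-x` and at the origin -/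
def Yx (a x z : V) : V := cK a (z + x) - cK a z

/-- the deviation of `G a` from a special conformal generator -/
def Wop (Q : Theory D) (G : V → D → D) (A : (V → V) → D → D) (a x : V) (v : D) : D :=
  Q.U 1 GF.one (-x) (G a (Q.U 1 GF.one x v)) - G a v - A (Yx a x) v

/-- the vector `∑ J^m(g_m) Ω` -/
def jv (Q : Theory D) (J : Ix → Fld D) (g : Ix → 𝓢(Mink, ℂ)) : D :=
  ∑ m, J m (fl (g m)) Q.vac

/-- the Fourier transforms have compact support in the open forward cone -/
def PCv (g : Ix → 𝓢(Mink, ℂ)) : Prop := ∀ m, H246R.PC (mftS (g m))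

/-- the vectors `∑ J^m(g_m) Ω` with `PCv g` -/
def InJ (Q : Theory D) (J : Ix → Fld D) (v : D) : Prop := ∃ g, PCv g ∧ v = jv Q J g

/-- `B` has an adjoint -/
def HasAdj (B : D → D) : Prop := ∃ B' : D → D, ∀ v w, inner ℂ (B v) w = inner ℂ v (B' w)

/-- the components of `J(0) (Wop)`, for the null vector `nu (-1)` and `x = bas o 1` -/
def zj (Q : Theory D) (J : Ix → Fld D) (G : V → D → D) (A : (V → V) → D → D) (m : Ix) (v : D) : ℂ :=
  vj Q J m (Wop Q G A (nu (-1)) (bas o 1) v)

/-- the same for the potential -/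
def zl (Q : Theory D) (l : Fn → Completion D) (G : V → D → D) (A : (V → V) → D → D) (v : D) : ℂ :=
  vl l (Wop Q G A (nu (-1)) (bas o 1) v)

/-- divergence at `x` -/
def dv (g : Ix → 𝓢(Mink, ℂ)) : 𝓢(Mink, ℂ) := ∑ m, ((eta m : ℝ) : ℂ) • (LineDeriv.lineDerivOp (eb m) (g m) : 𝓢(Mink, ℂ))

end Vale.Agent.P352.N86

end
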