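import Vale.Agent.P352.N86.K.Abs

set_option linter.all false

noncomputable section

open MeasureTheory Filter Topology SchwartzMap Complex
open scoped SchwartzMap ComplexConjugate ContDiff LineDeriv

namespace Vale.Agent.P352.N86

open GF (Ix V Fn Fld Theory Sch IsLor bas eta o sim pd tr ev bar)
open H246 H496 H755 H15 H846 H246R H746
open UniformSpace (Completion)

/-- second differences converge to the second derivative -/
theorem second_diff {E : Type*} [NormedAddCommGroup E] [NormedSpace ℝ E] {u v : ℝ → E} {ξ : E}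
    (hu : ∀ s, HasDerivAt u (v s) s) (hv : HasDerivAt v ξ 0) :
    Tendsto (fun h : ℝ => (h ^ 2)⁻¹ • (u (2 * h) - (2 : ℝ) • u h + u 0)) (𝓝[>] 0) (𝓝 ξ) := by
  rw [Metric.tendsto_nhdsWithin_nhds]
  intro ε hε
  have hv' := (hasDerivAt_iff_isLittleO.1 hv).def (c := ε / 8) (by positivity)
  obtain ⟨δ, hδ, hb⟩ := Metric.eventually_nhds_iff.1 hv'
  refine ⟨δ / 2, by positivity, fun {h} hh hd => ?_⟩
  have hh0 : 0 < h := hh
  rw [dist_zero_right, Real.norm_eq_abs, abs_of_pos hh0] at hd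
  set g : ℝ → E := fun s => u (2 * s) - (2 : ℝ) • u s + u 0 - s ^ 2 • ξ with hg
  have hgd : ∀ s, HasDerivAt g ((2 : ℝ) • (v (2 * s) - v s - s • ξ)) s := by
    intro s
    have h1 : HasDerivAt (fun s : ℝ => u (2 * s)) ((2 : ℝ) • v (2 * s)) s := by
      have h2 : HasDerivAt (fun s : ℝ => 2 * s) 2 s := by
        simpa using (hasDerivAt_id s).const_mul 2
      exact (hu (2 * s)).scomp s h2
    have h3 := (hu s).const_smul (2 : ℝ)
    have h4 : HasDerivAt (fun s : ℝ => s ^ 2 • ξ) ((2 * s) • ξ) s := by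
      have h5 : HasDerivAt (fun s : ℝ => s ^ 2) (2 * s) s := by
        simpa using hasDerivAt_pow 2 s
      exact h5.smul_const ξ
    have h6 := ((h1.sub h3).add_const (u 0)).sub h4
    refine h6.congr_deriv ?_
    rw [smul_sub, smul_sub, smul_smul]
  have hbd : ∀ s ∈ Set.Icc (0 : ℝ) h, ‖(2 : ℝ) • (v (2 * s) - v s - s • ξ)‖ ≤ ε * (3 / 4) * h := by
    intro s hs
    have e1 : ‖v (2 * s) - v 0 - (2 * s) • ξ‖ ≤ ε / 8 * (2 * h) := by
      have h1 := hb (y := 2 * s) (by
        rw [dist_zero_right, Real.norm_eq_abs, abs_of_nonneg (by linarith [hs.1])]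
        linarith [hs.2])
      rw [sub_zero] at h1
      refine h1.trans ?_
      rw [Real.norm_eq_abs, abs_of_nonneg (by linarith [hs.1])]
      have := hs.2
      gcongr
    have e2 : ‖v s - v 0 - s • ξ‖ ≤ ε / 8 * h := by
      have h1 := hb (y := s) (by
        rw [dist_zero_right, Real.norm_eq_abs, abs_of_nonneg (by linarith [hs.1])]
        linarith [hs.2])
      rw [sub_zero] at h1
      refine h1.trans ?_
      rw [Real.norm_eq_abs, abs_of_nonneg (by linarith [hs.1])]
      have := hs.2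
      gcongr
    have e3 : v (2 * s) - v s - s • ξ = (v (2 * s) - v 0 - (2 * s) • ξ) -
        (v s - v 0 - s • ξ) := by
      rw [two_mul s, add_smul]
      abel
    rw [norm_smul, e3, Real.norm_eq_abs, abs_of_pos (by norm_num : (0:ℝ) < 2)]
    have e4 := norm_sub_le (v (2 * s) - v 0 - (2 * s) • ξ) (v s - v 0 - s • ξ)
    nlinarith
  have h1 := norm_image_sub_le_of_norm_deriv_le_segment' (f := g)
    (f' := fun s => (2 : ℝ) • (v (2 * s) - v s - s • ξ)) (C := ε * (3 / 4) * h) (a := 0) (b := h)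
    (fun s _ => (hgd s).hasDerivWithinAt) (fun s hs => hbd s ⟨hs.1, hs.2.le⟩) h
    ⟨hh0.le, le_rfl⟩
  have h2 : g 0 = 0 := by
    simp only [hg, mul_zero]
    rw [zero_pow two_ne_zero, zero_smul, two_smul]
    abel
  rw [h2, sub_zero, sub_zero] at h1
  have h3 : (h ^ 2)⁻¹ • (u (2 * h) - (2 : ℝ) • u h + u 0) - ξ = (h ^ 2)⁻¹ • g h := by
    simp only [hg]
    rw [smul_sub _ _ (h ^ 2 • ξ), smul_smul, inv_mul_cancel₀ (by positivity), one_smul]
  rw [dist_eq_norm, h3, norm_smul, norm_inv, Real.norm_eq_abs, abs_of_pos (by positivity : 0 < h ^ 2),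
    inv_mul_lt_iff₀ (by positivity)]
  refine h1.trans_lt ?_
  have : 0 < h ^ 2 := by positivity
  nlinarith

variable {D : Type*} [NormedAddCommGroup D] [InnerProductSpace ℂ D]
variable {Q : GF.Theory D} {T : Ix → Ix → GF.Fld D} {J : Ix → GF.Fld D}
variable {H : D → D} {alg : Set V → Set (D → D)} {S : V → ℝ → D → D} {G : V → D → D}
variable {A : (V → V) → D → D} {l : Fn → Completion D}

/-- velocity field of a null rotation -/
def Xn (c : ℝ × ℝ) (x : V) : V :=
  ![x 2 * c.1 + x 3 * c.2, -(x 2 * c.1 + x 3 * c.2), (x 0 + x 1) * c.1, (x 0 + x 1) * c.2]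

lemma nr_zero : nr 0 = GF.one := by
  funext m n
  fin_cases m <;> fin_cases n <;> simp [nr, GF.one, bas]

/-- null rotations are differentiable -/
lemma Rn_der0 (R : H15.Rep Q A) (c : ℝ × ℝ) (v : D) :
    HasDerivAt (fun s : ℝ => Rn Q (s • c) v) (I • A (Xn c) v) 0 := by
  refine R.der (fun _ => 1) (fun s => nr (s • c)) (fun _ => 0) (Xn c) v rfl ?_ rfl
    (fun e => ⟨one_pos, isLor_nr _⟩) ?_
  · show nr ((0 : ℝ) • c) = GF.one
    rw [zero_smul]
    exact nr_zero
  · intro n x
    have h2 : HasDerivAt (fun e : ℝ => e ^ 2) 0 0 := by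
      simpa using hasDerivAt_pow 2 (0 : ℝ)
    have h1 : HasDerivAt (fun e : ℝ => e) 1 0 := hasDerivAt_id 0
    have key : ∀ p q r : ℝ, HasDerivAt (fun e : ℝ => p + e * q + e ^ 2 * r) q 0 := by
      intro p q r
      have := ((h1.mul_const q).const_add p).add (h2.mul_const r)
      exact this.congr_deriv (by ring)
    obtain ⟨c1, c2⟩ := c
    fin_cases n
    · have := key (x 0) (x 2 * c1 + x 3 * c2) ((x 0 + x 1) * ((c1 ^ 2 + c2 ^ 2) / 2))
      refine this.congr_of_eventuallyEq (Eventually.of_forall fun e => ?_)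
      simp [sim, nr, Fin.sum_univ_four]
      ring
    · have := key (x 1) (-(x 2 * c1 + x 3 * c2)) (-((x 0 + x 1) * ((c1 ^ 2 + c2 ^ 2) / 2)))
      refine this.congr_of_eventuallyEq (Eventually.of_forall fun e => ?_)
      simp [sim, nr, Fin.sum_univ_four]
      ring
    · have := key (x 2) ((x 0 + x 1) * c1) 0
      refine this.congr_of_eventuallyEq (Eventually.of_forall fun e => ?_)
      simp [sim, nr, Fin.sum_univ_four]
      ring
    · have := key (x 3) ((x 0 + x 1) * c2) 0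
      refine this.congr_of_eventuallyEq (Eventually.of_forall fun e => ?_)
      simp [sim, nr, Fin.sum_univ_four]
      ring

lemma Rn_der (N : CNet Q H alg S) (R : H15.Rep Q A) (c : ℝ × ℝ) (v : D) (s : ℝ) :
    HasDerivAt (fun s : ℝ => Rn Q (s • c) v) (Rn Q (s • c) (I • A (Xn c) v)) s := by
  have h1 := hasDerivAt_iso (Rn_add (Q := Q) (s • c)) (Rn_smul (s • c)) (Rn_norm (s • c))
    (Rn_der0 R c v)
  have h2 : HasDerivAt (fun t : ℝ => t - s) 1 s := by
    simpa using (hasDerivAt_id s).sub_const s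
  have h3 : HasDerivAt (fun t : ℝ => Rn Q (s • c) (Rn Q (t • c) v))
      (Rn Q (s • c) (I • A (Xn c) v)) (s - s) := by
    rwa [sub_self]
  have h4 := HasDerivAt.scomp (h := fun t : ℝ => t - s) s h3 h2
  rw [one_smul] at h4
  refine h4.congr_of_eventuallyEq (Eventually.of_forall fun t => ?_)
  show Rn Q (t • c) v = Rn Q (s • c) (Rn Q ((t - s) • c) v)
  rw [Rn_Rn N, ← add_smul, add_sub_cancel]

/-- second differences of null rotations -/
lemma Rn_second (N : CNet Q H alg S) (R : H15.Rep Q A) (c : ℝ × ℝ) (y : D) :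
    Tendsto (fun h : ℝ => (h ^ 2)⁻¹ • (Rn Q ((2 * h) • c) y - (2 : ℝ) • Rn Q (h • c) y + y))
      (𝓝[>] 0) (𝓝 (I • A (Xn c) (I • A (Xn c) y))) := by
  have h1 := second_diff (u := fun s : ℝ => Rn Q (s • c) y)
    (v := fun s => Rn Q (s • c) (I • A (Xn c) y)) (Rn_der N R c y) (Rn_der0 R c _)
  have h2 : Rn Q ((0 : ℝ) • c) y = y := by
    rw [zero_smul, Rn_zero N]
  simp only [h2] at h1
  exact h1

end Vale.Agent.P352.N86

end
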