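import Vale.Agent.P352.N86.K.Defs

/-!
# P352: point like functionals from a representation of the similitudes
-/

set_option linter.all false

noncomputable section

open MeasureTheory Filter Topology SchwartzMap Complex
open scoped SchwartzMap ComplexConjugate ContDiff LineDeriv ENNReal NNReal

namespace Vale.Agent.P352.N86.PT

open GF (Ix V Fn Fld Theory Sch IsLor bas eta o sim pd tr ev bar)
open H246 H496 H755 H15 H846 H246R H746
open UniformSpace (Completion)

variable {D : Type*} [NormedAddCommGroup D] [InnerProductSpace ℂ D]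
variable {Q : GF.Theory D} {T : Ix → Ix → GF.Fld D} {J : Ix → GF.Fld D}
variable {H : D → D} {A : (V → V) → D → D}

/-- `H` is the generator of the time translations -/
def En (Q : GF.Theory D) (H : D → D) : Prop :=
  ∀ v, HasDerivAt (fun t : ℝ => Q.U 1 GF.one (bas o t) v) (I • H v) 0

/-- the energy operator of a representation of the similitudes -/
def HR (A : (V → V) → D → D) : D → D := A (fun _ => bas o 1)

lemma en_of (R : H15.Rep Q A) : En Q (HR A) := by
  intro v
  refine R.der (fun _ => 1) (fun _ => GF.one) (fun t => bas o t) (fun _ => bas o 1) v rfl rfl ?_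
    (fun _ => ⟨one_pos, isLor_one⟩) ?_
  · funext n
    simp [bas]
  · intro n x
    have e : (fun e : ℝ => sim 1 GF.one (bas o e) x n) = fun e : ℝ => x n + e * bas o 1 n := by
      funext e
      rw [H755.sim_one']
      simp only [Pi.add_apply, bas]
      split_ifs <;> simp
    rw [e]
    simpa using ((hasDerivAt_id (0 : ℝ)).mul_const (bas o 1 n)).const_add (x n)

section

variable (hE : En Q H)
include hE

lemma hd_H (v : D) : HasDerivAt (fun t : ℝ => U1 Q (t • eb 0) v) (I • H v) 0 := by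
  have h := hE v
  have e : (fun t : ℝ => Q.U 1 GF.one (bas o t) v) = fun t : ℝ => U1 Q (t • eb 0) v := by
    funext t
    rw [bas_eq]
    rfl
  rwa [e] at h

lemma H_comm (x : Mink) (v : D) : H (U1 Q x v) = U1 Q x (H v) := by
  have h1 := hd_H hE (U1 Q x v)
  have h2 := hasDerivAt_U1 (Q := Q) x (hd_H hE v)
  have e : (fun t : ℝ => U1 Q (t • eb 0) (U1 Q x v)) = fun t : ℝ => U1 Q x (U1 Q (t • eb 0) v) := by
    funext t
    rw [U1_U1_all, U1_U1_all, add_comm]
  rw [e] at h1
  have h3 := h1.unique h2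
  rw [U1_smul] at h3
  have h4 := congrArg (fun w => (-I) • w) h3
  simpa [smul_smul] using h4

lemma H_add (v w : D) : H (v + w) = H v + H w := by
  have h1 := hd_H hE (v + w)
  have h2 := (hd_H hE v).add (hd_H hE w)
  have e : (fun t : ℝ => U1 Q (t • eb 0) (v + w)) =
      (fun t : ℝ => U1 Q (t • eb 0) v) + fun t : ℝ => U1 Q (t • eb 0) w := by
    funext t
    rw [Pi.add_apply, U1_add]
  rw [e] at h1
  have h3 := h1.unique h2
  rw [← smul_add] at h3
  have h4 := congrArg (fun w => (-I) • w) h3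
  simpa [smul_smul] using h4

lemma H_smul (c : ℂ) (v : D) : H (c • v) = c • H v := by
  have h1 := hd_H hE (c • v)
  have h2 := (hd_H hE v).const_smul c
  have e : (fun t : ℝ => U1 Q (t • eb 0) (c • v)) = c • fun t : ℝ => U1 Q (t • eb 0) v := by
    funext t
    rw [Pi.smul_apply, U1_smul]
  rw [e] at h1
  have h3 := h1.unique h2
  rw [smul_comm c I] at h3
  have h4 := congrArg (fun w => (-I) • w) h3
  have h5 : -I * I = 1 := by rw [neg_mul, I_mul_I, neg_neg]
  simp only [smul_smul (-I) I, h5, one_smul] at h4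
  exact h4

/-- the energy operator is symmetric -/
lemma H_symm (v w : D) : inner ℂ (H v) w = inner ℂ v (H w) := by
  have h1 := (hd_H hE v).inner ℂ (hd_H hE w)
  have e : (fun t : ℝ => inner ℂ (U1 Q (t • eb 0) v) (U1 Q (t • eb 0) w)) =
      fun _ => inner ℂ v w := by
    funext t
    rw [U1_inner]
  rw [e] at h1
  have h3 := h1.unique (hasDerivAt_const (0 : ℝ) _)
  rw [zero_smul, U1_zero_all, U1_zero_all, inner_smul_left, inner_smul_right, conj_I] at h3
  have h4 : I * inner ℂ (H v) w = I * inner ℂ v (H w) := by linear_combination -h3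
  exact mul_left_cancel₀ I_ne_zero h4

lemma pw1_comm (n : ℕ) (x : Mink) (v : D) : pw1 H n (U1 Q x v) = U1 Q x (pw1 H n v) := by
  induction n generalizing v with
  | zero => rfl
  | succ n ih =>
    show pw1 H n (U1 Q x v + H (U1 Q x v)) = U1 Q x (pw1 H n (v + H v))
    rw [H_comm hE, ← U1_add, ih]

lemma pw1_add (n : ℕ) (v w : D) : pw1 H n (v + w) = pw1 H n v + pw1 H n w := by
  induction n generalizing v w with
  | zero => rfl
  | succ n ih =>
    show pw1 H n (v + w + H (v + w)) = pw1 H n (v + H v) + pw1 H n (w + H w)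
    rw [H_add hE, ← ih]
    congr 1
    abel

lemma pw1_smul (n : ℕ) (c : ℂ) (v : D) : pw1 H n (c • v) = c • pw1 H n v := by
  induction n generalizing v with
  | zero => rfl
  | succ n ih =>
    show pw1 H n (c • v + H (c • v)) = c • pw1 H n (v + H v)
    rw [H_smul hE, ← smul_add, ih]

/-- the powers of `1 + H` are symmetric -/
lemma pw1_symm (n : ℕ) (v w : D) : inner ℂ (pw1 H n v) w = inner ℂ v (pw1 H n w) := by
  have h1 : ∀ (n : ℕ) (v : D), pw1 H n (v + H v) = pw1 H n v + H (pw1 H n v) := by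
    intro n
    induction n with
    | zero => intro v; rfl
    | succ n ih =>
      intro v
      show pw1 H n (v + H v + H (v + H v)) = pw1 H n (v + H v) + H (pw1 H n (v + H v))
      rw [ih (v + H v)]
  induction n generalizing v w with
  | zero => rfl
  | succ n ih =>
    show inner ℂ (pw1 H n (v + H v)) w = inner ℂ v (pw1 H n (w + H w))
    rw [ih, h1, inner_add_left, inner_add_right, H_symm hE]

end

/-! ### Matrix elements in momentum space -/

section

variable {κ : 𝓢(Mink, ℂ) →L[ℂ] Completion D} {μ : Measure Mink} (K : Cvd Q κ μ)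
variable (hE : En Q H)
include hE

lemma jd_H (v : D) : K.jd (H v) =ᵐ[μ] fun p => (p 0 : ℂ) * K.jd v p := by
  set t : ℕ → ℝ := fun n => 1 / ((n : ℝ) + 1) with ht
  have ht0 : ∀ n, 0 < t n := fun n => by simp only [ht]; positivity
  have htt : Tendsto t atTop (𝓝 0) := tendsto_one_div_add_atTop_nhds_zero_nat
  have htn : Tendsto t atTop (𝓝[≠] 0) := tendsto_nhdsWithin_iff.2
    ⟨htt, Eventually.of_forall fun n => (ht0 n).ne'⟩
  have h1 := (hasDerivAt_iff_tendsto_slope.1 (hd_H hE v)).comp htn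
  have h2 : Tendsto (fun n => K.jd (slope (fun t : ℝ => U1 Q (t • eb 0) v) 0 (t n))) atTop
      (𝓝 (K.jd (I • H v))) := by
    have hc : Continuous fun w : D => K.jd w :=
      (ContinuousLinearMap.adjoint K.J).continuous.comp (Completion.continuous_coe D)
    exact (hc.tendsto _).comp h1
  have hsl : ∀ n, K.jd (slope (fun t : ℝ => U1 Q (t • eb 0) v) 0 (t n)) =
      ((t n : ℂ))⁻¹ • (K.jd (U1 Q (t n • eb 0) v) - K.jd v) := by
    intro n
    have e1 : slope (fun t : ℝ => U1 Q (t • eb 0) v) 0 (t n) =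
        ((t n : ℂ))⁻¹ • (U1 Q (t n • eb 0) v + (-1 : ℂ) • v) := by
      rw [slope_def_module, sub_zero, zero_smul, U1_zero_all, neg_one_smul, ← sub_eq_add_neg,
        ← ofReal_inv]
      rfl
    rw [e1, K.jd_smul, K.jd_add, K.jd_smul, neg_one_smul, ← sub_eq_add_neg]
  simp only [hsl] at h2
  obtain ⟨ns, hns, hae⟩ := (tendstoInMeasure_of_tendsto_Lp h2).exists_seq_tendsto_ae
  have hall : ∀ᵐ p ∂μ, ∀ n : ℕ, (((t n : ℂ))⁻¹ • (K.jd (U1 Q (t n • eb 0) v) -
      K.jd v) : Lp ℂ 2 μ) p = ((t n : ℂ))⁻¹ * ((chr (t n • eb 0) p - 1) * K.jd v p) := by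
    rw [ae_all_iff]
    intro n
    filter_upwards [Lp.coeFn_smul ((t n : ℂ))⁻¹ (K.jd (U1 Q (t n • eb 0) v) - K.jd v),
      Lp.coeFn_sub (K.jd (U1 Q (t n • eb 0) v)) (K.jd v),
      K.jd_U1 (t n • eb 0) v] with p h3 h4 h5
    rw [h3, Pi.smul_apply, h4, Pi.sub_apply, h5, smul_eq_mul]
    ring
  have hI : K.jd (I • H v) =ᵐ[μ] fun p => I * K.jd (H v) p := by
    rw [K.jd_smul]
    filter_upwards [Lp.coeFn_smul I (K.jd (H v))] with p hp
    rw [hp, Pi.smul_apply, smul_eq_mul]
  filter_upwards [hae, hall, hI] with p h3 h4 h5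
  simp only [h4] at h3
  have h6 : Tendsto (fun n : ℕ => ((t n : ℂ))⁻¹ * (chr (t n • eb 0) p - 1)) atTop
      (𝓝 (I * p 0)) := by
    have hd : HasDerivAt (fun s : ℝ => exp (I * ((s * p 0 : ℝ) : ℂ))) (I * p 0) 0 := by
      have h7 : HasDerivAt (fun s : ℝ => I * ((s * p 0 : ℝ) : ℂ)) (I * p 0) 0 := by
        have := (((Complex.ofRealCLM.hasDerivAt (x := (0 : ℝ))).mul_const (p 0 : ℂ)).const_mul I)
        simpa using this
      have := h7.cexp
      simpa using this
    have h8 := (hasDerivAt_iff_tendsto_slope.1 hd).comp htn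
    refine h8.congr fun n => ?_
    simp only [Function.comp_apply, slope_def_module, sub_zero, chr, mdot_eb0]
    rw [real_smul, ofReal_inv]
    simp
  have h7 := (h6.comp hns.tendsto_atTop).mul_const (K.jd v p)
  have h8 := tendsto_nhds_unique h3 (h7.congr fun n => by
    simp only [Function.comp_apply]; ring)
  rw [h5] at h8
  have h9 : I * K.jd (H v) p = I * ((p 0 : ℂ) * K.jd v p) := by rw [h8]; ring
  exact mul_left_cancel₀ I_ne_zero h9

lemma jd_pw1 (n : ℕ) (v : D) :
    K.jd (pw1 H n v) =ᵐ[μ] fun p => (1 + (p 0 : ℂ)) ^ n * K.jd v p := by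
  induction n generalizing v with
  | zero => exact Eventually.of_forall fun p => by simp [pw1]
  | succ n ih =>
    have h1 := ih (v + H v)
    have h2 : K.jd (v + H v) =ᵐ[μ] fun p => (1 + (p 0 : ℂ)) * K.jd v p := by
      rw [K.jd_add]
      filter_upwards [Lp.coeFn_add (K.jd v) (K.jd (H v)), jd_H K hE v]
        with p h3 h4
      rw [h3, Pi.add_apply, h4]
      ring
    filter_upwards [h1, h2] with p h3 h4
    show K.jd (pw1 H n (v + H v)) p = _
    rw [h3, h4]
    ring

/-- matrix elements in momentum space -/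
lemma pt_eq (w : Lp ℂ 2 μ) (n : ℕ) (x : Mink) (v : D) :
    pt (K.J w) (pw1 H n) (U1 Q x v) =
      ∫ p, conj (w p) * (chr x p * ((1 + (p 0 : ℂ)) ^ n * K.jd v p)) ∂μ := by
  unfold pt
  rw [K.inner_jd, L2.inner_def]
  apply integral_congr_ae
  filter_upwards [jd_pw1 K hE n (U1 Q x v), K.jd_U1 x v] with p h1 h2
  rw [h1, h2]
  simp only [RCLike.inner_apply]
  ring

lemma integrable_pt (w : Lp ℂ 2 μ) (n : ℕ) (v : D) :
    Integrable (fun p => conj (w p) * ((1 + (p 0 : ℂ)) ^ n * K.jd v p)) μ := by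
  have h1 : Integrable (fun p => conj (w p) * K.jd (pw1 H n v) p) μ := by
    have := (Lp.memLp w).star.integrable_mul (Lp.memLp (K.jd (pw1 H n v)))
    exact this
  refine h1.congr ?_
  filter_upwards [jd_pw1 K hE n v] with p hp
  rw [hp]

/-- the representation of the distribution by a point like functional -/
theorem exists_pt : ∃ (w : Lp ℂ 2 μ) (n : ℕ), ∀ (F : 𝓢(Mink, ℂ)) (v : D),
    inner ℂ (κ F) (v : Completion D) =
      ∫ x : Mink, conj (F x) * pt (K.J w) (pw1 H n) (U1 Q (-x) v) := by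
  obtain ⟨n, hn⟩ := K.exists_wt0
  set w := hn.toLp _ with hw
  refine ⟨w, n, fun F v => ?_⟩
  have hwu := integrable_pt K hE w n v
  have h1 : ∀ x : Mink, pt (K.J w) (pw1 H n) (U1 Q (-x) v) =
      ∫ p, conj (chr x p) * (conj (w p) * ((1 + (p 0 : ℂ)) ^ n * K.jd v p)) ∂μ := by
    intro x
    rw [pt_eq K hE]
    congr 1
    ext p
    rw [chr_neg]
    ring
  have h2 : inner ℂ (κ F) (v : Completion D) =
      ∫ p, conj (mft F p) * (conj (w p) * ((1 + (p 0 : ℂ)) ^ n * K.jd v p)) ∂μ := by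
    rw [← K.J_toL, K.inner_jd, inner_toL]
    apply integral_congr_ae
    filter_upwards [hn.coeFn_toLp, K.cone] with p h4 h5
    rw [h4, conj_ofReal]
    have h6 : (wt0 n p : ℂ) * (1 + (p 0 : ℂ)) ^ n = 1 := by
      unfold wt0
      rw [abs_of_nonneg h5.1]
      have h7 : (1 + (p 0 : ℂ)) ≠ 0 := by
        have h8 : 0 < 1 + p 0 := by have := h5.1; linarith
        intro h9
        have h10 : ((1 + p 0 : ℝ) : ℂ) = 0 := by rw [ofReal_add, ofReal_one]; exact h9
        exact h8.ne' (Complex.ofReal_eq_zero.1 h10)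
      push_cast
      field_simp
    linear_combination (-(conj (mft F p)) * K.jd v p) * h6
  rw [h2]
  simp only [h1]
  have h3 : ∀ x : Mink, conj (F x) *
      ∫ p, conj (chr x p) * (conj (w p) * ((1 + (p 0 : ℂ)) ^ n * K.jd v p)) ∂μ =
      ∫ p, conj (F x) * (conj (chr x p) * (conj (w p) * ((1 + (p 0 : ℂ)) ^ n * K.jd v p))) ∂μ := by
    intro x
    rw [integral_const_mul]
  simp only [h3]
  have hfc := K.fin
  rw [integral_integral_swap]
  · congr 1
    ext p
    rw [mft, ← integral_conj, ← integral_mul_const]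
    congr 1
    ext x
    rw [chr, map_mul]
    ring
  · have hint : Integrable (fun q : Mink × Mink => ‖F q.1‖ *
        ‖conj (w q.2) * ((1 + (q.2 0 : ℂ)) ^ n * K.jd v q.2)‖)
        ((volume : Measure Mink).prod μ) :=
      ((F.integrable (μ := (volume : Measure Mink))).norm).mul_prod hwu.norm
    refine hint.mono' ?_ (Eventually.of_forall fun q => ?_)
    · apply AEStronglyMeasurable.mul
      · exact (Complex.continuous_conj.comp (F.continuous.comp continuous_fst)).aestronglyMeasurable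
      · apply AEStronglyMeasurable.mul
        · exact (Complex.continuous_conj.comp continuous_chr2).aestronglyMeasurable
        · exact hwu.aestronglyMeasurable.comp_snd
    · simp only [Function.uncurry]
      rw [norm_mul, norm_mul, RCLike.norm_conj, RCLike.norm_conj, norm_chr, one_mul]

end

/-! ### Point functionals -/

/-- `p` is the value at the origin of the vector valued distribution `κ` -/
structure PtF (Q : GF.Theory D) (H : D → D) (κ : 𝓢(Mink, ℂ) → Completion D) (p : D → ℂ) :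
    Prop where
  rep : ∀ F (v : D), inner ℂ (κ F) (v : Completion D) = ∫ x : Mink, conj (F x) * p (U1 Q (-x) v)
  add : ∀ v w, p (v + w) = p v + p w
  smul : ∀ (c : ℂ) v, p (c • v) = c * p v
  cont : ∀ v, Continuous fun x : Mink => p (U1 Q x v)
  bd : ∃ (C : ℝ) (n : ℕ), 0 ≤ C ∧ ∀ (x : Mink) v,
    ‖p (U1 Q x v)‖ ≤ C * ∑ k ∈ Finset.range n, ‖pw1 H k v‖

theorem exists_ptF (hE : En Q H) (κ : 𝓢(Mink, ℂ) →L[ℂ] Completion D)
    (cov : ∀ g (a : Mink) (z : D), inner ℂ ((U1 Q a z : D) : Completion D) (κ (tauS a g)) =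
      inner ℂ (z : Completion D) (κ g)) : ∃ (φ : Completion D) (n : ℕ),
      PtF Q H κ (pt φ (pw1 H n)) := by
  obtain ⟨μ, K⟩ := exists_cvd κ cov
  obtain ⟨w, n, h⟩ := exists_pt K hE
  refine ⟨K.J w, n, h, ?_, ?_, ?_, ‖K.J w‖, n + 1, norm_nonneg _, ?_⟩
  · intro v w'
    unfold pt
    rw [pw1_add hE, Completion.coe_add, inner_add_right]
  · intro c v
    unfold pt
    rw [pw1_smul hE, Completion.coe_smul, inner_smul_right]
  · intro v
    unfold pt
    simp only [pw1_comm hE]
    have h1 := (Completion.continuous_coe D).comp (continuous_U1a (Q := Q) (pw1 H n v))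
    exact continuous_const.inner h1
  · intro x v
    unfold pt
    refine (norm_inner_le_norm _ _).trans ?_
    rw [pw1_comm hE, Completion.norm_coe, U1_norm]
    refine mul_le_mul_of_nonneg_left ?_ (norm_nonneg _)
    exact Finset.single_le_sum (f := fun k => ‖pw1 H k v‖) (fun k _ => norm_nonneg _)
      (Finset.self_mem_range_succ n)

section

variable {κ κ' : 𝓢(Mink, ℂ) → Completion D} {p p' : D → ℂ}

lemma PtF.bdd (h : PtF Q H κ p) (v : D) : ∃ C, ∀ x : Mink, ‖p (U1 Q x v)‖ ≤ C := by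
  obtain ⟨C, n, h0, hb⟩ := h.bd
  exact ⟨_, fun x => hb x v⟩

lemma PtF.cont' (h : PtF Q H κ p) (v : D) : Continuous fun x : Mink => p (U1 Q (-x) v) :=
  (h.cont v).comp continuous_neg

lemma PtF.int (h : PtF Q H κ p) (F : 𝓢(Mink, ℂ)) (v : D) :
    Integrable fun x : Mink => conj (F x) * p (U1 Q (-x) v) := by
  obtain ⟨C, hC⟩ := h.bdd v
  have h1 : Integrable fun x : Mink => conj (F x) :=
    Complex.conjCLE.toContinuousLinearMap.integrable_comp F.integrable
  exact h1.mul_bdd (c := C) (h.cont' v).aestronglyMeasurable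
    (Eventually.of_forall fun x => hC (-x))

lemma PtF.sub (h : PtF Q H κ p) (v w : D) : p (v - w) = p v - p w := by
  have e : v - w = v + (-1 : ℂ) • w := by rw [neg_one_smul, sub_eq_add_neg]
  rw [e, h.add, h.smul]
  ring

lemma PtF.zero (h : PtF Q H κ p) : p 0 = 0 := by
  have := h.smul 0 0
  rwa [zero_smul, zero_mul] at this

lemma PtF.unique (h : PtF Q H κ p) (h' : PtF Q H κ' p') (he : ∀ F, κ F = κ' F) (v : D) :
    p v = p' v := by
  have h1 := fun_unique (h.cont' v) (h'.cont' v) (fun F _ => by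
    rw [← h.rep F v, ← h'.rep F v, he])
  have h2 := congrFun h1 0
  simp only [neg_zero, U1_zero_all] at h2
  exact h2

/-- linear combinations -/
lemma PtF.sum {ι : Type*} [Fintype ι] {k : ι → 𝓢(Mink, ℂ) → Completion D} {q : ι → D → ℂ}
    (h : ∀ i, PtF Q H (k i) (q i)) (c : ι → ℂ) :
    PtF Q H (fun F => ∑ i, c i • k i F) (fun v => ∑ i, conj (c i) * q i v) := by
  refine ⟨?_, ?_, ?_, ?_, ?_⟩
  · intro F v
    rw [sum_inner]
    simp only [Finset.mul_sum]
    rw [integral_finset_sum _ fun i _ => ?_]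
    · refine Finset.sum_congr rfl fun i _ => ?_
      rw [inner_smul_left, (h i).rep, ← integral_const_mul]
      congr 1
      ext x
      ring
    · refine (((h i).int F v).const_mul (conj (c i))).congr (Eventually.of_forall fun x => ?_)
      simp only
      ring
  · intro v w
    rw [← Finset.sum_add_distrib]
    refine Finset.sum_congr rfl fun i _ => ?_
    rw [(h i).add]
    ring
  · intro z v
    rw [Finset.mul_sum]
    refine Finset.sum_congr rfl fun i _ => ?_
    rw [(h i).smul]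
    ring
  · intro v
    exact continuous_finset_sum _ fun i _ => continuous_const.mul ((h i).cont v)
  · choose C n hC hb using fun i => (h i).bd
    refine ⟨∑ i, ‖conj (c i)‖ * C i, ∑ i, n i, Finset.sum_nonneg fun i _ =>
      mul_nonneg (norm_nonneg _) (hC i), fun x v => ?_⟩
    refine (norm_sum_le _ _).trans ?_
    rw [Finset.sum_mul]
    refine Finset.sum_le_sum fun i _ => ?_
    rw [norm_mul, mul_assoc]
    refine mul_le_mul_of_nonneg_left ((hb i x v).trans ?_) (norm_nonneg _)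
    refine mul_le_mul_of_nonneg_left ?_ (hC i)
    refine Finset.sum_le_sum_of_subset_of_nonneg ?_ fun k _ _ => norm_nonneg _
    exact Finset.range_subset_range.2 (Finset.single_le_sum (f := n) (fun _ _ => Nat.zero_le _)
      (Finset.mem_univ i))

lemma PtF.congr (h : PtF Q H κ p) (he : ∀ F, κ' F = κ F) (hp : ∀ v, p' v = p v) :
    PtF Q H κ' p' := by
  have e1 : κ' = κ := funext he
  have e2 : p' = p := funext hp
  rw [e1, e2]
  exact h

lemma U_scaleR (R : H15.Rep Q A) {s : ℝ} (hs : 0 < s) {L : Ix → V} (hL : GF.IsLor L) (y : Mink)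
    (v : D) : U1 Q (-(s • lam L y)) (Q.U s L 0 v) = Q.U s L 0 (U1 Q (-y) v) := by
  have h1 := R.mul 1 GF.one (-(s • lam L y)).ofLp s L 0 v one_pos hs isLor_one hL
  have h2 := R.mul s L 0 1 GF.one (-y).ofLp v hs one_pos hL isLor_one
  have e1 : (fun m => sim 1 GF.one 0 (L m)) = L := by
    funext m
    rw [sim_one]
    funext n
    simp
  have e2 : (fun m => sim 1 L 0 (GF.one m)) = L := by
    funext m n
    simp [sim, GF.one, bas]
  have e3 : sim 1 GF.one (-(s • lam L y)).ofLp 0 = sim s L 0 (-y).ofLp := by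
    rw [sim_one]
    funext n
    simp [sim, lam_apply]
  rw [e1, one_mul, e3] at h1
  rw [e2, mul_one] at h2
  exact h1.trans h2.symm

lemma U_inv_scaleR (R : H15.Rep Q A) {s : ℝ} (hs : 0 < s) {L : Ix → V} (hL : GF.IsLor L)
    (y : Mink) (v : D) : U1 Q (-y) (Q.U s L 0 v) = Q.U s L 0 (U1 Q (-(s⁻¹ • lam (linv L) y)) v) := by
  rw [← U_scaleR R hs hL]
  congr 2
  have h1 : lam L (s⁻¹ • lam (linv L) y) = s⁻¹ • y := by
    have h2 : ∀ (c : ℝ) (x : Mink), lam L (c • x) = c • lam L x := by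
      intro c x
      ext n
      simp only [lam_apply, PiLp.smul_apply, smul_eq_mul, Finset.mul_sum]
      exact Finset.sum_congr rfl fun k _ => by ring
    rw [h2, lam_linv hL]
  rw [h1, smul_smul, mul_inv_cancel₀ hs.ne', one_smul]

/-- covariance of point functionals -/
theorem PtF.cov (R : H15.Rep Q A) (h : PtF Q H κ p) (h' : PtF Q H κ' p') {s : ℝ} (hs : 0 < s)
    {L : Ix → V} (hL : GF.IsLor L) (w : ℂ) (hcov : ∀ F (v : D), inner ℂ (κ F)
      ((Q.U s L 0 v : D) : Completion D) = w * inner ℂ (κ' (simS s hs hL 0 F)) (v : Completion D))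
    (v : D) : p (Q.U s L 0 v) = w * ((s ^ 4)⁻¹ : ℝ) * p' v := by
  have hc1 : Continuous fun x : Mink => p (U1 Q (-x) (Q.U s L 0 v)) := h.cont' _
  have hc2 : Continuous fun x : Mink => w * ((s ^ 4)⁻¹ : ℝ) *
      p' (U1 Q (-(s⁻¹ • lam (linv L) x)) v) := by
    refine continuous_const.mul ?_
    exact (h'.cont' v).comp ((continuous_lam (linv L)).const_smul s⁻¹)
  have h1 := fun_unique hc1 hc2 (fun F hF => by
    rw [← h.rep, hcov, h'.rep]
    have h3 := int_sim hs hL
      (fun x => conj (F x) * p' (U1 Q (-(s⁻¹ • lam (linv L) x)) v))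
    have h4 : ∀ y : Mink, s⁻¹ • lam (linv L) (s • lam L y) = y := by
      intro y
      have h5 : lam (linv L) (s • lam L y) = s • y := by
        have h6 : ∀ (c : ℝ) (x : Mink), lam (linv L) (c • x) = c • lam (linv L) x := by
          intro c x
          ext n
          simp only [lam_apply, PiLp.smul_apply, smul_eq_mul, Finset.mul_sum]
          exact Finset.sum_congr rfl fun k _ => by ring
        rw [h6, linv_lam hL]
      rw [h5, smul_smul, inv_mul_cancel₀ hs.ne', one_smul]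
    simp only [h4] at h3
    simp only [simS0_apply]
    have e : ∀ x : Mink, conj (F x) * (w * ((s ^ 4)⁻¹ : ℝ) *
        p' (U1 Q (-(s⁻¹ • lam (linv L) x)) v)) = (w * ((s ^ 4)⁻¹ : ℝ)) * (conj (F x) *
        p' (U1 Q (-(s⁻¹ • lam (linv L) x)) v)) := fun x => by ring
    simp only [e]
    rw [integral_const_mul, h3]
    have hs' : (s : ℂ) ≠ 0 := by exact_mod_cast hs.ne'
    push_cast
    field_simp)
  have h2 := congrFun h1 0
  have h8 : s⁻¹ • lam (linv L) (0 : Mink) = 0 := by
    have : lam (linv L) (0 : Mink) = 0 := by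
      ext n
      simp [lam_apply]
    rw [this, smul_zero]
  simp only [h8, neg_zero, U1_zero_all] at h2
  exact h2

end

/-! ### Values of fields applied to the vacuum -/

/-- the value at the origin of `x ↦ ⟨Φ(x) Ω, v⟩` -/
def vf (Q : GF.Theory D) (Φ : GF.Fld D) (v : D) : ℂ :=
  Classical.epsilon (Val (fun f => ((Φ f Q.vac : D) : Completion D)) v)

lemma vj_eq_vf (m : Ix) (v : D) : vj Q J m v = vf Q (J m) v := rfl

/-- the value at the origin -/
theorem val_iff {j : Fn → Completion D} {κ : 𝓢(Mink, ℂ) → Completion D} {p : D → ℂ}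
    (h : PtF Q H κ p) (hj : ∀ F, j (fl F) = κ F) (v : D) (c : ℂ) : Val j v c ↔ c = p v := by
  have hcont : Continuous fun x : V => p (Q.U 1 GF.one (-x) v) :=
    (h.cont' v).comp (by fun_prop : Continuous fun x : V => (WithLp.toLp 2 x : Mink))
  have h0 : p (Q.U 1 GF.one (-(0 : V)) v) = p v := by
    have : Q.U 1 GF.one (-(0 : V)) v = v := by
      rw [neg_zero]; exact U1_zero_all (Q := Q) v
    rw [this]
  have hint : ∀ f, In Set.univ f → inner ℂ (j f) (v : Completion D) =
      ∫ x : V, star (f x) * p (Q.U 1 GF.one (-x) v) := by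
    intro f hf
    obtain ⟨F, rfl⟩ := exists_fl hf.1
    rw [hj, h.rep, integral_V]
    rfl
  constructor
  · rintro ⟨G, hG, rfl, hGint⟩
    have h1 := fun_unique (h := fun x : Mink => G x.ofLp)
      (h' := fun x : Mink => p (Q.U 1 GF.one (-x.ofLp) v))
      (hG.comp (by fun_prop : Continuous fun x : Mink => x.ofLp))
      (hcont.comp (by fun_prop : Continuous fun x : Mink => x.ofLp))
      (fun F hF => by
        have hin : In Set.univ (fl F) := in_univ.2 ⟨hF, Set.subset_univ _⟩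
        have h1 := hGint _ hin
        have h2 := hint _ hin
        rw [h1, integral_V, integral_V] at h2
        exact h2)
    have h3 := congrFun h1 0
    have h4 : (0 : Mink).ofLp = (0 : V) := rfl
    simp only [h4] at h3
    rw [h3, h0]
  · rintro rfl
    exact ⟨_, hcont, h0, hint⟩

/-- the point functional of a field -/
theorem ptF_vf (hE : En Q H) {Φ : GF.Fld D} (hΦ : Q.fld Φ) :
    PtF Q H (fun F => ((Φ (fl F) Q.vac : D) : Completion D)) (vf Q Φ) := by
  obtain ⟨φ, n, hp⟩ := exists_ptF hE (kf hΦ) (kf_cov hΦ)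
  refine hp.congr (fun F => rfl) fun v => ?_
  have h1 := val_iff hp (j := fun f => ((Φ f Q.vac : D) : Completion D)) (fun F => rfl) v
  have h2 : Val (fun f => ((Φ f Q.vac : D) : Completion D)) v (vf Q Φ v) :=
    Classical.epsilon_spec ⟨_, (h1 _).2 rfl⟩
  exact (h1 _).1 h2

/-- one exponent for a linear combination of fields -/
theorem one_exp (hE : En Q H) {ι : Type*} [Fintype ι] {Φ : ι → GF.Fld D} (hΦ : ∀ i, Q.fld (Φ i))
    (c : ι → ℝ) : ∃ (φ : Completion D) (n : ℕ), ∀ v,
      ∑ i, (c i : ℂ) * vf Q (Φ i) v = pt φ (pw1 H n) v := by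
  set κ : 𝓢(Mink, ℂ) →L[ℂ] Completion D := ∑ i, (c i : ℂ) • kf (hΦ i) with hκ
  have hκa : ∀ F, κ F = ∑ i, (c i : ℂ) • kf (hΦ i) F := by
    intro F
    rw [hκ, ContinuousLinearMap.sum_apply]
    rfl
  have hcov : ∀ g (a : Mink) (z : D), inner ℂ ((U1 Q a z : D) : Completion D) (κ (tauS a g)) =
      inner ℂ (z : Completion D) (κ g) := by
    intro g a z
    rw [hκa, hκa, inner_sum, inner_sum]
    refine Finset.sum_congr rfl fun i _ => ?_
    rw [inner_smul_right, inner_smul_right, kf_cov]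
  obtain ⟨φ, n, hp⟩ := exists_ptF hE κ hcov
  refine ⟨φ, n, fun v => ?_⟩
  have h1 := PtF.sum (fun i => ptF_vf (H := H) hE (hΦ i)) (fun i => (c i : ℂ))
  have h2 := h1.unique hp (fun F => by rw [hκa]; rfl) v
  simp only [conj_ofReal] at h2
  exact h2

/-! ### Covariance -/

section

variable (R : H15.Rep Q A)
include R

/-- transformation of the values of the virial current -/
theorem vfJ_cov (hJ : IsVirial Q T J) {s : ℝ} (hs : 0 < s) {L : Ix → V} (hL : GF.IsLor L) (m : Ix)
    (v : D) : vf Q (J m) (Q.U s L 0 v) =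
      ((s ^ 3)⁻¹ : ℝ) * ∑ k, (L k m : ℂ) * vf Q (J k) v := by
  have hf : ∀ m, Q.fld (J m) := fun m => Q.bose_fld _ (hJ.bose m)
  have hE := en_of R
  have h2 := PtF.sum (fun k => ptF_vf hE (hf k)) (fun k => ((L k m : ℝ) : ℂ))
  have h3 := PtF.cov R (ptF_vf hE (hf m)) h2 hs hL (s : ℂ) (fun F v => by
    have h4 := hJ.cov m s L 0 (fl F) Q.vac hs hL (isTest_fl F)
    rw [Q.U_vac _ _ _ hs hL, fl_sim s hs hL 0] at h4
    rw [h4, Completion.inner_coe, sum_inner, sum_inner, Finset.mul_sum]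
    refine Finset.sum_congr rfl fun k _ => ?_
    rw [inner_smul_left, inner_smul_left, Q.U_inner _ _ _ _ _ hs hL, Completion.inner_coe]
    simp only [map_mul, conj_ofReal]
    ring) v
  rw [h3]
  simp only [conj_ofReal]
  have hs' : (s : ℂ) ≠ 0 := by exact_mod_cast hs.ne'
  push_cast
  field_simp

/-- transformation of the values of the stress tensor -/
theorem vfT_cov (hT : Q.IsStress T) {s : ℝ} (hs : 0 < s) {L : Ix → V} (hL : GF.IsLor L)
    (m n : Ix) (v : D) : vf Q (T m n) (Q.U s L 0 v) =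
      ((s ^ 4)⁻¹ : ℝ) * ∑ k, ∑ l, ((L k m * L l n : ℝ) : ℂ) * vf Q (T k l) v := by
  have hf : ∀ m n, Q.fld (T m n) := fun m n => Q.bose_fld _ (hT.bose m n)
  have hE := en_of R
  have h2 := PtF.sum (ι := Ix × Ix) (fun k => ptF_vf hE (hf k.1 k.2))
    (fun k => ((L k.1 m * L k.2 n : ℝ) : ℂ))
  have h3 := PtF.cov R (ptF_vf hE (hf m n)) h2 hs hL 1 (fun F v => by
    have h4 := hT.cov m n s L 0 (fl F) Q.vac hs hL (isTest_fl F)
    rw [Q.U_vac _ _ _ hs hL, fl_sim s hs hL 0] at h4
    rw [h4, Completion.inner_coe, sum_inner, sum_inner, one_mul, Fintype.sum_prod_type]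
    refine Finset.sum_congr rfl fun k _ => ?_
    rw [sum_inner]
    refine Finset.sum_congr rfl fun l _ => ?_
    rw [inner_smul_left, inner_smul_left, Q.U_inner _ _ _ _ _ hs hL, Completion.inner_coe]
    simp only [ofReal_mul]) v
  rw [h3, one_mul, Fintype.sum_prod_type]
  simp only [conj_ofReal]

/-- `vtt b` is the value of `T_bb` -/
def vtt (Q : GF.Theory D) (T : Ix → Ix → GF.Fld D) (b : V) (v : D) : ℂ :=
  ∑ m, ∑ n, ((GF.eta m * b m * (GF.eta n * b n) : ℝ) : ℂ) * vf Q (T m n) v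

/-- covariance of the component of the current along a vector that is scaled -/
theorem vcR_cov (hJ : IsVirial Q T J) {s : ℝ} (hs : 0 < s) {L : Ix → V} (hL : GF.IsLor L)
    {a b : V} {r : ℝ} (hr : r ≠ 0) (hab : sim 1 L 0 a = r • b) (v : D) :
    vc Q J b (Q.U s L 0 v) = (((s ^ 3 * r)⁻¹ : ℝ) : ℂ) * vc Q J a v := by
  unfold vc
  simp only [vj_eq_vf, vfJ_cov R hJ hs hL, Finset.mul_sum]
  rw [Finset.sum_comm]
  refine Finset.sum_congr rfl fun k _ => ?_
  have h4 := H246R.contr2 hL hab k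
  have h5 : ∑ m, ((GF.eta m * b m : ℝ) : ℂ) * (((s ^ 3)⁻¹ : ℝ) * ((L k m : ℂ) *
      vf Q (J k) v)) = ((∑ m, GF.eta m * b m * L k m : ℝ) : ℂ) * (((s ^ 3)⁻¹ : ℝ) *
      vf Q (J k) v) := by
    push_cast
    rw [Finset.sum_mul]
    exact Finset.sum_congr rfl fun m _ => by ring
  rw [h5]
  have h6 : ∑ m, GF.eta m * b m * L k m = r⁻¹ * (GF.eta k * a k) := by
    rw [← h4, ← mul_assoc, inv_mul_cancel₀ hr, one_mul]
  rw [h6]
  push_cast
  have hs' : (s : ℂ) ≠ 0 := by exact_mod_cast hs.ne'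
  have hr' : (r : ℂ) ≠ 0 := by exact_mod_cast hr
  field_simp

/-- covariance of the double component of the stress tensor along a vector that is scaled -/
theorem vtt_cov (hT : Q.IsStress T) {s : ℝ} (hs : 0 < s) {L : Ix → V} (hL : GF.IsLor L)
    {a b : V} {r : ℝ} (hr : r ≠ 0) (hab : sim 1 L 0 a = r • b) (v : D) :
    vtt Q T b (Q.U s L 0 v) = (((s ^ 4 * r ^ 2)⁻¹ : ℝ) : ℂ) * vtt Q T a v := by
  have h6 : ∀ k, ∑ m, GF.eta m * b m * L k m = r⁻¹ * (GF.eta k * a k) := by
    intro k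
    rw [← H246R.contr2 hL hab k, ← mul_assoc, inv_mul_cancel₀ hr, one_mul]
  have h7 : ∀ k l, ∑ m, ∑ n, ((GF.eta m * b m * (GF.eta n * b n) : ℝ) : ℂ) *
      ((L k m * L l n : ℝ) : ℂ) = (((r ^ 2)⁻¹ : ℝ) : ℂ) *
      ((GF.eta k * a k * (GF.eta l * a l) : ℝ) : ℂ) := by
    intro k l
    have e : (∑ m, GF.eta m * b m * L k m) * (∑ n, GF.eta n * b n * L l n) =
        (r ^ 2)⁻¹ * (GF.eta k * a k * (GF.eta l * a l)) := by
      rw [h6, h6]
      ring
    have e2 := congrArg (fun x : ℝ => (x : ℂ)) e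
    simp only [ofReal_mul] at e2 ⊢
    rw [← e2]
    push_cast
    rw [Finset.sum_mul_sum]
    refine Finset.sum_congr rfl fun m _ => Finset.sum_congr rfl fun n _ => by ring
  unfold vtt
  simp only [vfT_cov R hT hs hL]
  have e1 : ∀ m n : Ix, ((GF.eta m * b m * (GF.eta n * b n) : ℝ) : ℂ) * (((s ^ 4)⁻¹ : ℝ) *
      ∑ k, ∑ l, ((L k m * L l n : ℝ) : ℂ) * vf Q (T k l) v) =
      ∑ k, ∑ l, (((s ^ 4)⁻¹ : ℝ) * vf Q (T k l) v) *
        (((GF.eta m * b m * (GF.eta n * b n) : ℝ) : ℂ) * ((L k m * L l n : ℝ) : ℂ)) := by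
    intro m n
    rw [Finset.mul_sum, Finset.mul_sum]
    refine Finset.sum_congr rfl fun k _ => ?_
    rw [Finset.mul_sum, Finset.mul_sum]
    exact Finset.sum_congr rfl fun l _ => by ring
  simp only [e1]
  have e2 : ∑ m, ∑ n, ∑ k, ∑ l, (((s ^ 4)⁻¹ : ℝ) * vf Q (T k l) v) *
        (((GF.eta m * b m * (GF.eta n * b n) : ℝ) : ℂ) * ((L k m * L l n : ℝ) : ℂ)) =
      ∑ k, ∑ l, (((s ^ 4)⁻¹ : ℝ) * vf Q (T k l) v) *
        ∑ m, ∑ n, (((GF.eta m * b m * (GF.eta n * b n) : ℝ) : ℂ) * ((L k m * L l n : ℝ) : ℂ)) := by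
    simp only [Fin.sum_univ_four]
    ring
  rw [e2, Finset.mul_sum]
  refine Finset.sum_congr rfl fun k _ => ?_
  rw [Finset.mul_sum]
  refine Finset.sum_congr rfl fun l _ => ?_
  rw [h7]
  push_cast
  have hs' : (s : ℂ) ≠ 0 := by exact_mod_cast hs.ne'
  have hr' : (r : ℂ) ≠ 0 := by exact_mod_cast hr
  field_simp

lemma vcR_Wd (hJ : IsVirial Q T J) (t : ℝ) (v : D) : vc Q J (nu (-1)) (H496.Wd Q t v) =
    (((Real.exp t ^ 2)⁻¹ : ℝ) : ℂ) * vc Q J (nu (-1)) v := by
  have h := vcR_cov R hJ (Real.exp_pos t) (isLor_boost t) (Real.exp_pos (-t)).ne' (boost_nu t) v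
  have e : (Real.exp t ^ 3 * Real.exp (-t))⁻¹ = (Real.exp t ^ 2)⁻¹ := by
    congr 1
    rw [Real.exp_neg]
    have := (Real.exp_pos t).ne'
    field_simp
  rw [e] at h
  exact h

lemma vtt_Wd (hT : Q.IsStress T) (t : ℝ) (v : D) : vtt Q T (nu (-1)) (H496.Wd Q t v) =
    (((Real.exp t ^ 2)⁻¹ : ℝ) : ℂ) * vtt Q T (nu (-1)) v := by
  have h := vtt_cov R hT (Real.exp_pos t) (isLor_boost t) (Real.exp_pos (-t)).ne' (boost_nu t) v
  have e : (Real.exp t ^ 4 * Real.exp (-t) ^ 2)⁻¹ = (Real.exp t ^ 2)⁻¹ := by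
    congr 1
    rw [Real.exp_neg]
    have := (Real.exp_pos t).ne'
    field_simp
  rw [e] at h
  exact h

lemma vcR_Rn (hJ : IsVirial Q T J) (c : ℝ × ℝ) (v : D) :
    vc Q J (nu (-1)) (Rn Q c v) = vc Q J (nu (-1)) v := by
  have h := vcR_cov R hJ one_pos (isLor_nr c) one_ne_zero (nr_nu c) v
  rw [one_pow, mul_one, inv_one, ofReal_one, one_mul] at h
  exact h

lemma vtt_Rn (hT : Q.IsStress T) (c : ℝ × ℝ) (v : D) :
    vtt Q T (nu (-1)) (Rn Q c v) = vtt Q T (nu (-1)) v := by
  have h := vtt_cov R hT one_pos (isLor_nr c) one_ne_zero (nr_nu c) v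
  rw [one_pow, one_pow, mul_one, inv_one, ofReal_one, one_mul] at h
  exact h

end

end Vale.Agent.P352.N86.PT

end
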