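import Vale.Agent.P352.N86.K.PT
import Vale.Agent.P352.N86.X.LW
import Vale.Agent.P352.NC.Defs

/-!
# P352: the point functionals of `J_b` and `T_bb`
-/

set_option linter.all false

noncomputable section

open MeasureTheory Filter Topology SchwartzMap Complex
open scoped SchwartzMap ComplexConjugate ContDiff LineDeriv ENNReal NNReal

namespace Vale.Agent.P352.N86.PT

open GF (Ix V Fn Fld Theory Sch IsLor bas eta o sim pd tr ev bar)
open H246 H496 H755 H15 H846 H246R H746 N86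
open UniformSpace (Completion)

variable {D : Type*} [NormedAddCommGroup D] [InnerProductSpace ℂ D]
variable {Q : GF.Theory D} {T : Ix → Ix → GF.Fld D} {J : Ix → GF.Fld D}
variable {H : D → D} {A : (V → V) → D → D}

/-! ### Rotations -/

section

variable (R : H15.Rep Q A)
include R

lemma U_e0 {L : Ix → V} (hL : GF.IsLor L) (hLo : sim 1 L 0 (bas o 1) = bas o 1) (t : ℝ) (v : D) :
    Q.U 1 L 0 (U1 Q (t • eb 0) v) = U1 Q (t • eb 0) (Q.U 1 L 0 v) := by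
  have h := U_scaleR R one_pos hL (-(t • eb 0)) v
  rw [neg_neg] at h
  rw [← h]
  congr 1
  have e1 : (eb 0 : Mink) = WithLp.toLp 2 (bas o 1) := by
    rw [bas_eq, one_smul]
    rfl
  have e2 : lam L (eb 0) = eb 0 := by
    rw [e1, ← toLp_sim, hLo]
  have e3 : lam L (-(t • eb 0)) = -(t • lam L (eb 0)) := by
    ext n
    simp only [lam_apply, PiLp.neg_apply, PiLp.smul_apply, smul_eq_mul, neg_mul,
      Finset.sum_neg_distrib, Finset.mul_sum, mul_assoc]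
  rw [one_smul, e3, e2, neg_neg]

/-- the energy operator commutes with rotations -/
lemma H_rot {L : Ix → V} (hL : GF.IsLor L) (hLo : sim 1 L 0 (bas o 1) = bas o 1) (v : D) :
    HR A (Q.U 1 L 0 v) = Q.U 1 L 0 (HR A v) := by
  have hE := en_of R
  have h1 := hd_H hE (Q.U 1 L 0 v)
  have h2 := hasDerivAt_UL (Q := Q) one_pos hL (hd_H hE v)
  have e : (fun t : ℝ => U1 Q (t • eb 0) (Q.U 1 L 0 v)) =
      fun t : ℝ => Q.U 1 L 0 (U1 Q (t • eb 0) v) := by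
    funext t
    rw [U_e0 R hL hLo]
  rw [e] at h1
  have h3 := h1.unique h2
  rw [U_smul one_pos hL] at h3
  have h4 := congrArg (fun w => (-I) • w) h3
  have h5 : -I * I = 1 := by rw [neg_mul, I_mul_I, neg_neg]
  simp only [smul_smul (-I) I, h5, one_smul] at h4
  exact h4

lemma pw1_lor {L : Ix → V} (hL : GF.IsLor L) (hLo : sim 1 L 0 (bas o 1) = bas o 1) (n : ℕ)
    (v : D) : pw1 (HR A) n (Q.U 1 L 0 v) = Q.U 1 L 0 (pw1 (HR A) n v) := by
  induction n generalizing v with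
  | zero => rfl
  | succ n ih =>
    show pw1 (HR A) n (Q.U 1 L 0 v + HR A (Q.U 1 L 0 v)) = Q.U 1 L 0 (pw1 (HR A) n (v + HR A v))
    rw [H_rot R hL hLo, ← U_add one_pos hL, ih]

omit R in
lemma Rt_e0 (θ ψ : ℝ) : sim 1 (Rt θ ψ) 0 (bas o 1) = bas o 1 := by
  funext n
  fin_cases n <;> simp [sim, Rt, bas, o, Fin.sum_univ_four]

omit R in
lemma linv_Rt_e0 (θ ψ : ℝ) : sim 1 (linv (Rt θ ψ)) 0 (bas o 1) = bas o 1 := by
  funext n
  fin_cases n <;> simp [sim, linv, Rt, bas, o, Fin.sum_univ_four, GF.eta]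

theorem pw1_rot (n : ℕ) (θ ψ : ℝ) (v : D) :
    pw1 (HR A) n (Q.U 1 (Rt θ ψ) 0 v) = Q.U 1 (Rt θ ψ) 0 (pw1 (HR A) n v) :=
  pw1_lor R (isLor_Rt θ ψ) (Rt_e0 θ ψ) n v

/-- the growth bound of a point functional along rotations -/
theorem PtF.rot {κ : 𝓢(Mink, ℂ) → Completion D} {p : D → ℂ} (h : PtF Q (HR A) κ p) :
    ∃ (N : ℕ) (C : ℝ), ∀ (θ ψ : ℝ) (x : Mink) (w : D),
      ‖p (U1 Q (-x) (Q.U 1 (Rt θ ψ) 0 w))‖ ≤ C * ∑ k ∈ Finset.range N, ‖pw1 (HR A) k w‖ := by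
  obtain ⟨C, n, hC, hb⟩ := h.bd
  refine ⟨n, C, fun θ ψ x w => (hb (-x) _).trans ?_⟩
  refine mul_le_mul_of_nonneg_left (Finset.sum_le_sum fun k _ => ?_) hC
  rw [pw1_rot R, U_nrm0 one_pos (isLor_Rt θ ψ)]

/-! ### The functionals -/

/-- the point functional of `J_b` -/
theorem ptF_vc (hJ : IsVirial Q T J) (b : V) : PtF Q (HR A)
    (fun F => ((∑ m, ((GF.eta m * b m : ℝ) : ℂ) • J m (fl F) Q.vac : D) : Completion D))
    (vc Q J b) := by
  have hf : ∀ m, Q.fld (J m) := fun m => Q.bose_fld _ (hJ.bose m)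
  refine (PtF.sum (fun m => ptF_vf (en_of R) (hf m)) (fun m => ((GF.eta m * b m : ℝ) : ℂ))).congr
    (fun F => ?_) (fun v => ?_)
  · simp only [Fin.sum_univ_four, Completion.coe_add, Completion.coe_smul]
  · simp only [conj_ofReal]
    rfl

/-- the point functional of `T_bb` -/
theorem ptF_vtt (hT : Q.IsStress T) (b : V) : PtF Q (HR A)
    (fun F => ((∑ m, ∑ n, ((GF.eta m * b m * (GF.eta n * b n) : ℝ) : ℂ) •
      T m n (fl F) Q.vac : D) : Completion D)) (vtt Q T b) := by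
  have hf : ∀ m n, Q.fld (T m n) := fun m n => Q.bose_fld _ (hT.bose m n)
  refine (PtF.sum (ι := Ix × Ix) (fun k => ptF_vf (en_of R) (hf k.1 k.2))
    (fun k => ((GF.eta k.1 * b k.1 * (GF.eta k.2 * b k.2) : ℝ) : ℂ))).congr
    (fun F => ?_) (fun v => ?_)
  · rw [Fintype.sum_prod_type]
    simp only [Fin.sum_univ_four, Completion.coe_add, Completion.coe_smul]
  · simp only [conj_ofReal]
    rw [Fintype.sum_prod_type]
    rfl

omit R in
/-- point functionals with values in `D` and weight two -/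
theorem PtF.pf {k : 𝓢(Mink, ℂ) → D} {p : D → ℂ}
    (h : PtF Q H (fun F => ((k F : D) : Completion D)) p)
    (hwd : ∀ t v, p (H496.Wd Q t v) = (((Real.exp t ^ 2)⁻¹ : ℝ) : ℂ) * p v) : PF Q p where
  add := h.add
  smul := h.smul
  cont := h.cont'
  bdd := h.bdd
  rep := fun F => ⟨k F, fun v => by rw [← h.rep F v, Completion.inner_coe]⟩
  wd := hwd

theorem pf_vc (hJ : IsVirial Q T J) : PF Q (vc Q J (nu (-1))) :=
  (ptF_vc R hJ _).pf (vcR_Wd R hJ)

theorem pf_vtt (hT : Q.IsStress T) : PF Q (vtt Q T (nu (-1))) :=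
  (ptF_vtt R hT _).pf (vtt_Wd R hT)

theorem rot_vc (hJ : IsVirial Q T J) (b : V) : ∃ (N : ℕ) (C : ℝ), ∀ (θ ψ : ℝ) (x : Mink) (w : D),
    ‖vc Q J b (U1 Q (-x) (Q.U 1 (Rt θ ψ) 0 w))‖ ≤
      C * ∑ k ∈ Finset.range N, ‖pw1 (HR A) k w‖ := (ptF_vc R hJ b).rot R

theorem rot_vtt (hT : Q.IsStress T) (b : V) : ∃ (N : ℕ) (C : ℝ), ∀ (θ ψ : ℝ) (x : Mink) (w : D),
    ‖vtt Q T b (U1 Q (-x) (Q.U 1 (Rt θ ψ) 0 w))‖ ≤
      C * ∑ k ∈ Finset.range N, ‖pw1 (HR A) k w‖ := (ptF_vtt R hT b).rot R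

end

end Vale.Agent.P352.N86.PT

end
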